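import Vale.Agent.P200.PPow.Spec
import Vale.Agent.P200.PPow.Glue

/-!
What the algebra of the rows has to provide, and what it gives: symmetrically commuting rows over
a division ring with triangular powers.
-/

namespace Vale.Agent.P200.PMix

open MvPolynomial PPow
open scoped TensorProduct

universe u

/-- The rows for forms `f` of degrees `p ^ s`: letters in disjoint ranges of the filtration,
commuting at each point, their iterated `p`-th powers killed below the degree and triangular at
the degree. -/
structure RowData {K : Type u} [Field K] (p : ℕ) {n : ℕ} (f : Fin n → MvPolynomial (Fin n) K)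
    (s : Fin n → ℕ) where
  /-- the coordinates -/
  ι : Type
  [fin : Fintype ι]
  [dec : DecidableEq ι]
  /-- the algebra -/
  C : PPow.Core K ι
  /-- thresholds separating the rows -/
  w : Fin n → ℕ
  /-- the letters -/
  letter : Fin n → Fin n → ι
  par_false : ∀ i, ¬ C.par i
  aniso : C.Aniso p
  letter_inj : ∀ k, Function.Injective (letter k)
  deg_letter : ∀ k i, C.deg (letter k i) < w k
  deg_later : ∀ k m i, k < m → w k ≤ C.deg (letter m i)
  comm : ∀ (k m : Fin n) (c : Fin n → K),
    C.mu (∑ i, c i • Pi.single (letter k i) 1) (∑ i, c i • Pi.single (letter m i) 1) =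
      C.mu (∑ i, c i • Pi.single (letter m i) 1) (∑ i, c i • Pi.single (letter k i) 1)
  piter_killed : ∀ (k : Fin n) (c : Fin n → K) (j : ℕ), j < s k → ∀ i,
    C.piter p (∑ m, c m • Pi.single (letter k m) 1) j i ≠ 0 → C.killed i
  /-- the number of forms in the ideal -/
  size : Fin n → ℕ
  /-- forms in the ideal -/
  h : ∀ k, Fin (size k) → MvPolynomial (Fin n) K
  /-- their coefficients -/
  Z : ∀ k, Fin (size k) → ι → K
  h_mem : ∀ k l, h k l ∈ Ideal.span (Set.range f)
  /-- the triangular coefficients -/
  G : Fin n → Fin n → MvPolynomial (Fin n) K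
  G_zero : ∀ k m, ¬ k < m → G k m = 0
  G_hom : ∀ k m, (G k m).IsHomogeneous (p ^ s k - 1)
  piter_top : ∀ (k : Fin n) (c : Fin n → K),
    C.piter p (∑ m, c m • Pi.single (letter k m) 1) (s k) =
      (∑ l, eval c (h k l) • Z k l) +
        ∑ m, eval c (G k m) • ∑ i, c i • Pi.single (letter m i) 1

/-- Rows over a division ring: linear forms commuting with one another in the symmetrised sense,
an inverse matrix, and powers triangular in `D ⊗ S/(f)`. -/
structure Rows {K : Type u} [Field K] {n : ℕ} (f : Fin n → MvPolynomial (Fin n) K)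
    (a : Fin n → ℕ) (D : Type u) [DivisionRing D] [Algebra K D] where
  /-- the rows -/
  g : Fin n → Fin n → D
  /-- an inverse -/
  E : Fin n → Fin n → D
  diag_comm : ∀ k l i, g l i * g k i = g k i * g l i
  sym_comm : ∀ k l i j, g l j * g k i + g l i * g k j = g k i * g l j + g k j * g l i
  inv : ∀ i j, ∑ k, E i k * g k j = if i = j then 1 else 0
  /-- the multipliers of the later rows -/
  mult : Fin n → Fin n → D ⊗[K] Quad.Quo f
  mult_zero : ∀ k m, ¬ k < m → mult k m = 0
  mult_mem : ∀ k m, mult k m ∈ Submodule.span D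
    ((fun q : Quad.Quo f => (1 : D) ⊗ₜ[K] q) '' (Quad.quoDeg f (a k - 1) : Set (Quad.Quo f)))
  pow : ∀ k, (∑ i, g k i ⊗ₜ[K] Quad.mkA f (X i) : D ⊗[K] Quad.Quo f) ^ a k =
    ∑ m, mult k m * ∑ i, g m i ⊗ₜ[K] Quad.mkA f (X i)

/-- Every regular sequence of these degrees filling all variables has rows. -/
def HasRows (K : Type u) [Field K] {n : ℕ} (a : Fin n → ℕ) : Prop :=
  ∀ f : Fin n → MvPolynomial (Fin n) K, (∀ i, (f i).IsHomogeneous (a i)) →
    RegList ⊥ (List.ofFn f) →
    ∃ (D : Type u) (_ : DivisionRing D) (_ : Algebra K D), Nonempty (Rows f a D)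

end Vale.Agent.P200.PMix
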