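import Vale.Agent.P200.Prime.CommonZero

/-!
One sequence of linear forms completing every initial part of a regular sequence to a sequence
without common zero.
-/

namespace Vale.Agent.P200.PMix

open MvPolynomial

variable {K : Type*} [Field K]

lemma regList_prefix : ∀ {σ : Type*} (A B : List (MvPolynomial σ K)) (J : Ideal (MvPolynomial σ K)),
    RegList J (A ++ B) → RegList J A
  | _, [], _, _, _ => trivial
  | _, _ :: A, B, _, h => ⟨h.1, regList_prefix A B _ h.2⟩

/-- One linear form avoiding the zero divisors modulo finitely many ideals with vanishing socle. -/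
lemma exists_linear_nzd_all {σ ι : Type*} [Finite σ] [Infinite K] (s : Finset ι)
    (J : ι → Ideal (MvPolynomial σ K)) (h : ∀ c ∈ s, SocFree (J c)) :
    ∃ l : MvPolynomial σ K, l.IsHomogeneous 1 ∧ ∀ c ∈ s, Nzd (J c) l := by
  classical
  by_contra hcon
  push Not at hcon
  set S := MvPolynomial σ K
  have hfin := fun c => associatedPrimes.finite S (S ⧸ J c)
  set V := homogeneousSubmodule σ K 1
  let t : Finset (Subspace K V) :=
    s.biUnion fun c => (hfin c).toFinset.image fun P => (P.restrictScalars K).comap V.subtype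
  have hcover : (⋃ p ∈ t, (p : Set V)) = Set.univ := by
    rw [Set.eq_univ_iff_forall]
    intro l
    obtain ⟨c, hc, hl⟩ := hcon (l : S) l.2
    unfold Nzd at hl
    push Not at hl
    obtain ⟨u, hu1, hu2⟩ := hl
    have : (l : S) ∈ {r : S | ∃ x : S ⧸ J c, x ≠ 0 ∧ r • x = 0} :=
      ⟨Submodule.Quotient.mk u, fun h0 => hu2 ((Submodule.Quotient.mk_eq_zero (J c)).1 h0),
        (Submodule.Quotient.mk_eq_zero (J c)).2 hu1⟩
    rw [← biUnion_associatedPrimes_eq_zero_divisors S (S ⧸ J c), Set.mem_iUnion₂] at this
    obtain ⟨P, hP, hlP⟩ := this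
    rw [Set.mem_iUnion₂]
    exact ⟨_, Finset.mem_biUnion.2 ⟨c, hc, Finset.mem_image.2
      ⟨P, (hfin c).mem_toFinset.2 hP, rfl⟩⟩, hlP⟩
  obtain ⟨c, hc, hP'⟩ := Finset.mem_biUnion.1 (Subspace.top_mem_of_biUnion_eq_univ hcover)
  obtain ⟨P, hP, hPtop⟩ := Finset.mem_image.1 hP'
  rw [(hfin c).mem_toFinset, AssociatedPrimes.mem_iff, isAssociatedPrime_iff] at hP
  obtain ⟨hprime, x, hx⟩ := hP
  obtain ⟨u, rfl⟩ := Submodule.Quotient.mk_surjective (J c) x
  have hXu : ∀ i, X i * u ∈ J c := by
    intro i
    have : (⟨X i, isHomogeneous_X K i⟩ : V) ∈ (P.restrictScalars K).comap V.subtype :=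
      hPtop ▸ Submodule.mem_top
    have h1 : (X i : S) ∈ P := this
    rw [hx, Submodule.mem_colon_singleton, Submodule.mem_bot, ← Submodule.Quotient.mk_smul,
      Submodule.Quotient.mk_eq_zero] at h1
    exact h1
  have hu := h c hc u hXu
  rw [(Submodule.Quotient.mk_eq_zero (J c)).2 hu] at hx
  exact hprime.ne_top (by rw [hx]; ext r; simp [Submodule.mem_colon_singleton])

/-- The linear forms, as many as needed, completing all initial parts to regular sequences. -/
lemma exists_forms [Infinite K] {n : ℕ} {a : Fin n → ℕ} (ha : ∀ i, 0 < a i)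
    {f : Fin n → MvPolynomial (Fin n) K} (hf : ∀ i, (f i).IsHomogeneous (a i))
    (hreg : RegList ⊥ (List.ofFn f)) : ∀ m : ℕ, ∃ ℓ : ℕ → MvPolynomial (Fin n) K,
      (∀ s, (ℓ s).IsHomogeneous 1) ∧ ∀ c, ∀ s ≤ m, c + 1 + s ≤ n →
        RegList ⊥ ((List.ofFn f).take (c + 1) ++ (List.range s).map ℓ) := by
  classical
  intro m
  induction m with
  | zero =>
    refine ⟨fun _ => 0, fun _ => isHomogeneous_zero _ _ _, fun c s hs _ => ?_⟩
    obtain rfl : s = 0 := Nat.le_zero.1 hs
    have h := regList_prefix ((List.ofFn f).take (c + 1)) ((List.ofFn f).drop (c + 1)) ⊥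
      (by rw [List.take_append_drop]; exact hreg)
    simpa using h
  | succ m ih =>
    obtain ⟨ℓ, hℓ, hregℓ⟩ := ih
    have hposF : ∀ g ∈ List.ofFn f, HomogPos g := fun g hg => by
      obtain ⟨i, rfl⟩ := List.mem_ofFn.1 hg
      exact ⟨a i, ha i, hf i⟩
    let J : ℕ → Ideal (MvPolynomial (Fin n) K) := fun c =>
      Ideal.ofList ((List.ofFn f).take (c + 1) ++ (List.range m).map ℓ)
    obtain ⟨l, hl, hln⟩ := exists_linear_nzd_all ((Finset.range n).filter fun c => c + 1 + m < n) J
      fun c hc => socFree_regList _ _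
        (fun x hx => by obtain ⟨s, -, rfl⟩ := List.mem_map.1 hx; exact hℓ s)
        (fun g hg => hposF g (List.mem_of_mem_take hg))
        (by simp only [List.length_append, List.length_take, List.length_map, List.length_range,
              List.length_ofFn, Fintype.card_fin]
            have := (Finset.mem_filter.1 hc).2
            omega)
        (hregℓ c m le_rfl ((Finset.mem_filter.1 hc).2.le))
    refine ⟨Function.update ℓ m l, fun s => ?_, fun c s hs hn => ?_⟩
    · rcases eq_or_ne s m with rfl | h
      · rw [Function.update_self]; exact hl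
      · rw [Function.update_of_ne h]; exact hℓ s
    have hlow : ∀ t ≤ m, (List.range t).map (Function.update ℓ m l) = (List.range t).map ℓ :=
      fun t ht => List.map_congr_left fun x hx => Function.update_of_ne
        (by have := List.mem_range.1 hx; omega) _ _
    rcases Nat.lt_or_ge s (m + 1) with h | h
    · rw [hlow s (by omega)]
      exact hregℓ c s (by omega) hn
    obtain rfl : s = m + 1 := by omega
    rw [List.range_succ, List.map_append, hlow m le_rfl, ← List.append_assoc]
    simp only [List.map_cons, List.map_nil, Function.update_self]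
    refine regList_concat.2 ⟨hregℓ c m le_rfl (by omega), ?_⟩
    rw [sup_bot_eq]
    exact hln c (Finset.mem_filter.2 ⟨Finset.mem_range.2 (by omega), by omega⟩)

/-- Linear forms such that, for every `c`, the first `c + 1` forms and any `n - c - 1` or more of
the first linear forms have only the origin in common. -/
theorem exists_generic_linear [Infinite K] {n : ℕ} (f : Fin n → MvPolynomial (Fin n) K)
    (a : Fin n → ℕ) (ha : ∀ i, 0 < a i) (hf : ∀ i, (f i).IsHomogeneous (a i))
    (hreg : RegList ⊥ (List.ofFn f)) :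
    ∃ L : Fin n → (Fin n → K) →ₗ[K] K, ∀ c : Fin n, ∀ d : ℕ, n ≤ d + c.val + 1 →
      ∀ psi : Fin n → K, (∀ i ≤ c, eval psi (f i) = 0) →
        (∀ s : Fin n, s.val < d → L s psi = 0) → psi = 0 := by
  classical
  obtain ⟨ℓ, hℓ, hregℓ⟩ := exists_forms ha hf hreg n
  have hcoef : ∀ s, ∃ b : Fin n → K, ∑ i, b i • (X i : MvPolynomial (Fin n) K) = ℓ s := fun s =>
    (Submodule.mem_span_range_iff_exists_fun K).1 (by
      rw [← homogeneousSubmodule_one_eq_span_X]; exact hℓ s)
  choose b hb using hcoef
  refine ⟨fun s => ∑ i, b s.val i • LinearMap.proj i, fun c d hd psi hpsi hL => ?_⟩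
  set G := (List.ofFn f).take (c.val + 1) ++ (List.range (n - c.val - 1)).map ℓ with hG
  have hGlen : G.length = n := by
    simp only [hG, List.length_append, List.length_take, List.length_ofFn, List.length_map,
      List.length_range]
    have := c.2
    omega
  have hGpos : ∀ g ∈ G, HomogPos g ∧ eval psi g = 0 := by
    intro g hg
    rcases List.mem_append.1 hg with hg | hg
    · obtain ⟨i, hi, rfl⟩ := List.mem_take_iff_getElem.1 hg
      rw [List.getElem_ofFn]
      exact ⟨⟨_, ha _, hf _⟩, hpsi _ (by show i ≤ c.val; omega)⟩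
    · obtain ⟨s, hs, rfl⟩ := List.mem_map.1 hg
      rw [List.mem_range] at hs
      refine ⟨⟨1, one_pos, hℓ s⟩, ?_⟩
      have h := hL ⟨s, by omega⟩ (by show s < d; omega)
      simp only [LinearMap.coe_sum, Finset.sum_apply, LinearMap.smul_apply,
        LinearMap.proj_apply, smul_eq_mul] at h
      rw [← hb s, map_sum]
      simpa [smul_eval] using h
  let g : Fin n → MvPolynomial (Fin n) K := fun i => G[i.val]'(by have := i.2; omega)
  have hgG : List.ofFn g = G := List.ext_getElem (by simp [hGlen]) fun i h1 h2 => by simp [g]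
  have hmem : ∀ i, g i ∈ G := fun i => List.getElem_mem _
  choose m hm using fun i => (hGpos _ (hmem i)).1
  exact Prime.eq_zero_of_common_zero (fun i => (hm i).1) (fun i => (hm i).2)
    (hgG ▸ hregℓ c.val (n - c.val - 1) (by omega) (by have := c.2; omega)) psi
    fun i => (hGpos _ (hmem i)).2

end Vale.Agent.P200.PMix
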