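import Vale.Agent.P200.PMix.FormsSpec
import Vale.Agent.P200.PMix.Generic
import Vale.Agent.P200.PPow.Veronese

/-!
The forms and the linear forms of the rows for forms of degrees `p ^ s k`, from linear forms which
are generic with respect to the zeros of the levels.
-/

namespace Vale.Agent.P200.PMix

open MvPolynomial PPow

universe u

variable {K : Type u} [Field K] {n : ℕ}

/-- Forms of degree `p` on the exponents of degree `i` whose images lie in the ideal of `f` and
whose zeros are Veronese points killed by the forms of degree at most `p * i`. -/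
lemma exists_level_family {p i : ℕ} (hp : 2 ≤ p) (hi : 0 < i) {ι : Type*} (a : ι → ℕ)
    {f : ι → MvPolynomial (Fin n) K} (hf : ∀ l, (f l).IsHomogeneous (a l)) :
    ∃ (R : ℕ) (F : Fin R → MvPolynomial (Expn n i) K),
      (∀ r, (F r).IsHomogeneous p) ∧ (∀ r, mult K n i (F r) ∈ Ideal.span (Set.range f)) ∧
      ∀ lam : Expn n i → K, (∀ r, eval lam (F r) = 0) → lam = 0 ∨
        ∃ (c : K) (ψ : Fin n → K), c ≠ 0 ∧ ψ ≠ 0 ∧ (∀ l, a l ≤ p * i → eval ψ (f l) = 0) ∧
          ∀ α, lam α = c * eval ψ (monomial α.1 1) := by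
  classical
  let W : Submodule K (MvPolynomial (Expn n i) K) := homogeneousSubmodule (Expn n i) K p ⊓
    ((Ideal.span (Set.range f)).restrictScalars K).comap (mult K n i).toLinearMap
  have hfin : Module.Finite K (homogeneousSubmodule (Expn n i) K p) := by
    refine Submodule.finiteDimensional_of_le
      (S₂ := MvPolynomial.restrictTotalDegree (Expn n i) K p) fun G hG => ?_
    rw [mem_restrictTotalDegree]
    exact ((mem_homogeneousSubmodule _ _).1 hG).totalDegree_le
  have hWfin : FiniteDimensional K W := Submodule.finiteDimensional_of_le inf_le_left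
  obtain ⟨R, F, hspan⟩ := Submodule.fg_iff_exists_fin_generating_family.1
    (Module.Finite.iff_fg.1 hWfin)
  have hFW : ∀ r, F r ∈ W := fun r => hspan ▸ Submodule.subset_span ⟨r, rfl⟩
  refine ⟨R, F, fun r => (hFW r).1, fun r => (hFW r).2, fun lam hlam => ?_⟩
  have hW : ∀ G : MvPolynomial (Expn n i) K, G.IsHomogeneous p →
      mult K n i G ∈ Ideal.span (Set.range f) → eval lam G = 0 := by
    intro G hG hGf
    have : G ∈ Submodule.span K (Set.range F) := hspan.symm ▸ ⟨hG, hGf⟩
    clear hG hGf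
    induction this using Submodule.span_induction with
    | mem G hG => obtain ⟨r, rfl⟩ := hG; exact hlam r
    | zero => exact map_zero _
    | add G H _ _ hG hH => rw [map_add, hG, hH, add_zero]
    | smul t G _ hG => rw [smul_eval, hG, mul_zero]
  by_cases hlam0 : lam = 0
  · exact Or.inl hlam0
  refine Or.inr ?_
  obtain ⟨γ, hγ⟩ := Function.ne_iff.1 hlam0
  have hex : ∀ α β α' β' : Expn n i, α.1 + β.1 = α'.1 + β'.1 →
      lam α * lam β = lam α' * lam β' := by
    intro α β α' β' h
    have h0 := hW ((X α * X β - X α' * X β') * X γ ^ (p - 2))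
      (by
        have h2 : (X α * X β - X α' * X β' : MvPolynomial (Expn n i) K).IsHomogeneous 2 :=
          ((isHomogeneous_X K α).mul (isHomogeneous_X K β)).sub
            ((isHomogeneous_X K α').mul (isHomogeneous_X K β'))
        have := h2.mul (isHomogeneous_X_pow γ (p - 2))
        rwa [Nat.add_sub_cancel' hp] at this)
      (by
        rw [map_mul, map_sub, map_mul, map_mul, mult_X, mult_X, mult_X, mult_X, monomial_mul,
          monomial_mul, h, sub_self, zero_mul]
        exact zero_mem _)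
    simp only [map_mul, map_sub, map_pow, eval_X, mul_eq_zero, sub_eq_zero] at h0
    exact h0.resolve_right fun h' => hγ (pow_eq_zero_iff'.1 h').1
  obtain ⟨P, j, hP, hPne⟩ : ∃ (P : Expn n i) (j : Fin n), P.1 j = i ∧ lam P ≠ 0 := by
    by_contra hne
    exact hlam0 (eq_zero_of_exchange hex hi fun α j hj => by
      by_contra hα
      exact hne ⟨α, j, hj, hα⟩)
  obtain ⟨ψ, hψj, hψ⟩ := eq_veronese_of_exchange hex hi hP hPne
  refine ⟨lam P, ψ, hPne, fun h => ?_, fun l hl => ?_, hψ⟩
  · simp [h] at hψj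
  · obtain ⟨G, hG, hGm⟩ := exists_lift (p := p) (i := i) (f := X j ^ (p * i - a l) * f l) (by
      have := (isHomogeneous_X_pow (R := K) j (p * i - a l)).mul (hf l)
      rwa [Nat.sub_add_cancel hl] at this)
    have h := hW G hG (hGm ▸ Ideal.mul_mem_left _ _ (Ideal.subset_span ⟨l, rfl⟩))
    rw [funext hψ, eval_veronese hG, hGm, map_mul, map_pow, eval_X, hψj, one_pow, one_mul,
      mul_eq_zero] at h
    exact h.resolve_left (pow_ne_zero _ hPne)

/-- Parameters of rows for forms of degrees `p ^ s k`, from generic linear forms. -/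
theorem exists_params_of_generic {p : ℕ} [hp : Fact p.Prime]
    (f : Fin n → MvPolynomial (Fin n) K) (s : Fin n → ℕ) (hs : ∀ k, 1 ≤ s k) (hmono : Monotone s)
    (hf : ∀ k, (f k).IsHomogeneous (p ^ s k)) (L : Fin n → (Fin n → K) →ₗ[K] K)
    (hL : ∀ (c : Fin n) (d : ℕ), n ≤ d + c + 1 → ∀ ψ : Fin n → K,
      (∀ i, i ≤ c → eval ψ (f i) = 0) → (∀ t : Fin n, (t : ℕ) < d → L t ψ = 0) → ψ = 0) :
    ∃ P : Params K p n, (∀ k, P.e k + 1 = s k) ∧ Nonempty (P.Good f) := by
  classical
  have h2 := hp.out.two_le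
  choose R F hF hmem hzero using fun k : Fin n =>
    exists_level_family (i := p ^ (s k - 1)) h2 (pow_pos hp.out.pos _) (fun l => p ^ s l) hf
  -- the last form of the level of a row
  have hlast : ∀ k : Fin n, ∃ c : Fin n, s c ≤ s k ∧ ∀ i, s i ≤ s k → i ≤ c := fun k => by
    obtain ⟨c, hc, hmax⟩ := (Finset.univ.filter fun i => s i ≤ s k).exists_max_image id
      ⟨k, by simp⟩
    exact ⟨c, (Finset.mem_filter.1 hc).2, fun i hi => hmax i (by simp [hi])⟩
  choose c hc hcmax using hlast
  -- the linear forms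
  let lin : Fin n → Fin n → (Fin n → K) →ₗ[K] K := fun k m =>
    if k < m ∧ (m : ℕ) - k - 1 < n - c k - 1 then L ⟨(m : ℕ) - k - 1, by omega⟩ else 0
  have hlin : ∀ k m, ¬ k < m → lin k m = 0 := fun k m h => if_neg fun h' => h h'.1
  refine ⟨⟨fun k => s k - 1, R, F, hF, lin, hlin⟩, fun k => Nat.sub_add_cancel (hs k), ⟨{
    V := fun k ψ => ∀ i, s i ≤ s k → eval ψ (f i) = 0
    mult_mem := hmem
    veronese := fun k lam hlam => ?_
    separate := fun S ψ hS hψ => ?_ }⟩⟩
  · rcases hzero k lam hlam with h | ⟨t, ψ, ht, hψ, hV, hlam⟩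
    · exact Or.inl h
    · refine Or.inr ⟨t, ψ, ht, hψ, fun i hi => hV i ?_, hlam⟩
      rw [← pow_succ', Nat.sub_add_cancel (hs k)]
      exact Nat.pow_le_pow_right hp.out.pos hi
  -- the first linear form not vanishing at a point
  have hex : ∀ a ∈ S, ∃ t : ℕ, ∃ ht : t < n, t < n - c a - 1 ∧ L ⟨t, ht⟩ (ψ a) ≠ 0 := by
    intro a ha
    by_contra hne
    push Not at hne
    exact (hψ a ha).1 (hL (c a) (n - c a - 1) (by omega) (ψ a)
      (fun i hi => (hψ a ha).2 i ((hmono hi).trans (hc a))) fun t ht => hne t t.2 ht)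
  let T : Fin n → ℕ := fun a => if h : a ∈ S then Nat.find (hex a h) else 0
  have hT : ∀ a ∈ S, ∃ ht : T a < n, T a < n - c a - 1 ∧ L ⟨T a, ht⟩ (ψ a) ≠ 0 := fun a ha => by
    simp only [T, dif_pos ha]
    exact Nat.find_spec (hex a ha)
  have hTmin : ∀ a ∈ S, ∀ t (ht : t < n), t < n - c a - 1 → t < T a →
      L ⟨t, ht⟩ (ψ a) = 0 := fun a ha t ht htd htT => by
    simp only [T, dif_pos ha] at htT
    by_contra hne
    exact Nat.find_min (hex a ha) htT ⟨ht, htd, hne⟩
  -- the first row reached, with the least linear form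
  obtain ⟨a, ha, hmin⟩ := S.exists_min_image (fun a : Fin n => ((a : ℕ) + T a) * (n + 1) + T a) hS
  obtain ⟨hta, htd, hLa⟩ := hT a ha
  have hac : (a : ℕ) ≤ c a := hcmax a a le_rfl
  refine ⟨a, ha, ⟨a + T a + 1, by omega⟩, Fin.lt_def.2 (by simp), ?_,
    L ⟨T a, hta⟩, hLa, fun b hb hba hbm => ?_⟩
  · simp only [lin]
    rw [if_pos ⟨Fin.lt_def.2 (by simp), by omega⟩]
    simpa [show (a : ℕ) + T a + 1 - a - 1 = T a by omega] using hLa
  simp only [lin]
  by_cases hd : (a : ℕ) + T a + 1 - b - 1 < n - c b - 1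
  swap
  · left
    rw [if_neg fun h => hd h.2, LinearMap.zero_apply]
  rw [if_pos ⟨hbm, hd⟩]
  have hbm' : (b : ℕ) < a + T a + 1 := hbm
  obtain ⟨htb, htbd, -⟩ := hT b hb
  by_cases hlt : (a : ℕ) + T a + 1 - b - 1 < T b
  · exact Or.inl (hTmin b hb _ (by omega) hd hlt)
  right
  have hle : (b : ℕ) + T b ≤ a + T a := by omega
  have h1 := hmin b hb
  have heq : (b : ℕ) + T b = a + T a := by
    by_contra hne
    have hlt' : (b : ℕ) + T b + 1 ≤ a + T a := by omega
    have := Nat.mul_le_mul_right (n + 1) hlt'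
    rw [add_mul, one_mul] at this
    omega
  have hab : (b : ℕ) ≠ a := fun h => hba (Fin.ext h)
  rw [heq] at h1
  exact hTmin b hb _ hta (by omega) (by omega)

/-- Parameters of rows for a regular sequence of forms of degrees `p ^ s k`. -/
theorem exists_params [IsAlgClosed K] {p : ℕ} [hp : Fact p.Prime]
    (f : Fin n → MvPolynomial (Fin n) K) (s : Fin n → ℕ) (hs : ∀ k, 1 ≤ s k) (hmono : Monotone s)
    (hf : ∀ k, (f k).IsHomogeneous (p ^ s k)) (hreg : RegList ⊥ (List.ofFn f)) :
    ∃ P : Params K p n, (∀ k, P.e k + 1 = s k) ∧ Nonempty (P.Good f) := by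
  obtain ⟨L, hL⟩ := exists_generic_linear f (fun k => p ^ s k) (fun k => pow_pos hp.out.pos _) hf hreg
  exact exists_params_of_generic f s hs hmono hf L hL

end Vale.Agent.P200.PMix
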