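import Vale.Agent.P200.PPow.Instance

/-!
The part of the algebra of a core supported on coordinates of high degree: stable under operators of
high degree, and free over it on operators of low degree.
-/

namespace Vale.Agent.P200.PMix

open MvPolynomial Module PPow
open _root_.Vale.Agent.P200.Prime (Par)

universe u

namespace Avoid

variable {K : Type u} [Field K] {ι : Type} [Fintype ι] [DecidableEq ι] (C : Core K ι)
variable (p : ℕ) [hp : Fact p.Prime] [CharP K p] (d : ℕ)

/-- The coordinates of degree at least `d`. -/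
def high : Set ι := {i | d ≤ C.deg i}

/-- Exponents with no coordinate of degree below `d`. -/
def free : Set (Fin C.r → Fin p) := {α | ∀ j, C.deg (C.gi j) < d → (α j : ℕ) = 0}

/-- The part of the quotient supported in degrees at least `d`. -/
noncomputable def avoidS : Submodule (Par K C.q) (C.S0 p) :=
  Submodule.span (Par K C.q) (C.xBasis p '' free C p d)

/-- The part of the algebra supported in degrees at least `d`. -/
noncomputable def avoid : Submodule (Par K C.q) (C.R p) := (avoidS C p d).comap (C.ev p)

/-- An operator of a vector as an element of the algebra. -/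
noncomputable def op (x : ι → K) : C.R p := ⟨C.rhoQ x, C.rhoQ_mem p x⟩

variable {C p d}

omit [CharP K p] in
lemma qm_supported {f : MvPolynomial ι K} (hf : f ∈ supported K (high C d)) :
    C.qm p f ∈ avoidS C p d := by
  rw [f.as_sum, map_sum]
  refine Submodule.sum_mem _ fun γ hγ => ?_
  rw [show monomial γ (coeff γ f) = coeff γ f • monomial γ (1 : K) by
    rw [smul_monomial, smul_eq_mul, mul_one], map_smul,
    ← algebraMap_smul (Par K C.q) (coeff γ f)]
  refine Submodule.smul_mem _ _ ?_
  rcases C.qm_monomial_mem p γ with h | ⟨β, α, he, h⟩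
  · rw [h]; exact zero_mem _
  · rw [h]
    refine Submodule.smul_mem _ _ (Submodule.subset_span ⟨α, fun j hj => ?_, C.xBasis_apply p α⟩)
    have h0 : γ (C.gi j) = 0 := by
      by_contra hne
      have hvar : C.gi j ∈ f.vars := (mem_vars_iff_mem_support _).2
        ⟨γ, hγ, Finsupp.mem_support_iff.2 hne⟩
      exact absurd (mem_supported.1 hf (Finset.mem_coe.2 hvar)) (not_le.2 hj)
    rw [← he] at h0
    by_cases hkill : C.killed (C.gi j)
    · rwa [C.expo'_killed _ _ _ hkill, C.sum_gi j rfl] at h0
    · obtain ⟨l, hl⟩ := C.exists_pi hkill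
      rw [← hl, C.expo'_pi, C.sum_gi j hl.symm] at h0
      omega

omit [CharP K p] [Fact p.Prime] in
lemma xm_supported {α : Fin C.r → Fin p} (h : α ∈ free C p d) :
    C.xm p α ∈ supported K (high C d) := by
  refine Subalgebra.prod_mem _ fun j _ => ?_
  by_cases hj : C.deg (C.gi j) < d
  · rw [h j hj, pow_zero]; exact one_mem _
  · exact Subalgebra.pow_mem _ ((X_mem_supported (R := K)).2
      (show C.gi j ∈ high C d from not_lt.1 hj)) _

omit [CharP K p] [Fact p.Prime] in
lemma der_supported (y : ι) {f : MvPolynomial ι K} (hf : f ∈ supported K (high C d)) :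
    C.der (Pi.single y 1) f ∈ supported K (high C d) := by
  rw [supported_eq_adjoin_X] at hf
  induction hf using Algebra.adjoin_induction with
  | mem f hf =>
    obtain ⟨a, ha, rfl⟩ := hf
    rw [C.der_X, Core.lin_apply]
    refine Subalgebra.sum_mem _ fun i _ => ?_
    by_cases hi : C.mu (Pi.single y 1) (Pi.single a 1) i = 0
    · rw [hi, zero_smul]; exact zero_mem _
    · exact Subalgebra.smul_mem _ ((X_mem_supported (R := K)).2
        (show i ∈ high C d from
          le_trans (le_trans ha (Nat.le_add_left _ _)) (C.filtered y a i hi))) _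
  | algebraMap a => rw [Derivation.map_algebraMap]; exact zero_mem _
  | add f g _ _ hf hg => rw [map_add]; exact add_mem hf hg
  | mul f g hf' hg' hf hg =>
    rw [Derivation.leibniz, smul_eq_mul, smul_eq_mul]
    rw [← supported_eq_adjoin_X] at hf' hg'
    exact add_mem (mul_mem hf' hg) (mul_mem hg' hf)

/-- An operator acts on the part of high degree as multiplication by its coordinate, up to that
part. -/
lemma rhoQ_sub_mem (y : ι) {s : C.S0 p} (hs : s ∈ avoidS C p d) :
    C.rhoQ (Pi.single y 1) s - C.qm p (X y) * s ∈ avoidS C p d := by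
  induction hs using Submodule.span_induction with
  | mem s hs =>
    obtain ⟨α, hα, rfl⟩ := hs
    rw [C.xBasis_apply, C.rhoQ_qm, C.rho_apply, Core.lin_single, one_smul, map_add, map_mul,
      add_sub_cancel_left]
    exact qm_supported (der_supported y (xm_supported hα))
  | zero => simp
  | add a b _ _ ha hb =>
    rw [map_add, mul_add, add_sub_add_comm]
    exact add_mem ha hb
  | smul t a _ ha =>
    rw [C.rhoQ_par, mul_smul_comm, ← smul_sub]
    exact Submodule.smul_mem _ _ ha

omit [CharP K p] in
lemma mul_X_mem {y : ι} (hy : d ≤ C.deg y) {s : C.S0 p} (hs : s ∈ avoidS C p d) :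
    C.qm p (X y) * s ∈ avoidS C p d := by
  induction hs using Submodule.span_induction with
  | mem s hs =>
    obtain ⟨α, hα, rfl⟩ := hs
    rw [C.xBasis_apply, ← map_mul]
    exact qm_supported (mul_mem (X_mem_supported.2 hy) (xm_supported hα))
  | zero => simp
  | add a b _ _ ha hb => rw [mul_add]; exact add_mem ha hb
  | smul t a _ ha => rw [mul_smul_comm]; exact Submodule.smul_mem _ _ ha

lemma op_mul_mem {y : ι} (hy : d ≤ C.deg y) {T : C.R p} (hT : T ∈ avoid C p d) :
    op C p (Pi.single y 1) * T ∈ avoid C p d := by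
  show C.rhoQ (Pi.single y 1) (C.ev p T) ∈ avoidS C p d
  have h := add_mem (rhoQ_sub_mem y hT) (mul_X_mem hy hT)
  rwa [sub_add_cancel] at h

lemma one_mem_avoid : (1 : C.R p) ∈ avoid C p d := by
  show C.ev p 1 ∈ avoidS C p d
  rw [Core.ev_apply, OneMemClass.coe_one, Module.End.one_apply, ← map_one (C.qm p)]
  exact qm_supported (one_mem _)

/-- Operators of distinct generators of low degree are independent over the part of high degree. -/
theorem indep {N : ℕ} (y : Fin N → ι) (hy : Function.Injective y) (hgen : ∀ i, ¬ C.par (y i))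
    (hlow : ∀ i, C.deg (y i) < d) (T : Fin N → C.R p) (hT : ∀ i, T i ∈ avoid C p d)
    (h : ∑ i, op C p (Pi.single (y i) 1) * T i = 0) : T = 0 := by
  classical
  choose kk hkk using fun i => C.exists_gi (hgen i)
  set τ : Fin N → C.S0 p := fun i => C.ev p (T i)
  have hzero : ∀ s ∈ avoidS C p d, ∀ α, (C.xBasis p).repr s α ≠ 0 → ∀ i, (α (kk i) : ℕ) = 0 :=
    fun s hs α hα i => ((C.xBasis p).mem_span_image.1 hs (Finsupp.mem_support_iff.2 hα)) (kk i)
      (by rw [hkk]; exact hlow i)
  let up : Fin N → (Fin C.r → Fin p) → Fin C.r → Fin p := fun i α =>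
    Function.update α (kk i) ⟨1, hp.out.one_lt⟩
  have hup : ∀ i α, (up i α (kk i) : ℕ) = 1 := fun i α => by simp [up]
  have hmul : ∀ i, C.qm p (X (y i)) * τ i =
      ∑ α, (C.xBasis p).repr (τ i) α • C.xBasis p (up i α) := by
    intro i
    conv_lhs => rw [← (C.xBasis p).sum_repr (τ i), Finset.mul_sum]
    refine Finset.sum_congr rfl fun α _ => ?_
    by_cases hα : (C.xBasis p).repr (τ i) α = 0
    · simp [hα]
    · rw [mul_smul_comm]
      congr 1
      rw [C.xBasis_apply, C.xBasis_apply, ← map_mul]
      congr 1
      have h0 := hzero _ (hT i) α hα i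
      simp only [Core.xm]
      rw [← Finset.mul_prod_erase Finset.univ _ (Finset.mem_univ (kk i)),
        ← Finset.mul_prod_erase Finset.univ (fun j => (X (C.gi j) : MvPolynomial ι K) ^
          (up i α j : ℕ)) (Finset.mem_univ (kk i))]
      simp only [up, Function.update_self, h0, pow_zero, one_mul, pow_one, hkk]
      congr 1
      exact Finset.prod_congr rfl fun j hj => by
        rw [Function.update_of_ne (Finset.ne_of_mem_erase hj)]
  have hsum : ∑ i, C.qm p (X (y i)) * τ i ∈ avoidS C p d := by
    have h0 : ∑ i, C.rhoQ (Pi.single (y i) 1) (τ i) = 0 := by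
      have := congrArg (C.ev p) h
      rwa [map_sum, map_zero] at this
    have h1 : ∑ i, (C.rhoQ (Pi.single (y i) 1) (τ i) - C.qm p (X (y i)) * τ i) ∈ avoidS C p d :=
      Submodule.sum_mem _ fun i _ => rhoQ_sub_mem (y i) (hT i)
    rw [Finset.sum_sub_distrib, h0, zero_sub] at h1
    exact neg_mem_iff.1 h1
  funext i₀
  apply C.ev_injective p
  rw [Pi.zero_apply, map_zero]
  refine (C.xBasis p).repr.map_eq_zero_iff.1 (Finsupp.ext fun α₀ => ?_)
  by_contra hne
  rw [Finsupp.zero_apply] at hne
  apply hne
  have h1 : (C.xBasis p).repr (∑ i, C.qm p (X (y i)) * τ i) (up i₀ α₀) = 0 := by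
    by_contra hc
    have := hzero _ hsum _ hc i₀
    rw [hup] at this
    omega
  simp only [hmul, map_sum, map_smul, Finsupp.finsetSum_apply,
    Finsupp.smul_apply, Basis.repr_self, Finsupp.single_apply, smul_eq_mul, mul_ite, mul_one,
    mul_zero] at h1
  rw [Finset.sum_eq_single i₀, Finset.sum_eq_single α₀, if_pos rfl] at h1
  · exact h1
  · intro α _ hα
    split_ifs with he
    · by_contra hc
      refine hα (funext fun j => ?_)
      rcases eq_or_ne j (kk i₀) with rfl | hj
      · exact Fin.ext (by rw [hzero _ (hT i₀) α hc i₀, hzero _ (hT i₀) α₀ hne i₀])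
      · simpa [up, hj] using congrFun he j
    · rfl
  · simp
  · intro i _ hi
    refine Finset.sum_eq_zero fun α _ => ?_
    split_ifs with he
    · by_contra hc
      have h3 : kk i ≠ kk i₀ := fun hij => hi (hy (by rw [← hkk i, ← hkk i₀, hij]))
      have h2 := congrArg (fun x : Fin p => (x : ℕ)) (congrFun he (kk i))
      simp only [up, Function.update_self, Function.update_of_ne h3] at h2
      have := hzero _ (hT i₀) α₀ hne i
      omega
    · rfl
  · simp

end Avoid

end Vale.Agent.P200.PMix
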