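import Vale.Agent.P200.PMix.RowSpec
import Vale.Agent.P200.PMix.RowsAvoid

/-!
The data of the rows give rows over a division ring: the localisation of the algebra of the core.
-/

namespace Vale.Agent.P200.PMix

open MvPolynomial Module PPow
open scoped TensorProduct
open _root_.Vale.Agent.P200.Prime (Par Fr Loc toL)

universe u

/-- A power identity for all scalars becomes an identity of tensors modulo forms in the ideal. -/
lemma tensor_pow_eq {K : Type u} [Field K] [Infinite K] {n q : ℕ} {L : Type*} [Fintype L]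
    {D : Type u} [Ring D] [Algebra K D] (f : Fin n → MvPolynomial (Fin n) K)
    (h : L → MvPolynomial (Fin n) K) (hh : ∀ l, h l ∈ Ideal.span (Set.range f))
    (g : Fin n → D) (z : L → D) (G : Fin n → MvPolynomial (Fin n) K) (g' : Fin n → Fin n → D)
    (hpow : ∀ c : Fin n → K, (∑ i, c i • g i) ^ q =
      ∑ l, eval c (h l) • z l + ∑ m, eval c (G m) • ∑ i, c i • g' m i) :
    (∑ i, g i ⊗ₜ[K] Quad.mkA f (X i) : D ⊗[K] Quad.Quo f) ^ q =
      ∑ m, ((1 : D) ⊗ₜ[K] Quad.mkA f (G m)) * ∑ i, g' m i ⊗ₜ[K] Quad.mkA f (X i) := by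
  have hpoly : (∑ i, g i ⊗ₜ[K] (X i : MvPolynomial (Fin n) K)) ^ q - (∑ l, z l ⊗ₜ[K] h l +
      ∑ m, ((1 : D) ⊗ₜ[K] G m) * ∑ i, g' m i ⊗ₜ[K] (X i : MvPolynomial (Fin n) K)) = 0 := by
    refine Prime.eq_zero_of_values _ fun c => ?_
    let ev : D ⊗[K] MvPolynomial (Fin n) K →ₐ[K] D :=
      (Algebra.TensorProduct.rid K K D).toAlgHom.comp
        (Algebra.TensorProduct.map (AlgHom.id K D) (aeval c))
    have hev : ∀ x, TensorProduct.rid K _
        ((aeval c : MvPolynomial (Fin n) K →ₐ[K] K).toLinearMap.lTensor _ x) = ev x := by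
      intro x
      induction x using TensorProduct.induction_on with
      | zero => simp only [map_zero]
      | add a b ha hb => simp only [map_add, ha, hb]
      | tmul a u => simp [ev]
    rw [hev, map_sub, sub_eq_zero]
    simpa [ev, map_sum, map_pow] using hpow c
  have h2 := congrArg
    (Algebra.TensorProduct.map (AlgHom.id K D)
      (Ideal.Quotient.mkₐ K (Ideal.span (Set.range f)))) hpoly
  simp only [map_sub, map_pow, map_sum, map_add, map_mul, map_zero, sub_eq_zero,
    Algebra.TensorProduct.map_tmul, AlgHom.id_apply] at h2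
  refine h2.trans ?_
  rw [Finset.sum_eq_zero (fun l _ => by
    rw [Ideal.Quotient.mkₐ_eq_mk, Ideal.Quotient.eq_zero_iff_mem.2 (hh l),
      TensorProduct.tmul_zero]), zero_add]
  rfl

namespace RowData

variable {K : Type u} [Field K] {p n : ℕ} [hp : Fact p.Prime] [CharP K p]
  {f : Fin n → MvPolynomial (Fin n) K} {s : Fin n → ℕ} (W : RowData p f s)

attribute [local instance] RowData.fin RowData.dec

/-- The vector of a row. -/
def vec (k : Fin n) (c : Fin n → K) : W.ι → K := ∑ i, c i • Pi.single (W.letter k i) 1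

/-- A letter as an element of the algebra. -/
noncomputable def xi (k i : Fin n) : W.C.R p := Avoid.op W.C p (Pi.single (W.letter k i) 1)

lemma coe_sum_xi (k : Fin n) (c : Fin n → K) :
    ((∑ i, c i • W.xi k i : W.C.R p) : Module.End K (W.C.S0 p)) = W.C.rhoQ (W.vec k c) := by
  rw [vec, map_sum, AddSubmonoidClass.coe_finsetSum]
  exact Finset.sum_congr rfl fun i _ => by rw [map_smul]; rfl

lemma comm_sum (k m : Fin n) (c : Fin n → K) :
    Commute (∑ i, c i • W.xi k i) (∑ i, c i • W.xi m i) := by
  refine Subtype.ext (sub_eq_zero.1 ?_)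
  rw [MulMemClass.coe_mul, MulMemClass.coe_mul, coe_sum_xi, coe_sum_xi, W.C.rhoQ_bracket, vec,
    vec, W.comm k m c, sub_self, map_zero]

lemma comm_diag (k m i : Fin n) : W.xi m i * W.xi k i = W.xi k i * W.xi m i := by
  have h := (W.comm_sum m k (Pi.single i 1)).eq
  simpa [Pi.single_apply] using h

lemma comm_sym (k m i j : Fin n) : W.xi m j * W.xi k i + W.xi m i * W.xi k j =
    W.xi k i * W.xi m j + W.xi k j * W.xi m i := by
  have h := (W.comm_sum m k (Pi.single i 1 + Pi.single j 1)).eq
  simp only [Pi.add_apply, add_smul, Finset.sum_add_distrib, Pi.single_apply, ite_smul, one_smul,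
    zero_smul, Finset.sum_ite_eq', Finset.mem_univ, if_true, add_mul, mul_add,
    W.comm_diag k m i, W.comm_diag k m j] at h
  have h' := congrArg (fun x => x - W.xi k i * W.xi m i - W.xi k j * W.xi m j) h
  convert h' using 1 <;> abel

/-- The powers of a row. -/
lemma xi_pow (k : Fin n) (c : Fin n → K) :
    (∑ i, c i • W.xi k i) ^ (p ^ s k) =
      ∑ l, eval c (W.h k l) • Avoid.op W.C p (W.Z k l) +
        ∑ m, eval c (W.G k m) • ∑ i, c i • W.xi m i := by
  set v := W.vec k c with hv
  have key : ∀ j, j ≤ s k → W.C.rhoQ (p := p) v ^ (p ^ j) = W.C.rhoQ (W.C.piter p v j) := by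
    intro j
    induction j with
    | zero => intro _; simp [Core.piter]
    | succ j ih =>
      intro hj
      rw [pow_succ, pow_mul, ih (by omega), W.C.rhoQ_pow]
      have hz : W.C.qm p (∑ i, W.C.piter p v j i ^ p • (X i : MvPolynomial W.ι K) ^ p) = 0 := by
        rw [map_sum]
        refine Finset.sum_eq_zero fun i _ => ?_
        by_cases hi : W.C.piter p v j i = 0
        · rw [hi, zero_pow hp.out.ne_zero, zero_smul, map_zero]
        · rw [map_smul, (W.C.qm_eq_zero p).2 fun γ hγ =>
            ⟨i, W.piter_killed k c j (by omega) i hi, ?_⟩, smul_zero]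
          rw [X_pow_eq_monomial] at hγ
          rw [Finset.mem_singleton.1 (support_monomial_subset hγ)]
          simp
      rw [hz, LinearMap.mulLeft_zero_eq_zero, add_zero]
      rfl
  refine Subtype.ext ?_
  rw [SubmonoidClass.coe_pow, coe_sum_xi, ← hv, key (s k) le_rfl, hv, vec, W.piter_top k c,
    map_add, map_sum, map_sum, AddMemClass.coe_add, AddSubmonoidClass.coe_finsetSum,
    AddSubmonoidClass.coe_finsetSum]
  congr 1
  · exact Finset.sum_congr rfl fun l _ => by rw [map_smul]; rfl
  · refine Finset.sum_congr rfl fun m _ => ?_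
    rw [SetLike.val_smul, coe_sum_xi, map_smul]
    rfl

/-- A letter in the localisation. -/
noncomputable def xiL (k i : Fin n) : Loc K W.C.q (W.C.R p) := toL (W.xi k i)

/-- The localisation of the part avoiding the rows up to `k`. -/
noncomputable def avoidL (k : Fin n) : Submodule (Fr K W.C.q) (Loc K W.C.q (W.C.R p)) :=
  Submodule.span (Fr K W.C.q) (toL '' (Avoid.avoid W.C p (W.w k) : Set (W.C.R p)))

lemma adjoin_le_avoidL (k : Fin n) {S : Set (Loc K W.C.q (W.C.R p))}
    (hS : ∀ y ∈ S, ∃ l i, k < l ∧ y = W.xiL l i) {x : Loc K W.C.q (W.C.R p)}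
    (hx : x ∈ Algebra.adjoin (Fr K W.C.q) S) : x ∈ W.avoidL k := by
  have key : ∀ w ∈ W.avoidL k, x * w ∈ W.avoidL k := by
    induction hx using Algebra.adjoin_induction with
    | mem y hy =>
      obtain ⟨l, i, hl, rfl⟩ := hS y hy
      intro w hw
      induction hw using Submodule.span_induction with
      | mem w hw =>
        obtain ⟨T, hT, rfl⟩ := hw
        rw [xiL, ← map_mul]
        exact Submodule.subset_span ⟨_, Avoid.op_mul_mem (W.deg_later k l i hl) hT, rfl⟩
      | zero => rw [mul_zero]; exact zero_mem _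
      | add a b _ _ ha hb => rw [mul_add]; exact add_mem ha hb
      | smul a w _ hw => rw [mul_smul_comm]; exact Submodule.smul_mem _ _ hw
    | algebraMap a => intro w hw; rw [← Algebra.smul_def]; exact Submodule.smul_mem _ _ hw
    | add a b _ _ ha hb => intro w hw; rw [add_mul]; exact add_mem (ha w hw) (hb w hw)
    | mul a b _ _ ha hb => intro w hw; rw [mul_assoc]; exact ha _ (hb w hw)
  simpa using key 1 (Submodule.subset_span ⟨1, Avoid.one_mem_avoid, map_one _⟩)

lemma eq_zero_of_sum_xiL_mul (k : Fin n) (w : Fin n → Loc K W.C.q (W.C.R p))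
    (hw : ∀ i, w i ∈ W.avoidL k) (hsum : ∑ i, W.xiL k i * w i = 0) : w = 0 := by
  classical
  have : Module.Free (Par K W.C.q) (W.C.R p) := Module.Free.of_basis (W.C.monBasis p)
  choose t ht y hy hty using fun i => Prime.exists_clear_mem (Avoid.avoid W.C p (W.w k)) (hw i)
  set P := ∏ i, t i
  set T := fun i => (∏ j ∈ Finset.univ.erase i, t j) • y i
  have hT : ∀ i, P • w i = toL (T i) := fun i => by
    rw [map_smul, ← hty, ← mul_smul, Finset.prod_erase_mul _ _ (Finset.mem_univ i)]
  have h0 : ∑ i, W.xi k i * T i = 0 := by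
    apply Prime.toL_injective (K := K) (r := W.C.q)
    rw [map_zero, ← smul_zero (A := Loc K W.C.q (W.C.R p)) P, ← hsum, Finset.smul_sum, map_sum]
    refine Finset.sum_congr rfl fun i _ => ?_
    rw [map_mul, ← hT, mul_smul_comm]
    rfl
  have hT0 : T = 0 := Avoid.indep (W.letter k) (W.letter_inj k) (fun i => W.par_false _)
    (W.deg_letter k) T (fun i => Submodule.smul_mem _ _ (hy i)) h0
  funext i
  refine Prime.smul_cancel (s := P) (Finset.prod_ne_zero_iff.2 fun i _ => ht i) ?_
  rw [hT i, congrFun hT0 i]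
  exact map_zero _

/-- The matrix of the rows has trivial left kernel. -/
lemma independent [NoZeroDivisors (Loc K W.C.q (W.C.R p))]
    [Nontrivial (Loc K W.C.q (W.C.R p))]
    [FiniteDimensional (Fr K W.C.q) (Loc K W.C.q (W.C.R p))]
    (b : Fin n → Loc K W.C.q (W.C.R p)) (hb : ∀ i, ∑ l, b l * W.xiL l i = 0) : b = 0 := by
  classical
  by_contra hbne
  obtain ⟨l₀, hl₀⟩ := Function.ne_iff.1 hbne
  obtain ⟨k, hk, hmin⟩ := (Finset.univ.filter fun l => b l ≠ 0).exists_min_image id
    ⟨l₀, by simpa using hl₀⟩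
  simp only [Finset.mem_filter, Finset.mem_univ, true_and, id] at hk hmin
  obtain ⟨w, hw0, hwA, hlow⟩ :=
    Quad.exists_kernel_adjoin (F := Fr K W.C.q) (fun l i => W.xiL l.rev i) k.rev
  have hhigh : ∀ l, k < l → ∑ i, W.xiL l i * w i = 0 := fun l hl => by
    have := hlow l.rev (Fin.rev_lt_rev.2 hl)
    simpa using this
  have hk0 : b k * ∑ i, W.xiL k i * w i = 0 := by
    calc b k * ∑ i, W.xiL k i * w i = ∑ l, b l * ∑ i, W.xiL l i * w i := by
          symm
          refine Finset.sum_eq_single k ?_ ?_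
          · intro l _ hne'
            rcases lt_or_gt_of_ne hne' with hlt | hgt
            · rw [show b l = 0 from by_contra fun h => not_lt.2 (hmin l h) hlt, zero_mul]
            · rw [hhigh l hgt, mul_zero]
          · simp
      _ = ∑ i, (∑ l, b l * W.xiL l i) * w i := by
          simp only [Finset.mul_sum, Finset.sum_mul, mul_assoc]
          exact Finset.sum_comm
      _ = 0 := Finset.sum_eq_zero fun i _ => by rw [hb i, zero_mul]
  refine hw0 (W.eq_zero_of_sum_xiL_mul k w
    (fun i => W.adjoin_le_avoidL k ?_ (hwA i)) ((mul_eq_zero.1 hk0).resolve_left hk))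
  rintro y ⟨l, j, hl, rfl⟩
  exact ⟨l.rev, j, Fin.lt_rev_iff.1 hl, rfl⟩

end RowData

attribute [local instance] RowData.fin RowData.dec

/-- The data of the rows give rows over a division ring. -/
theorem exists_rows_of_data {K : Type u} [Field K] {p n : ℕ} [IsAlgClosed K] [Fact p.Prime]
    [CharP K p] {f : Fin n → MvPolynomial (Fin n) K} {s : Fin n → ℕ} (W : RowData p f s) :
    ∃ (D : Type u) (_ : DivisionRing D) (_ : Algebra K D),
      Nonempty (Rows f (fun k => p ^ s k) D) := by
  classical
  have hfree : Module.Free (Par K W.C.q) (W.C.R p) := Module.Free.of_basis (W.C.monBasis p)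
  have hfin : Module.Finite (Par K W.C.q) (W.C.R p) := Module.Finite.of_basis (W.C.monBasis p)
  have hR := W.C.noZeroDivisors (p := p) W.aniso
  have hRnt : Nontrivial (W.C.R p) := (W.C.monBasis p).repr.toEquiv.nontrivial
  have hzero : NoZeroDivisors (Loc K W.C.q (W.C.R p)) := Prime.noZeroDivisors_loc
  have hne : Nontrivial (Loc K W.C.q (W.C.R p)) :=
    Function.Injective.nontrivial (f := (toL : W.C.R p → Loc K W.C.q (W.C.R p)))
      Prime.toL_injective
  have hind := W.independent
  have hdiag : ∀ k l i, W.xiL l i * W.xiL k i = W.xiL k i * W.xiL l i := fun k l i => by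
    rw [RowData.xiL, RowData.xiL, ← map_mul, ← map_mul, W.comm_diag k l i]
  have hsym : ∀ k l i j, W.xiL l j * W.xiL k i + W.xiL l i * W.xiL k j =
      W.xiL k i * W.xiL l j + W.xiL k j * W.xiL l i := fun k l i j => by
    simp only [RowData.xiL, ← map_mul, ← map_add, W.comm_sym k l i j]
  have hpow := fun k => tensor_pow_eq f (W.h k) (W.h_mem k) (fun i => W.xiL k i)
    (fun l => toL (Avoid.op W.C p (W.Z k l))) (W.G k) W.xiL (fun c => by
      have h := congrArg
        (AlgHom.restrictScalars K (toL : W.C.R p →ₐ[Par K W.C.q] Loc K W.C.q (W.C.R p)))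
        (W.xi_pow k c)
      simp only [map_pow, map_sum, map_add, map_smul] at h
      exact h)
  have hdom : IsDomain (Loc K W.C.q (W.C.R p)) := NoZeroDivisors.to_isDomain _
  let instD : DivisionRing (Loc K W.C.q (W.C.R p)) :=
    divisionRingOfFiniteDimensional (Fr K W.C.q) (Loc K W.C.q (W.C.R p))
  obtain ⟨E, hE⟩ := Quad.exists_inverse W.xiL hind
  exact ⟨Loc K W.C.q (W.C.R p), instD, inferInstance, ⟨{
    g := W.xiL
    E := E
    diag_comm := hdiag
    sym_comm := hsym
    inv := hE
    mult := fun k m => (1 : Loc K W.C.q (W.C.R p)) ⊗ₜ[K] Quad.mkA f (W.G k m)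
    mult_zero := fun k m h => by
      simp only [W.G_zero k m h, map_zero, TensorProduct.tmul_zero]
    mult_mem := fun k m => Submodule.subset_span
      ⟨_, ⟨W.G k m, W.G_hom k m, rfl⟩, rfl⟩
    pow := hpow }⟩⟩

end Vale.Agent.P200.PMix
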