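import Vale.Agent.P200.PMix.Aniso
import Vale.Agent.P200.PMix.Rows
import Vale.Agent.P200.PMix.Forms

/-!
Rows over a division ring for every regular sequence whose degrees are powers of the characteristic.
-/

namespace Vale.Agent.P200.PMix

open MvPolynomial PPow
open Vale.Agent.P200.Quad (mkA)

set_option linter.unusedSectionVars false

universe u

namespace Params

variable {K : Type u} [Field K] {p n : ℕ} (P : Params K p n)
variable [hp : Fact p.Prime] [CharP K p] [Infinite K]

/-- The exponent of a variable. -/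
noncomputable def unitExp (k i : Fin n) : Expn n (p ^ ((0 : Fin (P.e k + 1)) : ℕ)) :=
  ⟨Finsupp.single i 1, by simp⟩

lemma unitExp_bijective (k : Fin n) : Function.Bijective (P.unitExp k) := by
  classical
  refine ⟨fun i i' h => (Finsupp.single_left_inj one_ne_zero).1 (congrArg Subtype.val h), ?_⟩
  rintro ⟨α, hα⟩
  have hα1 : α.degree = 1 := by simpa using hα
  obtain ⟨i, hi⟩ : ∃ i, α i ≠ 0 := by
    by_contra hne
    push Not at hne
    rw [show α = 0 from Finsupp.ext hne, map_zero] at hα1
    omega
  refine ⟨i, Subtype.ext (Finsupp.ext fun l => ?_)⟩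
  have hle := Finsupp.le_degree i α
  show (Finsupp.single i 1 : Fin n →₀ ℕ) l = α l
  rcases eq_or_ne l i with rfl | hl
  · rw [Finsupp.single_eq_same]
    omega
  · rw [Finsupp.single_eq_of_ne hl]
    have h2 : α i + α l ≤ α.degree := by
      rw [Finsupp.degree_eq_sum, ← Finset.sum_pair (f := fun x => α x) hl.symm]
      exact Finset.sum_le_sum_of_subset (Finset.subset_univ _)
    omega

/-- A letter of a row. -/
noncomputable def letter (k i : Fin n) : P.Pos := P.c0 ⟨k, 0, P.unitExp k i⟩

lemma wt_letter (k i : Fin n) : P.wt (P.letter k i) = P.W k := by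
  rw [wt, letter, c0, D_wco, kw_length, wd_single]
  simp

open Classical in
lemma chg_xi (k : Fin n) (c : Fin n → K) :
    P.chg (P.res (P.xi k c)) = ∑ i, c i • Pi.single (P.letter k i) (1 : K) := by
  have h := P.chg_xi_pow k c 0
  have h0 : P.xi k c ^ p ^ ((0 : Fin (P.e k + 1)) : ℕ) = P.xi k c := by simp
  rw [h0] at h
  rw [h, ← (P.unitExp_bijective k).sum_comp]
  refine Finset.sum_congr rfl fun i _ => ?_
  simp [unitExp, letter, eval_monomial]

/-- The coefficient of a later row in the top power of a row. -/
noncomputable def coef (k m : Fin n) : MvPolynomial (Fin n) K :=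
  (∑ i, C (P.lin k m (Pi.single i 1)) * X i) ^ (P.q k - 1)

lemma eval_coef (k m : Fin n) (c : Fin n → K) :
    eval c (P.coef k m) = P.lin k m c ^ (P.q k - 1) := by
  classical
  rw [coef, map_pow, map_sum]
  congr 1
  conv_rhs => rw [pi_eq_sum_univ' c, map_sum]
  exact Finset.sum_congr rfl fun i _ => by
    rw [map_mul, eval_C, eval_X, map_smul, smul_eq_mul, mul_comm]

/-- The rows' algebra as data for the rows over a division ring. -/
theorem exists_rowData {f : Fin n → MvPolynomial (Fin n) K} (G : P.Good f) (s : Fin n → ℕ)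
    (hs : ∀ k, P.e k + 1 = s k) : Nonempty (RowData p f s) := by
  classical
  obtain rfl : s = fun k => P.e k + 1 := funext fun k => (hs k).symm
  refine ⟨{
    ι := P.Pos
    C := P.core
    w := fun k => (P.W k).toNat + 1
    letter := P.letter
    par_false := fun i => id
    aniso := P.core_aniso G
    letter_inj := fun k i i' h => ?_
    deg_letter := fun k i => ?_
    deg_later := fun k m i hkm => ?_
    comm := fun k m c => ?_
    piter_killed := fun k c j hj i hi => ?_
    size := P.R
    h := fun k r => mult K n (p ^ P.e k) (P.F k r)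
    Z := fun k r => P.chg (P.res (P.Z k r))
    h_mem := G.mult_mem
    G := P.coef
    G_zero := fun k m h => ?_
    G_hom := fun k m => ?_
    piter_top := fun k c => ?_ }⟩
  · have h1 := P.c0_injective h
    simp only [Sigma.mk.injEq, heq_eq_eq, true_and] at h1
    exact (P.unitExp_bijective k).1 h1
  · show (P.wt (P.letter k i)).toNat < _
    rw [wt_letter]
    omega
  · show _ ≤ (P.wt (P.letter m i)).toNat
    rw [wt_letter]
    have := P.W_lt hkm
    have := P.W_pos k
    have := P.q_two_le k
    have : P.W k + 1 ≤ P.W m := by nlinarith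
    omega
  · rw [← chg_xi, ← chg_xi, P.core_mu (P.xi_mem_BA k c) (P.xi_mem_BA m c),
      P.core_mu (P.xi_mem_BA m c) (P.xi_mem_BA k c), (P.xi_commute k m c).eq]
  · rw [← chg_xi, P.core_piter (P.xi_mem_BA k c), P.chg_xi_pow k c ⟨j, hj⟩, Finset.sum_apply] at hi
    obtain ⟨α, -, hα⟩ := Finset.exists_ne_zero_of_sum_ne_zero hi
    refine ⟨⟨k, ⟨j, hj⟩, α⟩, ?_⟩
    by_contra hne
    rw [Pi.smul_apply, Pi.single_eq_of_ne (Ne.symm hne), smul_zero] at hα
    exact hα rfl
  · rw [coef, P.hlin k m h, Finset.sum_eq_zero fun i _ => by simp, zero_pow]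
    have := P.q_two_le k
    omega
  · have h : (∑ i, C (P.lin k m (Pi.single i 1)) * X i : MvPolynomial (Fin n) K).IsHomogeneous 1 :=
      IsHomogeneous.sum _ _ _ fun i _ => (isHomogeneous_X K i).C_mul _
    have h2 := h.pow (P.q k - 1)
    rw [one_mul] at h2
    exact h2
  · rw [← chg_xi, P.core_piter (P.xi_mem_BA k c), show p ^ (P.e k + 1) = P.q k from rfl,
      P.xi_pow_q k c, map_add, map_add, map_sum, map_sum, map_sum, map_sum]
    refine congrArg₂ (· + ·) (Finset.sum_congr rfl fun r _ => by rw [map_smul, map_smul])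
      (Finset.sum_congr rfl fun m _ => ?_)
    rw [map_smul, map_smul, eval_coef, chg_xi]

end Params

/-- Every regular sequence whose degrees are powers of the characteristic has rows. -/
theorem hasRows (K : Type u) [Field K] [IsAlgClosed K] (p : ℕ) [hp : Fact p.Prime] [CharP K p]
    {n : ℕ} (a : Fin n → ℕ) (ha : Monotone a) (hpow : ∀ i, ∃ k, a i = p ^ (k + 1)) :
    HasRows K a := by
  intro f hf hreg
  choose e he using hpow
  obtain rfl : a = fun i => p ^ (e i + 1) := funext he
  have hmono : Monotone fun i => e i + 1 := fun i j hij =>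
    (Nat.pow_le_pow_iff_right hp.out.one_lt).1 (ha hij)
  obtain ⟨P, hPe, ⟨G⟩⟩ := exists_params f (fun i => e i + 1) (fun _ => Nat.succ_pos _) hmono hf hreg
  obtain ⟨W⟩ := P.exists_rowData G (fun i => e i + 1) hPe
  exact exists_rows_of_data W

end Vale.Agent.P200.PMix
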