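import Vale.Agent.P200.PMix.Multi

/-!
What the forms and the linear forms of the rows have to satisfy.
-/

namespace Vale.Agent.P200.PMix

open MvPolynomial
open PPow (Expn mult)

namespace Params

/-- The forms of a row lie in the ideal, their common zeros are Veronese points of an admissible
point, and families of admissible points can be separated by the linear forms. -/
structure Good {K : Type*} [Field K] {p n : ℕ} (P : Params K p n)
    (f : Fin n → MvPolynomial (Fin n) K) where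
  /-- the admissible points of a row -/
  V : Fin n → (Fin n → K) → Prop
  mult_mem : ∀ k r, mult K n (p ^ P.e k) (P.F k r) ∈ Ideal.span (Set.range f)
  veronese : ∀ (k : Fin n) (lam : Expn n (p ^ P.e k) → K), (∀ r, eval lam (P.F k r) = 0) →
    lam = 0 ∨ ∃ (c : K) (ψ : Fin n → K), c ≠ 0 ∧ ψ ≠ 0 ∧ V k ψ ∧
      ∀ α, lam α = c * eval ψ (monomial α.1 1)
  separate : ∀ (S : Finset (Fin n)) (ψ : Fin n → Fin n → K), S.Nonempty →
    (∀ a ∈ S, ψ a ≠ 0 ∧ V a (ψ a)) →
    ∃ a ∈ S, ∃ m, a < m ∧ P.lin a m (ψ a) ≠ 0 ∧ ∃ φ : (Fin n → K) →ₗ[K] K, φ (ψ a) ≠ 0 ∧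
      ∀ b ∈ S, b ≠ a → b < m → P.lin b m (ψ b) = 0 ∨ φ (ψ b) = 0

end Params

end Vale.Agent.P200.PMix
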