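import Vale.Agent.P200.PMix.Mixed
import Vale.Agent.P200.PMix.FormsSpec

/-!
No combination of the coefficients of the small powers of the rows has a vanishing `p`-th power.
-/

namespace Vale.Agent.P200.PMix

open MvPolynomial PPow
open PPow.Words (Idx key tens cf wval content repW powW)
open scoped Pointwise

set_option linter.unusedSectionVars false

namespace Params

variable {K : Type*} [Field K] {p n : ℕ} (P : Params K p n)
variable [hp : Fact p.Prime] [CharP K p] [Infinite K]

/-- The combination of the coefficients of one row. -/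
noncomputable def row (lam : P.Kx → K) (b : Fin n) : P.A :=
  ∑ t : Σ j : Fin (P.e b + 1), Expn n (p ^ (j : ℕ)), lam ⟨b, t⟩ • P.sig ⟨b, t⟩

/-- The top exponent. -/
def top (b : Fin n) : Fin (P.e b + 1) := ⟨P.e b, Nat.lt_succ_self _⟩

lemma row_supp (lam : P.Kx → K) (b : Fin n) : P.row lam b ∈ P.Supp (P.SD b) :=
  sum_mem fun t _ => Submodule.smul_mem _ _ (P.supp_mono
    (by intro d hd; exact ⟨t.1, Nat.le_of_lt_succ t.1.2, hd⟩) (P.sig_supp ⟨b, t⟩))

/-- The tensor part of a row in its own tensor algebra. -/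
noncomputable def tau (lam : P.Kx → K) (b : Fin n) : P.TW b :=
  fun i => P.cu (P.row lam b) (P.z0, P.z0, some ⟨b, i⟩)

/-- The tensor part of a row as a vector of coordinates. -/
noncomputable def tauF (lam : P.Kx → K) (b : Fin n) : P.TI b → K := P.tau lam b

lemma row_diag (lam : P.Kx → K) (b : Fin n) :
    P.row lam b - P.tv b (P.tau lam b) ∈ P.without b := by
  classical
  intro u v
  funext i
  show P.cu (P.row lam b - P.tv b (P.tau lam b)) (u, v, some ⟨b, i⟩) = 0
  have h : P.cu (P.row lam b) (u, v, some ⟨b, i⟩) = if u = v then P.tau lam b i else 0 := by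
    simp only [tau, row, map_sum, map_smul, Finset.sum_apply, Pi.smul_apply, smul_eq_mul, sig]
    split_ifs with huv
    · exact Finset.sum_congr rfl fun t _ => by rw [P.sg_diag b t.2 u v i, if_pos huv]
    · exact Finset.sum_eq_zero fun t _ => by rw [P.sg_diag b t.2 u v i, if_neg huv, mul_zero]
  have h' : P.cu (P.tv b (P.tau lam b)) (u, v, some ⟨b, i⟩) =
      if u = v then P.tau lam b i else 0 := by
    rw [cu_some]
    show ((Matrix.diagonal (fun _ => (Unitization.inr (Pi.single b (P.tau lam b)) : P.U))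
      u v).snd b) i = _
    rcases eq_or_ne u v with rfl | huv
    · rw [Matrix.diagonal_apply_eq, Unitization.snd_inr, Pi.single_eq_same, if_pos rfl]
    · rw [Matrix.diagonal_apply_ne _ huv, if_neg huv]
      rfl
  rw [map_sub, Pi.sub_apply, h, h', sub_self]

/-- The tensor coordinates of the `p`-th power of a row. -/
lemma cu_row_pow (lam : P.Kx → K) (b : Fin n) (i : P.TI b) :
    P.cu (P.row lam b ^ p) (P.z0, P.z0, some ⟨b, i⟩) = powW (P.F b) (p - 1) (P.tauF lam b) i := by
  have := P.charP_A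
  obtain ⟨w, hw, hrow⟩ : ∃ w ∈ P.without b, P.row lam b = P.tv b (P.tau lam b) + w :=
    ⟨_, P.row_diag lam b, (add_sub_cancel _ _).symm⟩
  rw [hrow, add_pow_char_of_commute p (P.tv_commute _ hw), map_add, Pi.add_apply]
  have h0 : P.cu (w ^ p) (P.z0, P.z0, some ⟨b, i⟩) = 0 := by
    rw [cu_some, pow_mem hw p P.z0 P.z0]; rfl
  have ht : P.tv b (P.tau lam b) ^ p = P.tv b (powW (P.F b) (p - 1) (P.tauF lam b) : P.TW b) := by
    have h := P.tv_pow b (P.tau lam b) (p - 1)
    rw [Nat.sub_add_cancel hp.out.one_le] at h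
    exact h
  rw [h0, add_zero, ht, cu_some]
  show ((Matrix.diagonal (fun _ => (Unitization.inr (Pi.single b (powW (P.F b) (p - 1) (P.tauF lam b) : P.TW b)) : P.U))
    P.z0 P.z0).snd b) i = _
  rw [Matrix.diagonal_apply_eq, Unitization.snd_inr]
  exact congrFun (Pi.single_eq_same (M := fun k => P.TW k) b
    (powW (P.F b) (p - 1) (P.tauF lam b) : P.TW b)) i

/-- The word coordinates of the coefficients of a row. -/
lemma cu_sig (b : Fin n) (t : Σ j : Fin (P.e b + 1), Expn n (p ^ (j : ℕ)))
    (w : Words.Wd p (P.e b) n) :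
    P.cu (P.sig ⟨b, t⟩) (P.wco b w) = if content w.1 = t.2.1 then 1 else 0 := by
  classical
  obtain ⟨j, α⟩ := t
  have hP : p ^ (j : ℕ) < P.q b := Nat.pow_lt_pow_right hp.out.one_lt j.2
  by_cases hlen : w.1.length = p ^ (j : ℕ)
  · have h := P.sg_coord ((LinearMap.proj (P.wco b w)).comp P.cu.toLinearMap) b (p ^ (j : ℕ))
      (monomial (content w.1) 1) (fun c => by
        show P.cu (P.xi b c ^ p ^ (j : ℕ)) (P.wco b w) = _
        rw [P.cu_xi_pow b b c (Nat.le_of_lt_succ j.2) w (Nat.le_of_lt_succ j.2) hlen,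
          if_pos ⟨rfl, rfl⟩, ← Words.wval_repW, Words.wval_repW_content]) α
    refine h.trans ?_
    rw [coeff_monomial]
  · rw [if_neg fun e => hlen (by rw [← Words.degree_content, e, α.2])]
    refine P.sig_supp ⟨b, j, α⟩ _ fun ⟨_, h1, h2, _, _⟩ => hlen ?_
    dsimp only at h1 h2 ⊢
    rw [D_wco, Pi.single_eq_same] at h1 h2
    obtain ⟨t, ht⟩ := h1
    have hw1 : 1 ≤ w.1.length := w.2.1
    have hw2 : (w.1.length : ℤ) < P.q b := by exact_mod_cast w.2.2
    have hP' : ((p : ℤ) ^ (j : ℕ)) < P.q b := by exact_mod_cast hP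
    have : t = 0 := by
      rcases lt_trichotomy t 0 with ht0 | rfl | ht0
      · have : (P.q b : ℤ) * t ≤ -(P.q b : ℤ) := by nlinarith
        omega
      · rfl
      · have : (P.q b : ℤ) ≤ (P.q b : ℤ) * t := by nlinarith
        omega
    subst this
    rw [mul_zero, sub_eq_zero] at ht
    exact_mod_cast ht

/-- The word coordinates of the tensor part of a row. -/
lemma cf_tau (lam : P.Kx → K) (b : Fin n) (l : List (Fin n)) :
    cf b (P.tauF lam b) l =
      if l.length < P.q b then
        ∑ t : Σ j : Fin (P.e b + 1), Expn n (p ^ (j : ℕ)),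
          if content l = t.2.1 then lam ⟨b, t⟩ else 0
      else 0 := by
  classical
  split_ifs with hl
  swap
  · exact Finset.sum_eq_zero fun w _ => if_neg fun (e : w.1 = l) => hl (e ▸ w.2.2)
  rcases Nat.eq_zero_or_pos l.length with h0 | h0
  · refine (Finset.sum_eq_zero fun w _ => if_neg fun (e : w.1 = l) => by
      have := w.2.1; rw [e] at this; omega).trans ?_
    refine (Finset.sum_eq_zero fun t _ => if_neg fun e => ?_).symm
    have h1 : l.length = p ^ (t.1 : ℕ) := by rw [← Words.degree_content, e, t.2.2]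
    have := Nat.one_le_pow (t.1 : ℕ) p hp.out.pos
    omega
  · rw [show l = (⟨l, h0, hl⟩ : Words.Wd p (P.e b) n).1 from rfl, Words.cf_word]
    show P.cu (P.row lam b) (P.wco b ⟨l, h0, hl⟩) = _
    simp only [row, map_sum, map_smul, Finset.sum_apply, Pi.smul_apply, smul_eq_mul]
    exact Finset.sum_congr rfl fun t _ => by rw [cu_sig]; simp

lemma cf_tau_rep (lam : P.Kx → K) (b : Fin n) (j : Fin (P.e b + 1))
    (α : Expn n (p ^ (j : ℕ))) :
    cf b (P.tauF lam b) (repW α.1) = lam ⟨b, j, α⟩ := by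
  classical
  rw [cf_tau, if_pos, Words.content_repW, Finset.sum_eq_single ⟨j, α⟩]
  · rw [if_pos rfl]
  · rintro ⟨j', α'⟩ _ hne
    refine if_neg fun e => hne ?_
    obtain rfl : j = j' := Fin.ext (Nat.pow_right_injective hp.out.two_le (by
      show p ^ (j : ℕ) = p ^ (j' : ℕ)
      rw [← α.2, ← α'.2, e]))
    rw [Subtype.ext e]
  · simp
  · rw [Words.length_repW, α.2]
    exact Nat.pow_lt_pow_right hp.out.one_lt j.2

/-- A row of the form `c` times the small power at a point. -/
lemma row_eq_of_veronese (lam : P.Kx → K) (b : Fin n)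
    (hlow : ∀ (j : Fin (P.e b + 1)), (j : ℕ) < P.e b → ∀ α, lam ⟨b, j, α⟩ = 0) (c : K)
    (ψ : Fin n → K) (htop : ∀ α, lam ⟨b, P.top b, α⟩ = c * eval ψ (monomial α.1 1)) :
    P.row lam b = c • P.xi b ψ ^ p ^ P.e b := by
  classical
  rw [xi_pow_sg, Finset.smul_sum, row, Fintype.sum_sigma, Finset.sum_eq_single (P.top b)]
  · refine Finset.sum_congr rfl fun α _ => ?_
    rw [smul_smul, ← htop α]
    rfl
  · intro j _ hj
    have hlt : (j : ℕ) < P.e b :=
      lt_of_le_of_ne (Nat.le_of_lt_succ j.2) fun e => hj (Fin.ext e)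
    exact Finset.sum_eq_zero fun α _ => by rw [hlow j hlt α, zero_smul]
  · simp

/-- A row killed in its own tensor algebra has `p`-th power made of the later rows. -/
lemma row_pow (lam : P.Kx → K) (b : Fin n)
    (hlow : ∀ (j : Fin (P.e b + 1)), (j : ℕ) < P.e b → ∀ α, lam ⟨b, j, α⟩ = 0)
    (hz : ∀ r, eval (fun α => lam ⟨b, P.top b, α⟩) (P.F b r) = 0) (c : K) (ψ : Fin n → K)
    (htop : ∀ α, lam ⟨b, P.top b, α⟩ = c * eval ψ (monomial α.1 1)) :
    P.row lam b ^ p = c ^ p • ∑ m, P.lin b m ψ ^ (P.q b - 1) • P.xi m ψ := by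
  rw [P.row_eq_of_veronese lam b hlow c ψ htop, smul_pow, ← pow_mul, ← pow_succ,
    show p ^ (P.e b + 1) = P.q b from rfl, P.xi_pow_q b ψ, smul_add, add_eq_right, Finset.smul_sum]
  refine Finset.sum_eq_zero fun r _ => ?_
  have h := hz r
  rw [show (fun α => lam ⟨b, P.top b, α⟩) = fun α => c * eval ψ (monomial α.1 1) from funext htop] at h
  have h' := (PPow.eval_veronese (P.hF b r) c ψ).symm.trans h
  rw [smul_smul, h', zero_smul]

variable {f : Fin n → MvPolynomial (Fin n) K}

/-- The tensor coordinates of a row's own `p`-th power are the whole ones once the earlier rows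
are killed in their tensor algebras. -/
lemma cu_pow_eq (lam : P.Kx → K) (a : Fin n)
    (hprev : ∀ b, b < a → ∃ (c : K) (ψ : Fin n → K), P.row lam b ^ p =
      c ^ p • ∑ m, P.lin b m ψ ^ (P.q b - 1) • P.xi m ψ)
    (i : P.TI a) {δ : ℕ} (hi : (key i).2 = δ) (h1 : 2 ≤ δ) (h2 : δ ≤ P.q a) :
    P.cu ((∑ b, P.row lam b) ^ p) (P.z0, P.z0, some ⟨a, i⟩) =
      powW (P.F a) (p - 1) (P.tauF lam a) i := by
  classical
  have hD : P.D (P.z0, P.z0, some ⟨a, i⟩) = Pi.single a (δ : ℤ) := by simp [D, jdeg, hi]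
  rw [P.cu_sum_pow _ (P.row_supp lam) (by omega) h2 hD, Finset.sum_eq_single a]
  · exact P.cu_row_pow lam a i
  · intro b _ hb
    rcases lt_or_gt_of_ne hb with hb | hb
    · obtain ⟨c, ψ, hcψ⟩ := hprev b hb
      rw [hcψ, map_smul, Pi.smul_apply, map_sum, Finset.sum_apply, Finset.sum_eq_zero, smul_zero]
      intro m _
      rw [map_smul, Pi.smul_apply, P.xi_supp m ψ _ ?_, smul_zero]
      rw [hD]
      rintro ⟨h0, h1', h2', -, -⟩
      rcases lt_trichotomy a m with hm | rfl | hm
      · have := h0 a hm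
        rw [Pi.single_eq_same] at this
        omega
      · rw [Pi.single_eq_same] at h2'
        omega
      · rw [Pi.single_eq_of_ne hm.ne] at h1'
        rw [zero_sub, dvd_neg] at h1'
        have := Int.le_of_dvd one_pos h1'
        have := P.q_two_le m
        omega
    · have hsupp : P.row lam b ∈ P.Supp {d | d a = 0} :=
        P.supp_mono (by rintro d ⟨_, _, hd⟩; exact hd.1 a hb) (P.row_supp lam b)
      have hpw : P.row lam b ^ p ∈ P.Supp {d | d a = 0} := by
        refine P.mem_supp_pow (S := fun _ : ℤ => {d : Fin n → ℤ | d a = 0}) ?_ ?_ (r := 0) hsupp p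
        · rfl
        · rintro _ _ _ ⟨x, hx, y, hy, rfl⟩
          show x a + y a = 0
          rw [show x a = 0 from hx, show y a = 0 from hy, add_zero]
      refine hpw _ ?_
      show ¬ P.D (P.z0, P.z0, some ⟨a, i⟩) a = 0
      rw [hD, Pi.single_eq_same]
      omega
  · simp

/-- Every row of a combination with vanishing `p`-th power is a multiple of a Veronese point. -/
lemma rows_veronese (G : P.Good f) (lam : P.Kx → K) (h0 : (∑ b, P.row lam b) ^ p = 0) :
    ∀ a : Fin n, (∀ (j : Fin (P.e a + 1)), (j : ℕ) < P.e a → ∀ α, lam ⟨a, j, α⟩ = 0) ∧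
      ∃ (c : K) (ψ : Fin n → K), (c ≠ 0 → ψ ≠ 0 ∧ G.V a ψ) ∧
        (∀ α, lam ⟨a, P.top a, α⟩ = c * eval ψ (monomial α.1 1)) ∧
        P.row lam a ^ p = c ^ p • ∑ m, P.lin a m ψ ^ (P.q a - 1) • P.xi m ψ := by
  classical
  have h2 := hp.out.two_le
  intro a
  induction ha : (a : ℕ) using Nat.strong_induction_on generalizing a with
  | _ N ih =>
  subst ha
  have hprev : ∀ b, b < a → ∃ (c : K) (ψ : Fin n → K), P.row lam b ^ p =
      c ^ p • ∑ m, P.lin b m ψ ^ (P.q b - 1) • P.xi m ψ := fun b hb => by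
    obtain ⟨-, c, ψ, -, -, h⟩ := ih b hb b rfl
    exact ⟨c, ψ, h⟩
  have hco : ∀ (i : P.TI a) {δ : ℕ}, (key i).2 = δ → 2 ≤ δ → δ ≤ P.q a →
      powW (P.F a) (p - 1) (P.tauF lam a) i = 0 := fun i δ hi h1 h2 => by
    rw [← P.cu_pow_eq lam a hprev i hi h1 h2, h0, map_zero]
    rfl
  have hlow : ∀ (j : Fin (P.e a + 1)), (j : ℕ) < P.e a → ∀ α, lam ⟨a, j, α⟩ = 0 := by
    suffices key : ∀ N, ∀ (j : Fin (P.e a + 1)), (j : ℕ) = N → (j : ℕ) < P.e a →
        ∀ α, lam ⟨a, j, α⟩ = 0 from fun j => key _ j rfl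
    intro N
    induction N using Nat.strong_induction_on with
    | _ N ihj =>
    rintro j rfl hlt α
    have hzero : ∀ l : List (Fin n), l.length < p ^ (j : ℕ) →
        cf a (P.tauF lam a) l = 0 := by
      intro l hl
      rw [cf_tau]
      split_ifs
      swap
      · rfl
      refine Finset.sum_eq_zero fun t _ => ?_
      split_ifs with e
      · have h1 : p ^ (t.1 : ℕ) < p ^ (j : ℕ) := by
          rw [← t.2.2, ← e, Words.degree_content]; exact hl
        have h3 := (Nat.pow_lt_pow_iff_right hp.out.one_lt).1 h1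
        exact ihj _ h3 t.1 rfl (lt_trans h3 hlt) t.2
      · rfl
    have hQ : (p - 1 + 1) * p ^ (j : ℕ) < p ^ (P.e a + 1) := by
      rw [Nat.sub_add_cancel hp.out.one_le, ← pow_succ']
      exact Nat.pow_lt_pow_right hp.out.one_lt (by omega)
    set ws := List.replicate (p - 1 + 1) (repW α.1)
    have hws : ∀ w ∈ ws, w.length = p ^ (j : ℕ) := fun w hw => by
      rw [List.eq_of_mem_replicate hw, Words.length_repW, α.2]
    have hlen : ws.flatten.length = (p - 1 + 1) * p ^ (j : ℕ) := by
      rw [List.length_flatten, List.map_congr_left (g := fun _ => p ^ (j : ℕ)) hws,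
        List.map_const', List.sum_replicate, smul_eq_mul, List.length_replicate]
    have h1 := (Words.cf_powW (F := P.F a) a (P.tauF lam a) hzero (p - 1) hQ.le).2 hQ
      ws hws List.length_replicate
    have hpos : 2 ≤ (p - 1 + 1) * p ^ (j : ℕ) := by
      rw [Nat.sub_add_cancel hp.out.one_le]
      exact le_trans h2 (Nat.le_mul_of_pos_right _ (pow_pos hp.out.pos _))
    rw [show ws.flatten = (⟨ws.flatten, by omega, by omega⟩ : Words.Wd p (P.e a) n).1 from rfl,
      Words.cf_word, hco (a, Sum.inl _) (δ := ws.flatten.length) rfl (by omega)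
        (by rw [hlen]; exact hQ.le)] at h1
    rw [List.map_replicate, List.prod_replicate, P.cf_tau_rep lam a j α] at h1
    exact (pow_eq_zero_iff (by omega)).1 h1.symm
  refine ⟨hlow, ?_⟩
  have hz : ∀ r, eval (fun α => lam ⟨a, P.top a, α⟩) (P.F a r) = 0 := fun r => by
    have h1 := Words.top_powW (P.hF a) h2 a (P.tauF lam a) (fun l hl => ?_) r
    · rw [hco (a, Sum.inr r) (δ := P.q a) rfl (P.q_two_le a) le_rfl] at h1
      refine Eq.trans ?_ h1.symm
      congr 2
      funext α
      exact (P.cf_tau_rep lam a (P.top a) α).symm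
    · rw [cf_tau]
      split_ifs
      swap
      · rfl
      refine Finset.sum_eq_zero fun t _ => ?_
      split_ifs with e
      · refine hlow t.1 ?_ t.2
        refine (Nat.pow_lt_pow_iff_right hp.out.one_lt).1 ?_
        rw [← t.2.2, ← e, Words.degree_content]; exact hl
      · rfl
  rcases G.veronese a (fun α => lam ⟨a, P.top a, α⟩) hz with h | ⟨c, ψ, hc, hψ, hV, hlam⟩
  · have ht : ∀ α, lam ⟨a, P.top a, α⟩ = 0 * eval (0 : Fin n → K) (monomial α.1 1) := fun α => by
      rw [zero_mul]; exact congrFun h α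
    exact ⟨0, 0, fun h => absurd rfl h, ht, P.row_pow lam a hlow hz 0 0 ht⟩
  · exact ⟨c, ψ, fun _ => ⟨hψ, hV⟩, hlam, P.row_pow lam a hlow hz c ψ hlam⟩

open Classical in
/-- The core is anisotropic. -/
theorem core_aniso (G : P.Good f) : P.core.Aniso p := by
  classical
  intro u _ hu
  by_cases hfree : ∃ i, ¬ P.core.killed i ∧ u i ≠ 0
  · exact Or.inr hfree
  left
  push Not at hfree
  set lam : P.Kx → K := fun κ => u (P.c0 κ)
  set x := ∑ b, P.row lam b
  have hxκ : x = ∑ κ, lam κ • P.sig κ := (Fintype.sum_sigma fun κ => lam κ • P.sig κ).symm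
  have hxBA : x ∈ P.BA := by
    rw [hxκ]; exact sum_mem fun κ _ => Submodule.smul_mem _ _ (P.sig_mem κ)
  have hu' : u = P.chg (P.res x) := by
    rw [hxκ, map_sum, map_sum]
    simp only [map_smul, chg_sig]
    funext i
    rw [Finset.sum_apply]
    by_cases hi : i ∈ Set.range P.c0
    · obtain ⟨κ, rfl⟩ := hi
      rw [Finset.sum_eq_single κ]
      · simp [lam]
      · intro κ' _ hne
        simp [P.c0_injective.ne hne.symm]
      · simp
    · rw [hfree i (fun h => hi h), Finset.sum_eq_zero]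
      intro κ _
      have : i ≠ P.c0 κ := fun e => hi ⟨κ, e.symm⟩
      simp [this]
  intro h0
  rw [hu', P.core_pw hxBA, LinearEquiv.map_eq_zero_iff, Nat.sub_add_cancel hp.out.one_le] at h0
  have hxp : x ^ p = 0 := by
    have hmem : x ^ p ∈ P.BA := by
      have := P.pow_mem_BA hxBA (p - 1)
      rwa [Nat.sub_add_cancel hp.out.one_le] at this
    rw [← P.inc_res hmem, h0, map_zero]
  choose hlow c ψ hψ htop hpow using P.rows_veronese G lam hxp
  set S := Finset.univ.filter fun b => c b ≠ 0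
  rcases S.eq_empty_or_nonempty with hS | hS
  · refine hu ?_
    rw [hu', hxκ, Finset.sum_eq_zero, map_zero, map_zero]
    rintro ⟨b, j, α⟩ _
    rcases lt_or_eq_of_le (Nat.le_of_lt_succ j.2) with hj | hj
    · rw [hlow b j hj α, zero_smul]
    · obtain rfl : j = P.top b := Fin.ext hj
      have hcb : c b = 0 := by
        by_contra hne
        have : b ∈ S := Finset.mem_filter.2 ⟨Finset.mem_univ _, hne⟩
        rw [hS] at this
        simp at this
      rw [htop b α, hcb, zero_mul, zero_smul]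
  obtain ⟨a, haS, m, ham, hlin, φ, hφ, hsep⟩ :=
    G.separate S ψ hS fun b hb => hψ b (Finset.mem_filter.1 hb).2
  have hlett : ∀ i : Fin n, ∑ b, c b ^ p * P.lin b m (ψ b) ^ (P.q b - 1) * ψ b i = 0 := by
    intro i
    have h1 : 1 < p ^ (P.e m + 1) := Nat.one_lt_pow (by omega) hp.out.one_lt
    let w : Words.Wd p (P.e m) n := ⟨[i], by simp, by simpa using h1⟩
    have h := P.cu_sum_pow _ (P.row_supp lam) (co := P.wco m w) (a := m) le_rfl
      (le_of_lt h1) (by rw [D_wco]; simp [w])
    rw [show (∑ b, P.row lam b) ^ p = 0 from hxp, map_zero, Pi.zero_apply] at h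
    refine Eq.trans ?_ h.symm
    refine Finset.sum_congr rfl fun b _ => ?_
    rw [hpow b, map_smul, Pi.smul_apply, map_sum, Finset.sum_apply, Finset.sum_eq_single m]
    · rw [map_smul, Pi.smul_apply, smul_eq_mul, smul_eq_mul]
      have hv := P.cu_xi_pow m m (ψ b) (Nat.zero_le _) w (Nat.zero_le _) (j := 0) (j' := 0) (by simp [w])
      rw [pow_zero, pow_one, if_pos ⟨rfl, rfl⟩] at hv
      rw [hv]
      simp [w, wval]
      ring
    · intro m' _ hm'
      rw [map_smul, Pi.smul_apply]
      have hv := P.cu_xi_pow m' m (ψ b) (Nat.zero_le _) w (Nat.zero_le _) (j := 0) (j' := 0) (by simp [w])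
      rw [pow_zero, pow_one, if_neg (fun e => hm' e.1.symm)] at hv
      rw [hv, smul_zero]
    · simp
  have hsum : ∑ b, c b ^ p * P.lin b m (ψ b) ^ (P.q b - 1) * φ (ψ b) = 0 := by
    have hv : ∑ b, (c b ^ p * P.lin b m (ψ b) ^ (P.q b - 1)) • ψ b = 0 := funext fun i => by
      rw [Finset.sum_apply]
      simpa using hlett i
    have := congrArg φ hv
    rw [map_sum, map_zero] at this
    rw [← this]
    exact Finset.sum_congr rfl fun b _ => by rw [map_smul, smul_eq_mul]
  rw [Finset.sum_eq_single a] at hsum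
  · exact mul_ne_zero (mul_ne_zero (pow_ne_zero _ (Finset.mem_filter.1 haS).2)
      (pow_ne_zero _ hlin)) hφ hsum
  · intro b _ hba
    by_cases hbS : b ∈ S
    · by_cases hbm : b < m
      · rcases hsep b hbS hba hbm with h | h
        · rw [h, zero_pow (by have := P.q_two_le b; omega), mul_zero, zero_mul]
        · rw [h, mul_zero]
      · rw [P.hlin b m hbm, LinearMap.zero_apply, zero_pow (by have := P.q_two_le b; omega),
          mul_zero, zero_mul]
    · rw [show c b = 0 from not_not.1 fun h => hbS (Finset.mem_filter.2 ⟨Finset.mem_univ _, h⟩),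
        zero_pow hp.out.ne_zero, zero_mul, zero_mul]
  · simp

end Params

end Vale.Agent.P200.PMix
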