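import Vale.Agent.P200.PMix.Xi

/-!
The coefficients of the powers of the rows and their coordinates on the representative words.
-/

namespace Vale.Agent.P200.PMix

open MvPolynomial PPow
open PPow.Words (Idx key tens wval content repW)
open scoped Pointwise

set_option linter.unusedSectionVars false

/-- Coefficients are determined by the values. -/
lemma coeff_of_values {K : Type*} [Field K] [Infinite K] {n a : ℕ} (r : Expn n a → K)
    (g : MvPolynomial (Fin n) K)
    (h : ∀ c : Fin n → K, ∑ α, eval c (monomial α.1 1) * r α = eval c g) (α : Expn n a) :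
    r α = coeff α.1 g := by
  classical
  have hp : (∑ β, r β • monomial β.1 (1 : K)) = g := MvPolynomial.funext fun c => by
    rw [map_sum, ← h c]
    exact Finset.sum_congr rfl fun β _ => by rw [smul_eval, mul_comm]
  rw [← hp, coeff_sum, Finset.sum_eq_single α]
  · rw [coeff_smul, coeff_monomial, if_pos rfl, smul_eq_mul, mul_one]
  · intro β _ hβ
    rw [coeff_smul, coeff_monomial, if_neg fun e => hβ (Subtype.ext e), smul_eq_mul, mul_zero]
  · simp

namespace Params

variable {K : Type*} [Field K] {p n : ℕ} (P : Params K p n)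
variable [hp : Fact p.Prime] [CharP K p]

lemma xi_pow_words (k : Fin n) (c : Fin n → K) :
    ∀ a : ℕ, P.xi k c ^ a = ∑ f : Fin a → Fin n, (∏ i, c (f i)) •
      (List.ofFn fun i => P.xi k (Pi.single (f i) 1)).prod := by
  intro a
  induction a with
  | zero => simp
  | succ a ih =>
    have hx : P.xi k c = ∑ i, c i • P.xi k (Pi.single i 1) := by
      conv_lhs => rw [show P.xi k c = P.xiL k c from rfl, pi_eq_sum_univ' c, map_sum]
      exact Finset.sum_congr rfl fun i _ => by rw [map_smul]; rfl
    rw [pow_succ', ih, hx, Finset.sum_mul_sum, ← (Fin.consEquiv fun _ : Fin (a + 1) => Fin n).sum_comp,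
      Fintype.sum_prod_type]
    refine Finset.sum_congr rfl fun i _ => Finset.sum_congr rfl fun f _ => ?_
    simp [Fin.prod_univ_succ, List.ofFn_succ, smul_smul, mul_comm]

open Classical in
/-- A coefficient of a power of a row. -/
noncomputable def sg (k : Fin n) (a : ℕ) (α : Expn n a) : P.A :=
  ∑ f : Fin a → Fin n, if content (List.ofFn f) = α.1 then
    (List.ofFn fun i => P.xi k (Pi.single (f i) 1)).prod else 0

lemma xi_pow_sg (k : Fin n) (c : Fin n → K) (a : ℕ) :
    P.xi k c ^ a = ∑ α : Expn n a, eval c (monomial α.1 1) • P.sg k a α := by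
  classical
  rw [xi_pow_words]
  simp only [sg, Finset.smul_sum, smul_ite, smul_zero]
  rw [Finset.sum_comm]
  refine Finset.sum_congr rfl fun f _ => ?_
  rw [Finset.sum_eq_single ⟨content (List.ofFn f),
    (Words.degree_content _).trans (List.length_ofFn ..)⟩]
  · rw [if_pos rfl]
    congr 1
    rw [← Words.wval_repW, Words.wval_repW_content, wval, List.map_ofFn, List.prod_ofFn]
    rfl
  · intro α _ hα
    exact if_neg fun e => hα (Subtype.ext e.symm)
  · simp

variable [Infinite K]

lemma sg_coord (φ : P.A →ₗ[K] K) (k : Fin n) (a : ℕ) (g : MvPolynomial (Fin n) K)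
    (h : ∀ c, φ (P.xi k c ^ a) = eval c g) (α : Expn n a) : φ (P.sg k a α) = coeff α.1 g := by
  refine coeff_of_values (fun β => φ (P.sg k a β)) g (fun c => ?_) α
  rw [← h c, xi_pow_sg, map_sum]
  exact Finset.sum_congr rfl fun β _ => by rw [map_smul, smul_eq_mul]

lemma sg_supp (k : Fin n) (a : ℕ) (α : Expn n a) : P.sg k a α ∈ P.Supp (P.Deg k a) := by
  intro i hi
  have h := P.sg_coord ((LinearMap.proj i).comp P.cu.toLinearMap) k a 0 (fun c => ?_) α
  · rw [coeff_zero] at h
    exact h
  · rw [map_zero]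
    exact P.xi_pow_supp k c a i hi

/-- The zero state. -/
def z0 : P.St := fun _ _ => ⟨0, pow_pos hp.out.pos _⟩

/-- The coordinate of a word in the first state. -/
def wco (k : Fin n) (w : Words.Wd p (P.e k) n) : P.Co := (P.z0, P.z0, some ⟨k, (k, Sum.inl w)⟩)

lemma D_wco (k : Fin n) (w : Words.Wd p (P.e k) n) :
    P.D (P.wco k w) = Pi.single k (w.1.length : ℤ) := by
  simp [D, wco, jdeg, key]

/-- The word coordinates of a power of a row. -/
lemma cu_xi_pow (k k' : Fin n) (c : Fin n → K) {j : ℕ} (hj : j ≤ P.e k)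
    (w : Words.Wd p (P.e k') n) {j' : ℕ} (hj' : j' ≤ P.e k') (hw : w.1.length = p ^ j') :
    P.cu (P.xi k c ^ p ^ j) (P.wco k' w) =
      if k' = k ∧ j' = j then wval c w.1 else 0 := by
  classical
  have h2 := hp.out.two_le
  have hpos : 0 < p ^ j := pow_pos hp.out.pos j
  have hpos' : 0 < p ^ j' := pow_pos hp.out.pos j'
  have hlt : (p ^ j : ℤ) < P.q k := by
    exact_mod_cast Nat.pow_lt_pow_right h2 (by omega)
  split_ifs with h
  · obtain ⟨rfl, rfl⟩ := h
    have := P.charP_A
    rw [P.xi_pow_prime, map_add, Pi.add_apply]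
    have hr := pow_mem (P.rest_mem_without k' c) (p ^ j') P.z0 P.z0
    have hr' : P.cu (P.rest k' c ^ p ^ j') (P.wco k' w) = 0 := by
      rw [wco, cu_some, hr]; rfl
    rw [hr', add_zero, wco, cu_some]
    show ((Matrix.diagonal (fun _ => (Unitization.inr (Pi.single k' (P.tp k' c (p ^ j'))) : P.U))
      P.z0 P.z0).snd k') (k', Sum.inl w) = _
    rw [Matrix.diagonal_apply_eq, Unitization.snd_inr, Pi.single_eq_same]
    show tens (P.F k') k' c (p ^ j') (k', Sum.inl w) = _
    rw [Words.tens_inl, if_pos ⟨rfl, hw⟩]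
  · refine P.xi_pow_supp k c _ _ fun ⟨h0, h1, h3, _, _⟩ => h ?_
    rw [D_wco, hw] at h0 h1 h3
    rcases lt_trichotomy k' k with hk | rfl | hk
    · have := h0 k' hk
      rw [Pi.single_eq_same] at this
      omega
    · rw [Pi.single_eq_same] at h1 h3
      refine ⟨rfl, Nat.pow_right_injective h2 ?_⟩
      have hlt' : (p ^ j' : ℤ) < P.q k' := by
        exact_mod_cast Nat.pow_lt_pow_right h2 (by omega)
      obtain ⟨t, ht⟩ := h1
      push_cast at ht h3
      have : t = 0 := by
        have h4 : (P.q k' : ℤ) * t ≤ 0 := by linarith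
        have h5 : (P.q k' : ℤ) * (-1) < (P.q k' : ℤ) * t := by
          have : (0 : ℤ) < (p : ℤ) ^ j' := by positivity
          nlinarith
        have h6 := lt_of_mul_lt_mul_left h5 (Int.natCast_nonneg _)
        nlinarith
      subst this
      rw [mul_zero, sub_eq_zero] at ht
      exact_mod_cast ht
    · rw [Pi.single_eq_of_ne hk.ne] at h1
      push_cast at h1
      rw [zero_sub, dvd_neg] at h1
      have := Int.le_of_dvd (by positivity) h1
      omega

/-- Elements whose part in the tensor algebra of a row is scalar. -/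
lemma sg_diag (k : Fin n) {j : ℕ} (α : Expn n (p ^ j)) (a b : P.St) (i : P.TI k) :
    P.cu (P.sg k (p ^ j) α) (a, b, some ⟨k, i⟩) =
      if a = b then P.cu (P.sg k (p ^ j) α) (P.z0, P.z0, some ⟨k, i⟩) else 0 := by
  classical
  let e : P.Co → P.A →ₗ[K] K := fun co => (LinearMap.proj co).comp P.cu.toLinearMap
  have h := P.sg_coord (e (a, b, some ⟨k, i⟩) -
    (if a = b then (1 : K) else 0) • e (P.z0, P.z0, some ⟨k, i⟩)) k (p ^ j) 0 (fun c => ?_) α
  · rw [coeff_zero, LinearMap.sub_apply, LinearMap.smul_apply, smul_eq_mul, sub_eq_zero] at h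
    simpa [e] using h
  · simp only [e, LinearMap.sub_apply, LinearMap.smul_apply, LinearMap.comp_apply,
      LinearMap.proj_apply, LinearEquiv.coe_coe, map_zero, smul_eq_mul, sub_eq_zero]
    rw [P.xi_pow_prime, map_add, Pi.add_apply, Pi.add_apply]
    have hr := pow_mem (P.rest_mem_without k c) (p ^ j)
    have hr' : ∀ u v, P.cu (P.rest k c ^ p ^ j) (u, v, some ⟨k, i⟩) = 0 := fun u v => by
      rw [cu_some, hr u v]; rfl
    rw [hr', hr', add_zero, add_zero, cu_some, cu_some]
    show ((Matrix.diagonal (fun _ => (Unitization.inr (Pi.single k (P.tp k c (p ^ j))) : P.U))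
      a b).snd k) i = _ * ((Matrix.diagonal
      (fun _ => (Unitization.inr (Pi.single k (P.tp k c (p ^ j))) : P.U)) P.z0 P.z0).snd k) i
    rcases eq_or_ne a b with rfl | hab
    · rw [if_pos rfl, one_mul, Matrix.diagonal_apply_eq, Matrix.diagonal_apply_eq]
    · rw [if_neg hab, zero_mul, Matrix.diagonal_apply_ne _ hab]
      rfl

end Params

end Vale.Agent.P200.PMix
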