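import Vale.Agent.P200.Cyc.Model
import Vale.Agent.P200.PMix.RowSpec

/-!
Monomial models from commuting linear forms over a division ring whose powers are combinations of
the later ones.
-/

namespace Vale.Agent.P200.PMix

open MvPolynomial Module Quad Cyc
open scoped TensorProduct

universe u

variable {K : Type u} [Field K] {n : ℕ} {D : Type u} [DivisionRing D] [Algebra K D]

section words

variable {A : Type u} [CommRing A] [Algebra K A] (x : Fin n → A) (g : Fin n → Fin n → D)
variable (hphi : ∀ k l, Commute (Cyc.phi (K := K) x g k) (Cyc.phi (K := K) x g l))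

include hphi in
lemma word_comm (e : Fin n →₀ ℕ) (k : Fin n) (L : List (Fin n)) :
    Commute ((L.map fun l => Cyc.phi (K := K) x g l ^ e l).prod) (Cyc.phi (K := K) x g k) := by
  refine Commute.list_prod_left _ _ fun y hy => ?_
  obtain ⟨l, -, rfl⟩ := List.mem_map.1 hy
  exact (hphi l k).pow_left _

include hphi in
lemma word_mul_phi (e : Fin n →₀ ℕ) (k : Fin n) :
    Cyc.word (K := K) x g e * Cyc.phi (K := K) x g k = Cyc.word (K := K) x g (e + Finsupp.single k 1) := by
  obtain ⟨L₁, L₂, hL⟩ := List.append_of_mem (List.mem_finRange k)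
  have hnd := List.nodup_finRange n
  rw [hL, List.nodup_middle, List.nodup_cons] at hnd
  have h₁ : k ∉ L₁ := fun h => hnd.1 (List.mem_append_left _ h)
  have h₂ : k ∉ L₂ := fun h => hnd.1 (List.mem_append_right _ h)
  have hsame : ∀ L : List (Fin n), k ∉ L →
      (L.map fun l => Cyc.phi (K := K) x g l ^ (e + Finsupp.single k 1 : Fin n →₀ ℕ) l) =
        L.map fun l => Cyc.phi (K := K) x g l ^ e l := fun L hk => List.map_congr_left fun l hl => by
    have hne : l ≠ k := fun h => hk (h ▸ hl)
    rw [Finsupp.add_apply, Finsupp.single_eq_of_ne hne, add_zero]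
  simp only [Cyc.word, hL, List.map_append, List.map_cons, List.prod_append, List.prod_cons]
  rw [hsame L₁ h₁, hsame L₂ h₂]
  simp only [Finsupp.add_apply, Finsupp.single_eq_same, pow_succ, mul_assoc,
    (word_comm x g hphi e k L₂).eq]

include hphi in
lemma word_mul_phi_pow (e : Fin n →₀ ℕ) (k : Fin n) : ∀ j : ℕ,
    Cyc.word (K := K) x g e * Cyc.phi (K := K) x g k ^ j = Cyc.word (K := K) x g (e + Finsupp.single k j)
  | 0 => by simp
  | j + 1 => by
    rw [pow_succ, ← mul_assoc, word_mul_phi_pow e k j, word_mul_phi x g hphi, add_assoc,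
      ← Finsupp.single_add]

include hphi in
lemma word_mul_word (e e' : Fin n →₀ ℕ) :
    Cyc.word (K := K) x g e * Cyc.word (K := K) x g e' = Cyc.word (K := K) x g (e + e') := by
  induction e' using Finsupp.induction generalizing e with
  | zero => rw [word_zero, ← Algebra.TensorProduct.one_def, mul_one, add_zero]
  | single_add i j e' hi hj ih =>
    rw [add_comm (Finsupp.single i j) e', ← word_mul_phi_pow x g hphi e' i j, ← mul_assoc, ih,
      word_mul_phi_pow x g hphi, add_assoc]

/-- Products of two spans of tensors. -/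
lemma mul_mem_span {S T U : Set A} (hU : ∀ s ∈ S, ∀ t ∈ T, s * t ∈ U) {v w : D ⊗[K] A}
    (hv : v ∈ Submodule.span D ((fun q : A => (1 : D) ⊗ₜ[K] q) '' S))
    (hw : w ∈ Submodule.span D ((fun q : A => (1 : D) ⊗ₜ[K] q) '' T)) :
    v * w ∈ Submodule.span D ((fun q : A => (1 : D) ⊗ₜ[K] q) '' U) := by
  induction hv using Submodule.span_induction with
  | mem v hv =>
    obtain ⟨q, hq, rfl⟩ := hv
    induction hw using Submodule.span_induction with
    | mem w hw =>
      obtain ⟨q', hq', rfl⟩ := hw
      rw [Algebra.TensorProduct.tmul_mul_tmul, one_mul]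
      exact Submodule.subset_span ⟨_, hU q hq q' hq', rfl⟩
    | zero => simp
    | add x y _ _ hx hy => rw [mul_add]; exact add_mem hx hy
    | smul r x _ hx =>
      suffices h : ∀ y : D ⊗[K] A,
          ((1 : D) ⊗ₜ[K] q) * (r • y) = r • (((1 : D) ⊗ₜ[K] q) * y) by
        rw [h]; exact Submodule.smul_mem _ _ hx
      intro y
      induction y using TensorProduct.induction_on with
      | zero => simp
      | tmul y s => simp [TensorProduct.smul_tmul', Algebra.TensorProduct.tmul_mul_tmul]
      | add y z hy hz => rw [smul_add, mul_add, hy, hz, mul_add, smul_add]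
  | zero => simp
  | add x y _ _ hx hy => rw [add_mul]; exact add_mem hx hy
  | smul r x _ hx => rw [smul_mul_tensor]; exact Submodule.smul_mem _ _ hx

/-- Right multiplication by a word sends a span of words into a given space. -/
lemma mul_word_mem {S : Set (Fin n →₀ ℕ)} {T : Submodule D (D ⊗[K] A)} {v : D ⊗[K] A}
    {e : Fin n →₀ ℕ} (h : ∀ z ∈ S, Cyc.word (K := K) x g z * Cyc.word (K := K) x g e ∈ T)
    (hv : v ∈ Submodule.span D (Cyc.word (K := K) x g '' S)) :
    v * Cyc.word (K := K) x g e ∈ T := by
  induction hv using Submodule.span_induction with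
  | mem y hy => obtain ⟨z, hz, rfl⟩ := hy; exact h z hz
  | zero => simp
  | add y z _ _ hy hz => rw [add_mul]; exact add_mem hy hz
  | smul r y _ hy => rw [smul_mul_tensor]; exact Submodule.smul_mem _ _ hy

include hphi in
/-- Rewriting a power inside a word. -/
lemma word_expand (lo hi : Fin n →₀ ℕ) (i : Fin n) (j : ℕ) (w : Fin n → D ⊗[K] A)
    (hw : Cyc.phi (K := K) x g i ^ j = ∑ m, w m * Cyc.phi (K := K) x g m) :
    Cyc.word (K := K) x g (lo + Finsupp.single i j + hi) =
      ∑ m, (Cyc.word (K := K) x g lo * w m) * Cyc.word (K := K) x g (Finsupp.single m 1 + hi) := by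
  rw [← word_mul_word x g hphi, ← word_mul_phi_pow x g hphi, hw, Finset.mul_sum, Finset.sum_mul]
  refine Finset.sum_congr rfl fun m _ => ?_
  rw [← word_mul_word x g hphi, ← zero_add (Finsupp.single m 1), ← word_mul_phi x g hphi,
    word_zero, ← Algebra.TensorProduct.one_def, one_mul]
  simp only [mul_assoc]

/-- Symmetrised commutation of coefficients gives commuting forms. -/
lemma phi_commute_of_sym (k l : Fin n) (hd : ∀ i, g l i * g k i = g k i * g l i)
    (hs : ∀ i j, g l j * g k i + g l i * g k j = g k i * g l j + g k j * g l i) :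
    Commute (Cyc.phi (K := K) x g k) (Cyc.phi (K := K) x g l) := by
  have hsum : ∀ k l, Cyc.phi (K := K) x g k * Cyc.phi (K := K) x g l =
      ∑ p : Fin n × Fin n, (g k p.1 * g l p.2) ⊗ₜ[K] (x p.1 * x p.2) := fun k l => by
    simp only [Cyc.phi, Finset.sum_mul_sum, Algebra.TensorProduct.tmul_mul_tmul,
      Fintype.sum_prod_type]
  rw [Commute, SemiconjBy, hsum, hsum, ← sub_eq_zero, ← Finset.sum_sub_distrib]
  simp only [← TensorProduct.sub_tmul]
  refine Finset.sum_involution (fun p _ => (p.2, p.1)) (fun p _ => ?_) (fun p _ hne hp => ?_)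
    (fun _ _ => Finset.mem_univ _) (fun _ _ => rfl)
  · rw [mul_comm (x p.2), ← TensorProduct.add_tmul]
    rw [show g k p.1 * g l p.2 - g l p.1 * g k p.2 +
        (g k p.2 * g l p.1 - g l p.2 * g k p.1) =
        (g k p.1 * g l p.2 + g k p.2 * g l p.1) -
        (g l p.2 * g k p.1 + g l p.1 * g k p.2) by abel, hs p.1 p.2, sub_self,
      TensorProduct.zero_tmul]
  · obtain ⟨i, j⟩ := p
    simp only [Prod.mk.injEq] at hp
    obtain ⟨rfl, -⟩ := hp
    exact hne (by rw [hd, sub_self, TensorProduct.zero_tmul])

end words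

variable (f : Fin n → MvPolynomial (Fin n) K) (g : Fin n → Fin n → D)
variable (hphi : ∀ k l, Commute (Cyc.phi (K := K) (cls f) g k) (Cyc.phi (K := K) (cls f) g l))

lemma piece_mul {a b : ℕ} {v w : D ⊗[K] Quo f} (hv : v ∈ piece f a) (hw : w ∈ piece f b) :
    v * w ∈ piece f (a + b) := by
  refine mul_mem_span ?_ hv hw
  rintro _ ⟨u, hu, rfl⟩ _ ⟨u', hu', rfl⟩
  exact ⟨u * u', hu.mul hu', map_mul (Ideal.Quotient.mkₐ K (Ideal.span (Set.range f))) _ _⟩

lemma phi_mem_piece (k : Fin n) : Cyc.phi (K := K) (cls f) g k ∈ piece f 1 :=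
  sum_mem fun i _ => tmul_mem_piece f _ ⟨X i, isHomogeneous_X K i, rfl⟩

include hphi in
lemma word_mem_piece (e : Fin n →₀ ℕ) : Cyc.word (K := K) (cls f) g e ∈ piece f e.degree := by
  induction e using Finsupp.induction with
  | zero => rw [word_zero, map_zero]; exact tmul_mem_piece f _ (one_mem_quoDeg f)
  | single_add i j e hi hj ih =>
    rw [add_comm, ← word_mul_phi_pow (cls f) g hphi, map_add, Finsupp.degree_single]
    clear hi hj
    induction j with
    | zero => simpa using ih
    | succ j ihj => rw [pow_succ, ← mul_assoc, ← add_assoc]; exact piece_mul f ihj (phi_mem_piece f g i)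

include hphi in
lemma wordSpan_mul_phi (k : Fin n) {d : ℕ} {v : D ⊗[K] Quo f} (hv : v ∈ wordSpan f g d) :
    rmul (K := K) (cls f) g k v ∈ wordSpan f g (d + 1) := by
  induction hv using Submodule.span_induction with
  | mem x hx =>
    obtain ⟨e, he, rfl⟩ := hx
    refine Submodule.subset_span ⟨e + Finsupp.single k 1, ?_, (word_mul_phi (cls f) g hphi e k).symm⟩
    simp only [Set.mem_ofPred_eq] at he ⊢
    rw [map_add, Finsupp.degree_single, he]
  | zero => simp
  | add x y _ _ hx hy => rw [map_add]; exact add_mem hx hy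
  | smul r x _ hx => rw [map_smul]; exact Submodule.smul_mem _ _ hx

variable (E : Fin n → Fin n → D) (hE : ∀ i j, ∑ k, E i k * g k j = if i = j then 1 else 0)

include hphi hE in
lemma wordSpan_eq_piece (d : ℕ) : wordSpan f g d = piece f d := by
  refine le_antisymm (Submodule.span_le.2 ?_) ?_
  · rintro _ ⟨e, he, rfl⟩
    exact (he : e.degree = d) ▸ word_mem_piece f g hphi e
  induction d with
  | zero =>
    refine Submodule.span_le.2 ?_
    rintro _ ⟨q, ⟨u, hu, rfl⟩, rfl⟩
    rw [show u = C (coeff 0 u) from totalDegree_eq_zero_iff_eq_C.1 (Nat.le_zero.1 hu.totalDegree_le),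
      C_eq_smul_one]
    simp only [map_smul, SetLike.mem_coe, TensorProduct.tmul_smul]
    refine Submodule.smul_of_tower_mem _ _ (Submodule.subset_span ⟨0, map_zero _, ?_⟩)
    rw [word_zero, show mkA f 1 = 1 from map_one (Ideal.Quotient.mkₐ K (Ideal.span (Set.range f)))]
  | succ d ih =>
    refine Submodule.span_le.2 ?_
    rintro _ ⟨q, ⟨u, hu, rfl⟩, rfl⟩
    have hu' : u ∈ homogeneousSubmodule (Fin n) K d * homogeneousSubmodule (Fin n) K 1 := by
      rw [← homogeneousSubmodule_one_pow (σ := Fin n) (R := K) d, ← pow_succ,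
        homogeneousSubmodule_one_pow]
      exact hu
    clear hu
    induction hu' using Submodule.mul_induction_on' with
    | mem_mul_mem x hx y hy =>
      rw [homogeneousSubmodule_one_eq_span_X] at hy
      induction hy using Submodule.span_induction with
      | mem y hy =>
        obtain ⟨i, rfl⟩ := hy
        have key : ∑ k, E i k • rmul (K := K) (cls f) g k ((1 : D) ⊗ₜ[K] mkA f x) =
            (1 : D) ⊗ₜ[K] mkA f (x * X i) := by
          simp only [rmul_one_tmul, Finset.smul_sum, TensorProduct.smul_tmul', smul_eq_mul]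
          rw [Finset.sum_comm]
          simp only [← TensorProduct.sum_tmul, hE]
          rw [Finset.sum_eq_single i (fun j _ hj => by simp [Ne.symm hj]) (by simp), if_pos rfl,
            mul_comm x, show mkA f (X i * x) = mkA f (X i) * mkA f x from
            map_mul (Ideal.Quotient.mkₐ K (Ideal.span (Set.range f))) _ _]
        show (1 : D) ⊗ₜ[K] mkA f (x * X i) ∈ wordSpan f g (d + 1)
        rw [← key]
        exact sum_mem fun k _ => Submodule.smul_mem _ _
          (wordSpan_mul_phi f g hphi k (ih (tmul_mem_piece f _ ⟨x, hx, rfl⟩)))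
      | zero => simp
      | add y y' _ _ hy hy' =>
        simp only [SetLike.mem_coe] at hy hy' ⊢
        rw [mul_add, map_add, TensorProduct.tmul_add]; exact add_mem hy hy'
      | smul c y _ hy =>
        simp only [SetLike.mem_coe] at hy ⊢
        rw [mul_smul_comm, map_smul, TensorProduct.tmul_smul]
        exact Submodule.smul_of_tower_mem _ _ hy
    | add x _ y _ hx hy =>
      simp only [SetLike.mem_coe] at hx hy ⊢
      rw [map_add, TensorProduct.tmul_add]; exact add_mem hx hy

/-- The exponent read from the last index to the first, ordered lexicographically. -/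
noncomputable def rkey (e : Fin n →₀ ℕ) : Lex (Fin n →₀ ℕ) :=
  toLex (Finsupp.equivFunOnFinite.symm fun i => e (Fin.rev i))

lemma rkey_add (e e' : Fin n →₀ ℕ) : rkey (e + e') = rkey e + rkey e' := by
  unfold rkey
  rw [← toLex_add]
  congr 1
  ext i
  simp

lemma rkey_injective : Function.Injective (rkey (n := n)) := by
  intro e e' h
  ext i
  simpa [rkey] using congrArg (fun z => z (Fin.rev i)) (toLex.injective h)

lemma rkey_lt {e e' : Fin n →₀ ℕ} (m : Fin n) (hm : e m < e' m)
    (h : ∀ j, m < j → e j ≤ e' j) : rkey e < rkey e' := by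
  classical
  obtain ⟨j, hj, hmax⟩ := ((Finset.univ : Finset (Fin n)).filter fun j => e j ≠ e' j).exists_max_image
    id ⟨m, by simp [hm.ne]⟩
  simp only [Finset.mem_filter, Finset.mem_univ, true_and, id_eq] at hj hmax
  have hmj : m ≤ j := hmax m hm.ne
  refine Finsupp.Lex.lt_iff.2 ⟨Fin.rev j, fun i hi => ?_, ?_⟩
  · show e (Fin.rev i) = e' (Fin.rev i)
    by_contra hne
    exact absurd (hmax _ hne) (not_le.2 (by rwa [Fin.lt_rev_iff]))
  · show e (Fin.rev (Fin.rev j)) < e' (Fin.rev (Fin.rev j))
    rw [Fin.rev_rev]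
    rcases hmj.eq_or_lt with rfl | hlt
    · exact hm
    · exact lt_of_le_of_ne (h j hlt) hj

variable {a : Fin n → ℕ}
variable (hpow : ∀ k, ∃ w : Fin n → D ⊗[K] Quo f, (∀ m, ¬ k < m → w m = 0) ∧
  (∀ m, w m ∈ piece f (a k - 1)) ∧
  Cyc.phi (K := K) (cls f) g k ^ a k = ∑ m, w m * Cyc.phi (K := K) (cls f) g m)

/-- The box exponents of one degree above a given exponent. -/
def aboveSet (a : Fin n → ℕ) (d : ℕ) (e : Fin n →₀ ℕ) : Set (Fin n →₀ ℕ) :=
  {e' | e'.degree = d ∧ (∀ i, e' i < a i) ∧ rkey e < rkey e'}

/-- The span of the box words of one degree above a given exponent. -/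
noncomputable def above (a : Fin n → ℕ) (d : ℕ) (e : Fin n →₀ ℕ) :
    Submodule D (D ⊗[K] Quo f) :=
  Submodule.span D (Cyc.word (K := K) (cls f) g '' aboveSet a d e)

include hphi hE hpow in
lemma word_mem_above (ha : ∀ i, 0 < a i) (d : ℕ) : ∀ e : Fin n →₀ ℕ, e.degree = d →
    (∃ i, a i ≤ e i) → Cyc.word (K := K) (cls f) g e ∈ above f g a d e := by
  classical
  intro e
  induction hN : (((Finset.univ : Finset (Fin n)).finsuppAntidiag d).filter
    fun e' => rkey e < rkey e').card using Nat.strong_induction_on generalizing e with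
  | _ N ih =>
  intro hed ⟨i, hi⟩
  have hmem : ∀ e' : Fin n →₀ ℕ, e'.degree = d →
      e' ∈ (Finset.univ : Finset (Fin n)).finsuppAntidiag d := fun e' he' => by
    simpa [Finsupp.degree_eq_sum] using he'
  have hhigh : ∀ e' : Fin n →₀ ℕ, e'.degree = d → rkey e < rkey e' →
      Cyc.word (K := K) (cls f) g e' ∈ above f g a d e := by
    intro e' hd' hlt
    by_cases hb : ∀ j, e' j < a j
    · exact Submodule.subset_span ⟨e', ⟨hd', hb, hlt⟩, rfl⟩
    push Not at hb
    refine (Submodule.span_mono (Set.image_mono ?_) :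
      above f g a d e' ≤ above f g a d e) (ih _ ?_ e' rfl hd' hb)
    · rintro z ⟨z1, z2, z3⟩; exact ⟨z1, z2, hlt.trans z3⟩
    · subst hN
      refine Finset.card_lt_card (Finset.ssubset_iff_of_subset ?_ |>.2
        ⟨e', Finset.mem_filter.2 ⟨hmem e' hd', hlt⟩, by simp⟩)
      intro z hz
      simp only [Finset.mem_filter] at hz ⊢
      exact ⟨hz.1, hlt.trans hz.2⟩
  let hiP : Fin n →₀ ℕ := e.filter fun j => i < j
  let loP : Fin n →₀ ℕ := e.filter fun j => ¬ i < j
  have hsplit : loP + hiP = e := by
    rw [add_comm]; exact Finsupp.filter_add_filter_not e _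
  have hloi : a i ≤ loP i := by simpa [loP] using hi
  obtain ⟨lo', hlo'⟩ : ∃ lo', loP = lo' + Finsupp.single i (a i) :=
    ⟨loP - Finsupp.single i (a i), (tsub_add_cancel_of_le (Finsupp.single_le_iff.2 hloi)).symm⟩
  obtain ⟨w, hw0, hwm, hweq⟩ := hpow i
  have hexp : Cyc.word (K := K) (cls f) g e = ∑ m, (Cyc.word (K := K) (cls f) g lo' * w m) *
      Cyc.word (K := K) (cls f) g (Finsupp.single m 1 + hiP) := by
    conv_lhs => rw [← hsplit, hlo']
    exact word_expand (cls f) g hphi lo' hiP i (a i) w hweq
  rw [hexp]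
  refine sum_mem fun m _ => ?_
  by_cases hm : i < m
  swap
  · rw [hw0 m hm, mul_zero, zero_mul]; exact zero_mem _
  have hv := piece_mul f (word_mem_piece f g hphi lo') (hwm m)
  rw [← wordSpan_eq_piece f g hphi E hE] at hv
  refine mul_word_mem (cls f) g (fun z hz => ?_) hv
  rw [word_mul_word (cls f) g hphi]
  refine hhigh _ ?_ ?_
  · have h1 := congrArg Finsupp.degree hsplit
    rw [hlo'] at h1
    simp only [map_add, Finsupp.degree_single, Set.mem_ofPred_eq] at h1 hz ⊢
    have := ha i
    omega
  · refine rkey_lt m ?_ fun j hj => ?_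
    · simp [hiP, hm]; omega
    · simp [hiP, hm.trans hj]; omega

include hphi hpow hE in
set_option maxHeartbeats 400000 in
/-- Monomial models from commuting rows with triangular powers. -/
theorem hasModel_of_rewrite (ha : ∀ i, 0 < a i) (hf : ∀ i, (f i).IsHomogeneous (a i))
    (hreg : RegList ⊥ (List.ofFn f)) : HasModel f a := by
  classical
  set I := Ideal.span (Set.range f)
  have hI : HomogI I := by
    have := homogI_ofList' (L := List.ofFn f) fun q hq => by
      obtain ⟨i, rfl⟩ := List.mem_ofFn.1 hq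
      exact ⟨a i, ha i, hf i⟩
    convert this using 1
    exact congrArg Ideal.span (Set.ext fun x => by simp [List.mem_ofFn])
  have hH := finrank_degPart_forms ha hf hreg
  let box : ℕ → Finset (∀ i, Fin (a i)) := fun d => Finset.univ.filter fun α => (toE α).degree = d
  have himg : ∀ d, (box d).image toE = ((Finset.univ : Finset (Fin n)).finsuppAntidiag d).filter
      fun e => ¬ ∃ i, a i ≤ e i := by
    intro d
    ext e
    simp only [box, Finset.mem_image, Finset.mem_filter, Finset.mem_univ, true_and,
      Finset.mem_finsuppAntidiag, Finset.subset_univ, and_true, Finsupp.degree_eq_sum, not_exists,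
      not_le]
    constructor
    · rintro ⟨α, hα, rfl⟩
      exact ⟨hα, fun i => (α i).2⟩
    · rintro ⟨hd, hlt⟩
      exact ⟨fun i => ⟨e i, hlt i⟩, hd, Finsupp.ext fun i => rfl⟩
  have htot : ∀ d, (outBox a d).card + (box d).card =
      finrank K (homogeneousSubmodule (Fin n) K d) := by
    intro d
    rw [← Finset.card_image_of_injective (box d) toE_injective, himg, outBox,
      Finset.card_filter_add_card_filter_not, Quad.finrank_homog, ← Nat.card_eq_finsetCard]
    exact Nat.card_congr (Equiv.subtypeEquivRight fun e => by simp [Finsupp.degree_eq_sum])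
  have hdec : ∀ (J : Ideal (MvPolynomial (Fin n) K)), (∀ i, f i ∈ J) → ∀ d,
      finrank K (jbar f J d) + (outBox a d).card =
        finrank K (Vale.Agent.P200.degPart d J) := by
    intro J hJ d
    have h1 := finrank_map_add_ker (mkA f) (Vale.Agent.P200.degPart d J)
    have h2 : Vale.Agent.P200.degPart d J ⊓ LinearMap.ker (mkA f) =
        Vale.Agent.P200.degPart d I := by
      have hIJ : I ≤ J := Ideal.span_le.2 fun x ⟨i, hi⟩ => hi ▸ hJ i
      ext u
      simp only [Submodule.mem_inf, Vale.Agent.P200.mem_degPart, LinearMap.mem_ker]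
      constructor
      · rintro ⟨⟨h1, -⟩, h2⟩; exact ⟨h1, Ideal.Quotient.eq_zero_iff_mem.1 h2⟩
      · rintro ⟨h1, h2⟩; exact ⟨⟨h1, hIJ h2⟩, Ideal.Quotient.eq_zero_iff_mem.2 h2⟩
    rw [h2, hH d] at h1
    exact h1
  have hquo : ∀ d, finrank K (quoDeg f d) = (box d).card := by
    intro d
    have h := hdec ⊤ (fun _ => Submodule.mem_top) d
    have htop : Vale.Agent.P200.degPart d (⊤ : Ideal (MvPolynomial (Fin n) K)) =
        homogeneousSubmodule (Fin n) K d := by
      ext u; simp [Vale.Agent.P200.mem_degPart]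
    have h' := htot d
    rw [jbar, htop] at h
    simp only [quoDeg] at h ⊢
    exact Nat.add_right_cancel (h.trans (h'.symm.trans (add_comm _ _)))
  choose π hπ using exists_compA f hI
  let P : ℕ → D ⊗[K] Quo f →ₗ[D] D ⊗[K] Quo f := fun d =>
    TensorProduct.AlgebraTensorModule.map LinearMap.id (π d)
  have hπdeg : ∀ {d e : ℕ} {q : Quo f}, q ∈ quoDeg f e → π d q = if e = d then q else 0 := by
    rintro d e _ ⟨u, hu, rfl⟩
    rw [hπ, homogeneousComponent_of_mem hu]
    by_cases h : e = d
    · rw [if_pos h.symm, if_pos h]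
    · rw [if_neg (Ne.symm h), if_neg h, map_zero]
  have hP : ∀ (d e : ℕ) (v : D ⊗[K] Quo f), v ∈ piece f e → P d v = if e = d then v else 0 := by
    intro d e v hv
    induction hv using Submodule.span_induction with
    | mem x hx =>
      obtain ⟨q, hq, rfl⟩ := hx
      simp only [P, TensorProduct.AlgebraTensorModule.map_tmul, LinearMap.id_apply, hπdeg hq]
      split_ifs <;> simp
    | zero => simp
    | add x y _ _ hx hy => rw [map_add, hx, hy]; split_ifs <;> simp
    | smul r x _ hx => rw [map_smul, hx]; split_ifs <;> simp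
  have hws := wordSpan_eq_piece f g hphi E hE
  have hspanbox : ∀ d, Submodule.span D ((fun α => Cyc.word (K := K) (cls f) g (toE α)) '' (↑(box d) : Set (∀ i, Fin (a i)))) =
      piece f d := by
    intro d
    rw [← hws, wordSpan]
    refine le_antisymm (Submodule.span_mono ?_) (Submodule.span_le.2 ?_)
    · rintro _ ⟨α, hα, rfl⟩
      exact ⟨_, (Finset.mem_filter.1 (Finset.mem_coe.1 hα)).2, rfl⟩
    · have hbox : ∀ e : Fin n →₀ ℕ, e.degree = d → (∀ i, e i < a i) →
          Cyc.word (K := K) (cls f) g e ∈ Submodule.span D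
            ((fun α => Cyc.word (K := K) (cls f) g (toE α)) '' (↑(box d) : Set (∀ i, Fin (a i)))) := by
        intro e he h
        have he' : toE (fun i => (⟨e i, h i⟩ : Fin (a i))) = e := Finsupp.ext fun i => rfl
        refine Submodule.subset_span ⟨fun i => ⟨e i, h i⟩, ?_, by simp only [he']⟩
        simp only [box, Finset.coe_filter, Finset.mem_univ, true_and, Set.mem_ofPred_eq, he']
        exact he
      rintro _ ⟨e, he, rfl⟩
      by_cases h : ∃ i, a i ≤ e i
      · refine (Submodule.span_le.2 ?_ : above f g a d e ≤ _) (word_mem_above f g hphi E hE hpow ha d e he h)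
        rintro _ ⟨e', ⟨hd', hb, -⟩, rfl⟩
        exact hbox e' hd' hb
      · push Not at h
        exact hbox e he h
  have hfin : ∀ d, FiniteDimensional K (quoDeg f d) := Quad.finite_quoDeg f
  have hli : LinearIndependent D fun α : ∀ i, Fin (a i) => Cyc.word (K := K) (cls f) g (toE α) := by
    rw [Fintype.linearIndependent_iff]
    intro c hc α
    set d := (toE α).degree with hdα
    have hd : LinearIndependent D (fun β : {β // β ∈ box d} => Cyc.word (K := K) (cls f) g (toE β.1)) := by
      rw [linearIndependent_iff_card_eq_finrank_span, Set.finrank]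
      have : Submodule.span D (Set.range fun β : {β // β ∈ box d} => Cyc.word (K := K) (cls f) g (toE β.1)) =
          piece f d := by
        rw [← hspanbox]
        congr 1
        ext x
        simp
      rw [this, piece, finrank_span_one_tmul, hquo, Fintype.card_coe]
    have h2 := congrArg (P d) hc
    simp only [map_sum, map_smul, map_zero, hP d _ _ (word_mem_piece f g hphi _),
      smul_ite, smul_zero] at h2
    rw [← Finset.sum_filter, show (Finset.univ.filter fun β => (toE β).degree = d) = box d from rfl,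
      ← Finset.sum_coe_sort] at h2
    exact Fintype.linearIndependent_iff.1 hd (fun β => c β.1) h2 ⟨α, by simp [box, d]⟩
  have hsp : ⊤ ≤ Submodule.span D (Set.range fun α : ∀ i, Fin (a i) => Cyc.word (K := K) (cls f) g (toE α)) := by
    intro v _
    induction v using TensorProduct.induction_on with
    | zero => exact zero_mem _
    | add x y hx hy => exact add_mem (hx trivial) (hy trivial)
    | tmul x q =>
      obtain ⟨u, rfl⟩ := mkA_surjective f q
      rw [← sum_homogeneousComponent u, map_sum, TensorProduct.tmul_sum]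
      refine sum_mem fun d _ => ?_
      have := tmul_mem_piece f x (q := mkA f (homogeneousComponent d u))
        ⟨_, homogeneousComponent_mem _ _, rfl⟩
      rw [← hspanbox] at this
      exact Submodule.span_mono (Set.image_subset_range _ _) this
  let b : Basis (∀ i, Fin (a i)) D (D ⊗[K] Quo f) := Basis.mk hli hsp
  have hb : ∀ α, b α = Cyc.word (K := K) (cls f) g (toE α) := fun α => Basis.mk_apply hli hsp α
  have hbw : ∀ α R, b.repr (Cyc.word (K := K) (cls f) g (toE α)) R = if α = R then 1 else 0 := by
    intro α R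
    rw [← hb, Basis.repr_self, Finsupp.single_apply]
  let key : (∀ i, Fin (a i)) → (Lex (Fin n →₀ ℕ))ᵒᵈ := fun α => OrderDual.toDual (rkey (toE α))
  have hkey : Function.Injective key :=
    OrderDual.toDual.injective.comp (rkey_injective.comp toE_injective)
  let U : Ideal (MvPolynomial (Fin n) K) → Submodule D (D ⊗[K] Quo f) := fun J =>
    Submodule.span D (⋃ d, (fun q : Quo f => (1 : D) ⊗ₜ[K] q) '' (jbar f J d : Set (Quo f)))
  let L : Ideal (MvPolynomial (Fin n) K) → ℕ → Finset (∀ i, Fin (a i)) := fun J d =>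
    leadSet b key (U J ⊓ piece f d)
  have hLdeg : ∀ J d, ∀ α ∈ L J d, (toE α).degree = d := by
    intro J d α hα
    obtain ⟨v, hv, h1, -⟩ := (mem_leadSet b key).1 hα
    have hv2 : v ∈ Submodule.span D (b '' (↑(box d) : Set (∀ i, Fin (a i)))) := by
      rw [show (b '' (↑(box d) : Set (∀ i, Fin (a i)))) = (fun α => Cyc.word (K := K) (cls f) g (toE α)) '' (↑(box d) : Set (∀ i, Fin (a i))) from
        Set.image_congr fun α _ => hb α, hspanbox]
      exact hv.2
    rw [Basis.mem_span_image] at hv2
    exact (Finset.mem_filter.1 (hv2 (Finsupp.mem_support_iff.2 h1))).2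
  have hLmono : ∀ J J', J ≤ J' → ∀ d, L J d ⊆ L J' d := by
    intro J J' hJJ' d α hα
    obtain ⟨v, hv, h⟩ := (mem_leadSet b key).1 hα
    refine (mem_leadSet b key).2 ⟨v, ⟨?_, hv.2⟩, h⟩
    refine Submodule.span_mono (Set.iUnion_mono fun e => Set.image_mono ?_) hv.1
    exact Submodule.map_mono (inf_le_inf_left _ fun u hu => hJJ' hu)
  have hLcard : ∀ J d, (L J d).card = finrank K (jbar f J d) := by
    intro J d
    rw [card_leadSet b key hkey]
    have hjb : jbar f J d ≤ quoDeg f d := Submodule.map_mono inf_le_left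
    have := Submodule.finiteDimensional_of_le hjb
    rw [← finrank_span_one_tmul (D := D) (jbar f J d)]
    suffices heq : U J ⊓ piece f d = Submodule.span D
        ((fun q : Quo f => (1 : D) ⊗ₜ[K] q) '' (jbar f J d : Set (Quo f))) by rw [heq]
    refine le_antisymm ?_ (le_inf ?_ ?_)
    · rintro v ⟨hv1, hv2⟩
      have h3 : P d v = v := by rw [hP d d v hv2, if_pos rfl]
      rw [← h3]
      clear h3 hv2
      induction hv1 using Submodule.span_induction with
      | mem x hx =>
        obtain ⟨e, q, hq, rfl⟩ := Set.mem_iUnion.1 hx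
        rw [hP d e _ (tmul_mem_piece f 1 (Submodule.map_mono inf_le_left hq))]
        split_ifs with h
        · exact Submodule.subset_span ⟨q, h ▸ hq, rfl⟩
        · exact zero_mem _
      | zero => simp
      | add x y _ _ hx hy => rw [map_add]; exact add_mem hx hy
      | smul r x _ hx => rw [map_smul]; exact Submodule.smul_mem _ _ hx
    · exact Submodule.span_mono (Set.subset_iUnion
        (fun d => (fun q : Quo f => (1 : D) ⊗ₜ[K] q) '' (jbar f J d : Set (Quo f))) d)
    · exact Submodule.span_mono (Set.image_mono fun q hq => hjb hq)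
  have hhigher : ∀ e : Fin n →₀ ℕ, ∀ R, b.repr (Cyc.word (K := K) (cls f) g e) R ≠ 0 →
      (∃ i, a i ≤ e i) → rkey e < rkey (toE R) := by
    intro e R hR hi
    have hmem := word_mem_above f g hphi E hE hpow ha _ e rfl hi
    by_contra hcon
    refine hR ?_
    clear hR
    generalize Cyc.word (K := K) (cls f) g e = v at hmem ⊢
    induction hmem using Submodule.span_induction with
    | mem x hx =>
      obtain ⟨e', ⟨-, hb', hlt⟩, rfl⟩ := hx
      have he' : e' = toE (fun i => (⟨e' i, hb' i⟩ : Fin (a i))) := Finsupp.ext fun i => rfl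
      rw [he', hbw, if_neg]
      rintro rfl
      exact hcon (he' ▸ hlt)
    | zero => simp
    | add x y _ _ hx hy => rw [map_add, Finsupp.add_apply, hx, hy, add_zero]
    | smul r x _ hx => rw [map_smul, Finsupp.smul_apply, hx, smul_zero]
  have hLclosed : ∀ J d, ∀ α ∈ L J d, ∀ k (β : ∀ i, Fin (a i)),
      toE β = toE α + Finsupp.single k 1 → β ∈ L J (d + 1) := by
    intro J d α hα k β hβ
    obtain ⟨v, ⟨hv1, hv2⟩, hl1, hl2⟩ := (mem_leadSet b key).1 hα
    have hrepr : ∀ R, b.repr (rmul (K := K) (cls f) g k v) R = ∑ γ, b.repr v γ *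
        b.repr (Cyc.word (K := K) (cls f) g (toE γ + Finsupp.single k 1)) R := by
      intro R
      conv_lhs => rw [← b.sum_repr v]
      rw [map_sum, map_sum, Finsupp.finsetSum_apply]
      refine Finset.sum_congr rfl fun γ _ => ?_
      rw [map_smul, map_smul, Finsupp.smul_apply, smul_eq_mul, hb]
      exact congrArg (fun z => b.repr v γ * b.repr z R) (word_mul_phi (cls f) g hphi _ _)
    have hle : ∀ γ R, b.repr v γ ≠ 0 →
        b.repr (Cyc.word (K := K) (cls f) g (toE γ + Finsupp.single k 1)) R ≠ 0 →
        rkey (toE β) ≤ rkey (toE R) ∧ (R = β → γ = α) := by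
      intro γ R hγ hR
      have h1 : rkey (toE β) ≤ rkey (toE γ + Finsupp.single k 1) := by
        rw [hβ, rkey_add, rkey_add]
        exact add_le_add_left (OrderDual.toDual_le_toDual.1 (hl2 γ hγ)) _
      by_cases h : ∃ i, a i ≤ (toE γ + Finsupp.single k 1 : Fin n →₀ ℕ) i
      · have h2 := hhigher _ R hR h
        exact ⟨h1.trans h2.le, fun hRβ => absurd (hRβ ▸ h2) (not_lt.2 h1)⟩
      · push Not at h
        have he' : toE γ + Finsupp.single k 1 = toE (fun i => (⟨_, h i⟩ : Fin (a i))) :=
          Finsupp.ext fun i => rfl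
        rw [he', hbw] at hR
        split_ifs at hR with hRe
        · refine ⟨by rw [← hRe, ← he']; exact h1, fun hRβ => toE_injective ?_⟩
          have he2 : toE γ + Finsupp.single k 1 = toE R := he'.trans (congrArg toE hRe)
          rw [hRβ, hβ] at he2
          exact add_right_cancel he2
        · simp at hR
    refine (mem_leadSet b key).2 ⟨rmul (K := K) (cls f) g k v, ⟨?_, ?_⟩, ?_, ?_⟩
    · clear hv2 hl1 hl2 hrepr hle
      induction hv1 using Submodule.span_induction with
      | mem x hx =>
        obtain ⟨e, q, hq, rfl⟩ := Set.mem_iUnion.1 hx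
        rw [rmul_one_tmul]
        refine sum_mem fun j _ => ?_
        rw [show g k j ⊗ₜ[K] (mkA f (X j) * q) = g k j • ((1 : D) ⊗ₜ[K] (mkA f (X j) * q)) by
          simp [TensorProduct.smul_tmul']]
        refine Submodule.smul_mem _ _ (Submodule.subset_span (Set.mem_iUnion.2 ⟨e + 1, _, ?_, rfl⟩))
        obtain ⟨u, hu, rfl⟩ := hq
        refine ⟨X j * u, ⟨?_, Ideal.mul_mem_left J _ hu.2⟩,
          map_mul (Ideal.Quotient.mkₐ K (Ideal.span (Set.range f))) _ _⟩
        show (X j * u).IsHomogeneous (e + 1)
        rw [add_comm]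
        exact (isHomogeneous_X K j).mul hu.1
      | zero => simp
      | add x y _ _ hx hy => rw [map_add]; exact add_mem hx hy
      | smul r x _ hx => rw [map_smul]; exact Submodule.smul_mem _ _ hx
    · rw [← hws]
      exact wordSpan_mul_phi f g hphi k (by rw [hws]; exact hv2)
    · rw [hrepr, Finset.sum_eq_single α]
      · rw [← hβ, hbw, if_pos rfl, mul_one]
        exact hl1
      · intro γ _ hne
        by_contra hcon
        exact hne ((hle γ β (left_ne_zero_of_mul hcon) (right_ne_zero_of_mul hcon)).2 rfl)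
      · simp
    · intro R hR
      rw [hrepr] at hR
      obtain ⟨γ, -, hγ⟩ := Finset.exists_ne_zero_of_sum_ne_zero hR
      exact OrderDual.toDual_le_toDual.2
        (hle γ R (left_ne_zero_of_mul hγ) (right_ne_zero_of_mul hγ)).1
  refine ⟨fun J d => (L J d).image toE ∪ outBox a d, fun J hJ => ⟨fun d => ⟨?_, ?_, ?_, ?_⟩, ?_⟩⟩
    <;> simp only
  · intro e he
    rcases Finset.mem_union.1 he with he | he
    · obtain ⟨α, hα, rfl⟩ := Finset.mem_image.1 he
      exact hLdeg J d α hα
    · exact (mem_outBox.1 he).1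
  · have hdis : Disjoint ((L J d).image toE) (outBox a d) := by
      rw [Finset.disjoint_left]
      intro e he he'
      obtain ⟨α, -, rfl⟩ := Finset.mem_image.1 he
      obtain ⟨-, i, hi⟩ := mem_outBox.1 he'
      exact absurd hi (not_le.2 (α i).2)
    rw [Finset.card_union_of_disjoint hdis, Finset.card_image_of_injective _ toE_injective, hLcard,
      hdec J hJ d]
  · intro e hd hi
    exact Finset.mem_union_right _ (mem_outBox.2 ⟨hd, hi⟩)
  · intro e he k
    have hout : e.degree = d → (∃ i, a i ≤ (e + Finsupp.single k 1 : Fin n →₀ ℕ) i) →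
        e + Finsupp.single k 1 ∈ (L J (d + 1)).image toE ∪ outBox a (d + 1) := fun hd h =>
      Finset.mem_union_right _ (mem_outBox.2 ⟨by rw [map_add, Finsupp.degree_single, hd], h⟩)
    rcases Finset.mem_union.1 he with he | he
    · obtain ⟨α, hα, rfl⟩ := Finset.mem_image.1 he
      by_cases h : ∃ i, a i ≤ (toE α + Finsupp.single k 1 : Fin n →₀ ℕ) i
      · exact hout (hLdeg J d α hα) h
      · push Not at h
        exact Finset.mem_union_left _ (Finset.mem_image.2
          ⟨fun i => ⟨_, h i⟩, hLclosed J d α hα k _ (Finsupp.ext fun i => rfl),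
            Finsupp.ext fun i => rfl⟩)
    · obtain ⟨hd, j, hj⟩ := mem_outBox.1 he
      exact hout hd ⟨j, le_trans hj (by simp)⟩
  · intro J' hJJ' d
    exact Finset.union_subset_union (Finset.image_subset_image (hLmono _ _ hJJ' d)) subset_rfl



/-- Models from rows. -/
theorem Rows.hasModel {f : Fin n → MvPolynomial (Fin n) K} {a : Fin n → ℕ} (R : Rows f a D)
    (ha : ∀ i, 0 < a i) (hf : ∀ i, (f i).IsHomogeneous (a i)) (hreg : RegList ⊥ (List.ofFn f)) :
    HasModel f a := by
  exact hasModel_of_rewrite f R.g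
    (fun k l => phi_commute_of_sym _ R.g k l (R.diag_comm k l) (R.sym_comm k l)) R.E R.inv
    (fun k => ⟨R.mult k, R.mult_zero k, R.mult_mem k, R.pow k⟩) ha hf hreg

end Vale.Agent.P200.PMix
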