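import Vale.Agent.P200.PMix.Coeff

/-!
The filtered algebra of the positive weights, in coordinates in which the coefficients of the small
powers of the rows are coordinates.
-/

namespace Vale.Agent.P200.PMix

open MvPolynomial PPow
open PPow.Words (Idx key wval content repW)
open scoped Pointwise

set_option linter.unusedSectionVars false

namespace Params

variable {K : Type*} [Field K] {p n : ℕ} (P : Params K p n)
variable [hp : Fact p.Prime] [CharP K p] [Infinite K]

/-- Multidegrees of weight at least `m`. -/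
def Wge (m : ℤ) : Set (Fin n → ℤ) := {d | m ≤ P.wd d}

lemma Wge_add (m m' : ℤ) : P.Wge m + P.Wge m' ⊆ P.Wge (m + m') := by
  rintro _ ⟨d, hd, d', hd', rfl⟩
  show m + m' ≤ P.wd (d + d')
  rw [wd_add]
  exact add_le_add hd hd'

lemma Deg_le_Wge (k : Fin n) {r : ℤ} {m : ℤ} (h : m ≤ r * P.W k) : P.Deg k r ⊆ P.Wge m :=
  fun _ hd => le_trans h hd.2.2.2.2

/-- The coordinates of positive weight. -/
abbrev Pos : Type := {i : P.Co // 1 ≤ P.wd (P.D i)}

/-- The positive part. -/
noncomputable abbrev BA : Submodule K P.A := P.Supp (P.Wge 1)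

/-- The positive coordinates of an element. -/
noncomputable def res : P.A →ₗ[K] (P.Pos → K) :=
  (LinearMap.funLeft K K Subtype.val).comp P.cu.toLinearMap

lemma res_apply (x : P.A) (i : P.Pos) : P.res x i = P.cu x i.1 := rfl

open Classical in
/-- Extension by zero to all coordinates. -/
noncomputable def ext0 : (P.Pos → K) →ₗ[K] (P.Co → K) where
  toFun v i := if h : 1 ≤ P.wd (P.D i) then v ⟨i, h⟩ else 0
  map_add' v w := by funext i; by_cases h : 1 ≤ P.wd (P.D i) <;> simp [h]
  map_smul' t v := by funext i; by_cases h : 1 ≤ P.wd (P.D i) <;> simp [h]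

/-- The element with given positive coordinates. -/
noncomputable def inc : (P.Pos → K) →ₗ[K] P.A := P.cu.symm.toLinearMap.comp P.ext0

open Classical in
lemma cu_inc (v : P.Pos → K) (i : P.Co) :
    P.cu (P.inc v) i = if h : 1 ≤ P.wd (P.D i) then v ⟨i, h⟩ else 0 := by
  rw [inc, LinearMap.comp_apply, LinearEquiv.coe_coe, LinearEquiv.apply_symm_apply]
  rfl

lemma inc_mem (v : P.Pos → K) : P.inc v ∈ P.BA := fun i hi => by
  rw [cu_inc]
  exact dif_neg hi

lemma res_inc (v : P.Pos → K) : P.res (P.inc v) = v := funext fun i => by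
  rw [res_apply, cu_inc, dif_pos i.2]

lemma inc_res {x : P.A} (hx : x ∈ P.BA) : P.inc (P.res x) = x := by
  refine P.cu.injective (funext fun i => ?_)
  rw [cu_inc]
  split_ifs with h
  · rfl
  · exact (hx i h).symm

lemma mul_mem_BA {x y : P.A} (hx : x ∈ P.BA) (hy : y ∈ P.BA) : x * y ∈ P.BA :=
  P.supp_mono (fun _ hd => le_trans (by norm_num : (1 : ℤ) ≤ 1 + 1) (P.Wge_add 1 1 hd))
    (P.supp_mul hx hy)

lemma pow_mem_BA {x : P.A} (hx : x ∈ P.BA) : ∀ t : ℕ, x ^ (t + 1) ∈ P.BA := by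
  intro t
  induction t with
  | zero => rwa [pow_one]
  | succ t ih => rw [pow_succ]; exact P.mul_mem_BA ih hx

/-- The indices of the killed coordinates. -/
abbrev Kx : Type := Σ k : Fin n, Σ j : Fin (P.e k + 1), Expn n (p ^ (j : ℕ))

/-- The representative word of an index. -/
noncomputable def kw (κ : P.Kx) : Words.Wd p (P.e κ.1) n :=
  ⟨repW κ.2.2.1, by
    rw [Words.length_repW, κ.2.2.2]
    exact ⟨pow_pos hp.out.pos _, Nat.pow_lt_pow_right hp.out.one_lt κ.2.1.2⟩⟩

lemma kw_length (κ : P.Kx) : (P.kw κ).1.length = p ^ (κ.2.1 : ℕ) := by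
  show (repW κ.2.2.1).length = _
  rw [Words.length_repW, κ.2.2.2]

/-- The coordinate of an index. -/
noncomputable def c0 (κ : P.Kx) : P.Pos :=
  ⟨P.wco κ.1 (P.kw κ), by
    rw [D_wco, wd_single, kw_length]
    exact one_le_mul_of_one_le_of_one_le (by exact_mod_cast Nat.one_le_pow _ _ hp.out.pos)
      (P.W_pos _)⟩

lemma c0_injective : Function.Injective P.c0 := by
  rintro ⟨k, j, α⟩ ⟨k', j', α'⟩ h
  have h' : P.wco k (P.kw ⟨k, j, α⟩) = P.wco k' (P.kw ⟨k', j', α'⟩) := congrArg Subtype.val h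
  simp only [wco, Prod.mk.injEq, true_and, Option.some.injEq, Sigma.mk.injEq] at h'
  obtain ⟨rfl, h2⟩ := h'
  simp only [heq_eq_eq, Prod.mk.injEq, true_and, Sum.inl.injEq] at h2
  have hw : repW α.1 = repW α'.1 := congrArg Subtype.val h2
  have hα : α.1 = α'.1 := by rw [← Words.content_repW α.1, hw, Words.content_repW]
  obtain rfl : j = j' := Fin.ext (Nat.pow_right_injective hp.out.two_le (by
    show p ^ (j : ℕ) = p ^ (j' : ℕ)
    rw [← α.2, ← α'.2, hα]))
  rw [Subtype.ext hα]

/-- The coefficient of an index. -/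
noncomputable def sig (κ : P.Kx) : P.A := P.sg κ.1 (p ^ (κ.2.1 : ℕ)) κ.2.2

lemma sig_supp (κ : P.Kx) : P.sig κ ∈ P.Supp (P.Deg κ.1 ((p : ℤ) ^ (κ.2.1 : ℕ))) := by
  have h := P.sg_supp κ.1 (p ^ (κ.2.1 : ℕ)) κ.2.2
  rw [Nat.cast_pow] at h
  exact h

lemma sig_mem (κ : P.Kx) : P.sig κ ∈ P.BA :=
  P.supp_mono (P.Deg_le_Wge _ (one_le_mul_of_one_le_of_one_le
    (one_le_pow₀ (by exact_mod_cast hp.out.one_le)) (P.W_pos _))) (P.sig_supp κ)

lemma sig_c0 (κ κ' : P.Kx) : P.res (P.sig κ) (P.c0 κ') = if κ' = κ then 1 else 0 := by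
  classical
  obtain ⟨k, j, α⟩ := κ
  obtain ⟨k', j', α'⟩ := κ'
  have hlen := P.kw_length ⟨k', j', α'⟩
  have h := P.sg_coord ((LinearMap.proj (P.wco k' (P.kw ⟨k', j', α'⟩))).comp P.cu.toLinearMap)
    k (p ^ (j : ℕ)) (if k' = k ∧ (j' : ℕ) = j then monomial α'.1 1 else 0) (fun c => by
      show P.cu (P.xi k c ^ p ^ (j : ℕ)) (P.wco k' (P.kw ⟨k', j', α'⟩)) = _
      rw [P.cu_xi_pow k k' c (Nat.le_of_lt_succ j.2) _ (Nat.le_of_lt_succ j'.2) hlen]
      split_ifs
      · exact Words.wval_repW c α'.1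
      · rw [map_zero]) α
  refine h.trans ?_
  by_cases he : k' = k ∧ (j' : ℕ) = j
  · obtain ⟨rfl, hj⟩ := he
    obtain rfl := Fin.ext hj
    rw [if_pos ⟨rfl, rfl⟩, coeff_monomial]
    refine if_congr ⟨fun e => by rw [Subtype.ext e], fun e => ?_⟩ rfl rfl
    simp only [Sigma.mk.injEq, heq_eq_eq, true_and] at e
    rw [e]
  · rw [if_neg he, coeff_zero, if_neg]
    intro e
    obtain ⟨rfl, e2⟩ := Sigma.mk.injEq .. ▸ e
    obtain ⟨rfl, -⟩ := Sigma.mk.injEq .. ▸ (eq_of_heq e2)
    exact he ⟨rfl, rfl⟩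

open Classical in
/-- The correction of a coefficient. -/
noncomputable def corr : (P.Pos → K) →ₗ[K] (P.Pos → K) :=
  ∑ κ, (LinearMap.proj (P.c0 κ)).smulRight (P.res (P.sig κ) - Pi.single (P.c0 κ) 1)

lemma corr_apply [DecidableEq P.Pos] (x : P.Pos → K) :
    P.corr x = ∑ κ, x (P.c0 κ) • (P.res (P.sig κ) - Pi.single (P.c0 κ) 1) := by
  simp only [corr, LinearMap.sum_apply, LinearMap.smulRight_apply, LinearMap.proj_apply]
  congr 1
  funext κ
  congr 2
  funext i
  by_cases h : i = P.c0 κ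
  · subst h; simp
  · simp [h]

lemma corr_c0 (x : P.Pos → K) (κ : P.Kx) : P.corr x (P.c0 κ) = 0 := by
  classical
  rw [corr_apply, Finset.sum_apply]
  refine Finset.sum_eq_zero fun κ' _ => ?_
  rw [Pi.smul_apply, Pi.sub_apply, sig_c0, Pi.single_apply, smul_eq_mul]
  simp [P.c0_injective.eq_iff]

lemma corr_corr (x : P.Pos → K) : P.corr (P.corr x) = 0 := by
  classical
  rw [corr_apply]
  exact Finset.sum_eq_zero fun κ _ => by rw [corr_c0, zero_smul]

/-- The change of coordinates. -/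
noncomputable def chg : (P.Pos → K) ≃ₗ[K] (P.Pos → K) where
  toFun x := x - P.corr x
  map_add' x y := by rw [map_add]; abel
  map_smul' t x := by rw [map_smul, smul_sub]; rfl
  invFun x := x + P.corr x
  left_inv x := by simp [corr_corr]
  right_inv x := by simp [corr_corr]

lemma chg_apply (x : P.Pos → K) : P.chg x = x - P.corr x := rfl

lemma chg_symm_apply (x : P.Pos → K) : P.chg.symm x = x + P.corr x := rfl

lemma chg_sig [DecidableEq P.Pos] (κ : P.Kx) :
    P.chg (P.res (P.sig κ)) = Pi.single (P.c0 κ) 1 := by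
  classical
  rw [chg_apply, corr_apply, Finset.sum_eq_single κ]
  · rw [sig_c0, if_pos rfl, one_smul, sub_sub_cancel]
  · intro κ' _ h
    rw [sig_c0, if_neg h, zero_smul]
  · simp

/-- The weight of a coordinate. -/
noncomputable def wt (i : P.Pos) : ℤ := P.wd (P.D i.1)

/-- Vectors supported in weights at least `m`. -/
def High (m : ℤ) (x : P.Pos → K) : Prop := ∀ i, x i ≠ 0 → m ≤ P.wt i

lemma high_corr {m : ℤ} {x : P.Pos → K} (hx : P.High m x) : P.High m (P.corr x) := by
  classical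
  intro i hi
  rw [corr_apply, Finset.sum_apply] at hi
  obtain ⟨κ, -, hκ⟩ := Finset.exists_ne_zero_of_sum_ne_zero hi
  rw [Pi.smul_apply, smul_eq_mul] at hκ
  obtain ⟨h1, h2⟩ := mul_ne_zero_iff.1 hκ
  have hm := hx _ h1
  rw [wt, c0, D_wco, wd_single, kw_length, Nat.cast_pow] at hm
  by_cases hi' : i = P.c0 κ
  · subst hi'; exact hx _ h1
  rw [Pi.sub_apply, Pi.single_eq_of_ne hi', sub_zero, res_apply] at h2
  by_contra h
  refine h2 (P.sig_supp κ i.1 fun hd => h ?_)
  exact le_trans hm hd.2.2.2.2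

lemma high_chg {m : ℤ} {x : P.Pos → K} (hx : P.High m x) : P.High m (P.chg x) := by
  intro i hi
  by_contra h
  refine hi ?_
  rw [chg_apply, Pi.sub_apply, show x i = 0 from by_contra fun e => h (hx i e),
    show P.corr x i = 0 from by_contra fun e => h (P.high_corr hx i e), sub_zero]

lemma high_chg_symm {m : ℤ} {x : P.Pos → K} (hx : P.High m x) : P.High m (P.chg.symm x) := by
  intro i hi
  by_contra h
  refine hi ?_
  rw [chg_symm_apply, Pi.add_apply, show x i = 0 from by_contra fun e => h (hx i e),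
    show P.corr x i = 0 from by_contra fun e => h (P.high_corr hx i e), add_zero]

lemma inc_supp {m : ℤ} {x : P.Pos → K} (hx : P.High m x) : P.inc x ∈ P.Supp (P.Wge m) := by
  intro i hi
  rw [cu_inc]
  split_ifs with h
  · exact by_contra fun e => hi (hx ⟨i, h⟩ e)
  · rfl

lemma high_mul {m m' : ℤ} {x y : P.Pos → K} (hx : P.High m x) (hy : P.High m' y) :
    P.High (m + m') (P.res (P.inc x * P.inc y)) := by
  intro i hi
  by_contra h
  exact hi (P.supp_mul (P.inc_supp hx) (P.inc_supp hy) i.1 fun hd => h (P.Wge_add m m' hd))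

/-- The product in the new coordinates. -/
noncomputable def prd : (P.Pos → K) →ₗ[K] (P.Pos → K) →ₗ[K] (P.Pos → K) :=
  LinearMap.mk₂ K (fun x y => P.chg (P.res (P.inc (P.chg.symm x) * P.inc (P.chg.symm y))))
    (fun x x' y => by simp [add_mul]) (fun t x y => by simp)
    (fun x y y' => by simp [mul_add]) (fun t x y => by simp)

open Classical in
/-- The algebra of the rows. -/
noncomputable def core : PPow.Core K P.Pos where
  deg i := (P.wt i).toNat
  mu := P.prd
  par _ := False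
  killed i := i ∈ Set.range P.c0
  deg_pos i := by
    have : 1 ≤ P.wt i := i.2
    omega
  assoc x y z := by
    simp only [prd, LinearMap.mk₂_apply, LinearEquiv.symm_apply_apply]
    rw [P.inc_res (P.mul_mem_BA (P.inc_mem _) (P.inc_mem _)),
      P.inc_res (P.mul_mem_BA (P.inc_mem _) (P.inc_mem _)), mul_assoc]
  filtered a b i h := by
    have hs : ∀ a : P.Pos, P.High (P.wt a) (Pi.single a (1 : K)) := fun a i hi => by
      by_cases e : i = a
      · subst e; rfl
      · simp [e] at hi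
    have h' := P.high_chg (P.high_mul (P.high_chg_symm (hs a)) (P.high_chg_symm (hs b))) i h
    have : 1 ≤ P.wt a := a.2
    have : 1 ≤ P.wt b := b.2
    omega
  par_left _ h := h.elim
  par_right _ h := h.elim
  killed_not_par _ _ := id

open Classical in
lemma core_mu {x y : P.A} (hx : x ∈ P.BA) (hy : y ∈ P.BA) :
    P.core.mu (P.chg (P.res x)) (P.chg (P.res y)) = P.chg (P.res (x * y)) := by
  show P.prd _ _ = _
  simp only [prd, LinearMap.mk₂_apply, LinearEquiv.symm_apply_apply, P.inc_res hx, P.inc_res hy]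

open Classical in
lemma core_pw {x : P.A} (hx : x ∈ P.BA) :
    ∀ t, P.core.pw t (P.chg (P.res x)) = P.chg (P.res (x ^ (t + 1))) := by
  intro t
  induction t with
  | zero => rw [pow_one]; rfl
  | succ t ih =>
    rw [Core.pw, pow_succ', Module.End.mul_apply, show ((P.core.mu (P.chg (P.res x))) ^ t)
      (P.chg (P.res x)) = P.core.pw t (P.chg (P.res x)) from rfl, ih,
      P.core_mu hx (P.pow_mem_BA hx t), ← pow_succ']

open Classical in
lemma core_piter {x : P.A} (hx : x ∈ P.BA) :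
    ∀ j, P.core.piter p (P.chg (P.res x)) j = P.chg (P.res (x ^ p ^ j)) := by
  have h1 := hp.out.one_le
  intro j
  induction j with
  | zero => rw [pow_zero, pow_one]; rfl
  | succ j ih =>
    obtain ⟨t, ht⟩ : ∃ t, p ^ j = t + 1 :=
      ⟨p ^ j - 1, by have := Nat.one_le_pow j p hp.out.pos; omega⟩
    rw [Core.piter, ih, P.core_pw (ht ▸ P.pow_mem_BA hx t), ← pow_mul,
      show p ^ j * (p - 1 + 1) = p ^ (j + 1) by rw [Nat.sub_add_cancel h1, pow_succ]]

lemma xi_mem_BA (k : Fin n) (c : Fin n → K) : P.xi k c ∈ P.BA :=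
  P.supp_mono (P.Deg_le_Wge k (by rw [one_mul]; exact P.W_pos k)) (P.xi_supp k c)

lemma chg_xi_pow [DecidableEq P.Pos] (k : Fin n) (c : Fin n → K) (j : Fin (P.e k + 1)) :
    P.chg (P.res (P.xi k c ^ p ^ (j : ℕ))) =
      ∑ α : Expn n (p ^ (j : ℕ)),
        eval c (monomial α.1 1) • Pi.single (P.c0 ⟨k, j, α⟩) (1 : K) := by
  rw [xi_pow_sg, map_sum, map_sum]
  refine Finset.sum_congr rfl fun α _ => ?_
  rw [map_smul, map_smul, ← P.chg_sig ⟨k, j, α⟩]
  rfl

end Params

end Vale.Agent.P200.PMix
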