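import Vale.Agent.P200.PMix.Local
import Vale.Agent.P200.Prime.Localise

/-!
An algebra free over polynomial parameters on ordered monomials, with no grading, has no zero
divisors: it embeds in its localisation at the origin, where the parameters are regular local
parameters.
-/

namespace Vale.Agent.P200.PMix

open MvPolynomial
open scoped TensorProduct
open _root_.Vale.Agent.P200.Prime (Par)

universe u

variable (K : Type u) [Field K] (q : ℕ)

/-- The origin. -/
noncomputable abbrev origin : Ideal (Par K q) :=
  RingHom.ker (constantCoeff : Par K q →+* K)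

instance origin_isPrime : (origin K q).IsPrime := RingHom.ker_isPrime _

/-- The local ring of the parameters at the origin. -/
abbrev Org : Type u := Localization.AtPrime (origin K q)

/-- The parameters in the local ring. -/
noncomputable def par (i : Fin q) : Org K q := algebraMap (Par K q) (Org K q) (X i)

variable {K q}

lemma map_span_X (s : Set (Fin q)) :
    Ideal.span (par K q '' s) = Ideal.map (algebraMap (Par K q) (Org K q)) (Ideal.span (X '' s)) := by
  rw [Ideal.map_span, Set.image_image]
  rfl

lemma origin_eq : origin K q = Ideal.span (Set.range (X : Fin q → Par K q)) := by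
  ext f
  rw [← Set.image_univ, mem_ideal_span_X_image, RingHom.mem_ker]
  refine ⟨fun hf m hm => ?_, fun hf => by_contra fun h0 => ?_⟩
  · obtain ⟨i, hi⟩ := Finsupp.ne_iff.1 (show m ≠ 0 from fun h =>
      (MvPolynomial.mem_support_iff.1 hm) (h ▸ hf))
    exact ⟨i, trivial, by simpa using hi⟩
  · obtain ⟨i, -, hi⟩ := hf 0 (MvPolynomial.mem_support_iff.2 h0)
    exact hi rfl

lemma span_par : Ideal.span (Set.range (par K q)) = IsLocalRing.maximalIdeal (Org K q) := by
  rw [← Set.image_univ, map_span_X, Set.image_univ, ← origin_eq,
    Localization.AtPrime.map_eq_maximalIdeal]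

/-- The parameters at the origin are regular local parameters with residue field `K`. -/
theorem params : LocParams K (par K q) where
  max := span_par
  residue x := by
    obtain ⟨f, s, rfl⟩ := IsLocalization.exists_mk'_eq (origin K q).primeCompl x
    have hs : constantCoeff (s : Par K q) ≠ 0 := fun h => s.2 (RingHom.mem_ker.2 h)
    refine ⟨constantCoeff f / constantCoeff (s : Par K q), ?_⟩
    set c : K := constantCoeff f / constantCoeff (s : Par K q)
    have h : IsLocalization.mk' (Org K q) f s - algebraMap K (Org K q) c =
        IsLocalization.mk' (Org K q) (f - C c * (s : Par K q)) s := by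
      rw [IsLocalization.eq_mk'_iff_mul_eq, sub_mul, IsLocalization.mk'_spec, map_sub, map_mul,
        IsScalarTower.algebraMap_apply K (Par K q) (Org K q), MvPolynomial.algebraMap_eq]
    rw [h, ← Set.image_univ, map_span_X, Set.image_univ, ← origin_eq, IsLocalization.mk'_mem_iff]
    refine Ideal.mem_map_of_mem _ (RingHom.mem_ker.2 ?_)
    rw [map_sub, map_mul, constantCoeff_C, div_mul_cancel₀ _ hs, sub_self]
  minimal i h := by
    rw [map_span_X, par,
      IsLocalization.algebraMap_mem_map_algebraMap_iff (origin K q).primeCompl] at h
    obtain ⟨g, hg, hgi⟩ := h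
    have hg0 : constantCoeff g ≠ 0 := fun h => hg (RingHom.mem_ker.2 h)
    rw [mem_ideal_span_X_image] at hgi
    obtain ⟨l, hl, hl'⟩ := hgi (Finsupp.single i 1) (by
      rw [MvPolynomial.mem_support_iff]
      rw [show (Finsupp.single i 1 : Fin q →₀ ℕ) = 0 + Finsupp.single i 1 from (zero_add _).symm,
        coeff_mul_X]
      exact hg0)
    exact hl' (Finsupp.single_eq_of_ne hl)
  seq i x h := by
    obtain ⟨f, s, rfl⟩ := IsLocalization.exists_mk'_eq (origin K q).primeCompl x
    rw [map_span_X, par, IsLocalization.mul_mk'_eq_mk'_of_mul, IsLocalization.mk'_mem_iff,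
      IsLocalization.algebraMap_mem_map_algebraMap_iff (origin K q).primeCompl] at h
    obtain ⟨g, hg, hgi⟩ := h
    rw [map_span_X, IsLocalization.mk'_mem_iff,
      IsLocalization.algebraMap_mem_map_algebraMap_iff (origin K q).primeCompl]
    refine ⟨g, hg, ?_⟩
    rw [mul_left_comm, mem_ideal_span_X_image] at hgi
    rw [mem_ideal_span_X_image]
    intro m hm
    obtain ⟨l, hl, hl'⟩ := hgi (Finsupp.single i 1 + m) (by
      rw [MvPolynomial.mem_support_iff] at hm ⊢
      rwa [MvPolynomial.coeff_X_mul])
    refine ⟨l, hl, ?_⟩
    have hne : l ≠ i := by rintro rfl; exact lt_irrefl (l : ℕ) hl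
    simpa [Finsupp.single_eq_of_ne hne] using hl'

variable {R : Type u} [Ring R] [Algebra K R] [Algebra (Par K q) R] [IsScalarTower K (Par K q) R]

/-- The map to the localisation at the origin. -/
noncomputable def toOrg : R →ₐ[Par K q] Org K q ⊗[Par K q] R := Algebra.TensorProduct.includeRight

omit [Algebra K R] [IsScalarTower K (Par K q) R] in
lemma toOrg_apply (x : R) : toOrg (K := K) x = (1 : Org K q) ⊗ₜ[Par K q] x := rfl

lemma toOrg_smul (c : K) (x : R) : toOrg (K := K) (q := q) (c • x) = c • toOrg x := by
  rw [← IsScalarTower.algebraMap_smul (Par K q) c x, map_smul, IsScalarTower.algebraMap_smul]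

omit [Algebra K R] [IsScalarTower K (Par K q) R] in
lemma algebraMap_toOrg (f : Par K q) :
    algebraMap (Org K q) (Org K q ⊗[Par K q] R) (algebraMap (Par K q) (Org K q) f) =
      toOrg (algebraMap (Par K q) R f) := by
  rw [AlgHom.commutes, ← IsScalarTower.algebraMap_apply]

variable {p r : ℕ}

omit [IsScalarTower K (Par K q) R] in
lemma mon_toOrg (S : Model K (X : Fin q → Par K q) p r R) :
    ⇑(Algebra.TensorProduct.basis (Org K q) S.pBasis) = fun α : Fin r → Fin p =>
      ((List.finRange r).map fun i => toOrg (S.gen i) ^ (α i : ℕ)).prod := by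
  funext α
  rw [Algebra.TensorProduct.basis_apply, S.pBasis_apply, Model.mon, ← toOrg_apply,
    map_list_prod, List.map_map]
  simp [Function.comp_def]

/-- The model at the origin. -/
noncomputable def Model.localise (S : Model K (X : Fin q → Par K q) p r R) :
    Model K (par K q) p r (Org K q ⊗[Par K q] R) where
  gen i := toOrg (S.gen i)
  pc := S.pc
  pa := S.pa
  spans := by
    rw [← mon_toOrg S]
    exact (Algebra.TensorProduct.basis (Org K q) S.pBasis).span_eq
  indep := by
    rw [← mon_toOrg S]
    exact (Algebra.TensorProduct.basis (Org K q) S.pBasis).linearIndependent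
  bracket i j := by
    obtain ⟨c, hc, a, ha⟩ := S.bracket i j
    refine ⟨c, hc, fun l => toOrg (a l), ?_⟩
    have h := congrArg (toOrg (K := K) (q := q)) ha
    simp only [map_sub, map_add, map_sum, map_mul, toOrg_smul] at h
    simp only [par, algebraMap_toOrg]
    exact h
  power c := by
    have h := congrArg (toOrg (K := K) (q := q)) (S.power c)
    simp only [map_pow, map_add, map_sum, toOrg_smul] at h
    rw [h]
    congr 1
    simp only [map_sum]
    refine Finset.sum_congr rfl fun l _ => ?_
    rw [par, IsScalarTower.algebraMap_apply K (Par K q) (Org K q), ← map_mul, algebraMap_toOrg]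
  pc_zero := S.pc_zero
  pc_shift := S.pc_shift
  nondeg := S.nondeg

/-- An algebra free over polynomial parameters on ordered monomials, whose `p`-th powers of
combinations of generators are as in a model, has no zero divisors. -/
theorem Model.noZeroDivisors [IsAlgClosed K] [Fact p.Prime] [CharP K p]
    (S : Model K (X : Fin q → Par K q) p r R) : NoZeroDivisors R := by
  have : Module.Free (Par K q) R := Module.Free.of_basis S.pBasis
  have := S.localise.noZeroDivisors_local params
  exact Function.Injective.noZeroDivisors (toOrg (K := K) (q := q) (R := R))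
    (Algebra.TensorProduct.includeRight_injective
      (IsLocalization.injective (Org K q) (origin K q).primeCompl_le_nonZeroDivisors))
    (map_zero _) (map_mul _)

end Vale.Agent.P200.PMix
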