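import Vale.Agent.P200.PMix.LocalSpec
import Vale.Agent.P200.PMix.Origin

/-!
An algebra satisfying the hypotheses of the domain theorem without a grading has no zero divisors.
-/

namespace Vale.Agent.P200.PMix

open _root_.Vale.Agent.P200.Prime (Par)

universe u

variable {K : Type u} [Field K] {p r q : ℕ} {R : Type u} [Ring R] [Algebra K R]
  [Algebra (Par K q) R]

/-- The underlying model over the polynomial parameters. -/
noncomputable def LModel.toModel (A : LModel K p r q R) :
    Model K (MvPolynomial.X : Fin q → Par K q) p r R :=
  { A with power := fun c => by rw [A.power c, MvPolynomial.algebraMap_eq] }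

/-- The domain theorem without a grading. -/
theorem LModel.noZeroDivisors [IsAlgClosed K] [Fact p.Prime] [CharP K p]
    [IsScalarTower K (Par K q) R] (A : LModel K p r q R) : NoZeroDivisors R :=
  A.toModel.noZeroDivisors

end Vale.Agent.P200.PMix
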