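import Vale.Agent.P200.PMix.Multi

/-!
The matrix factor of a pair of rows, the tensor factor of a row, and the power of a companion
matrix with a commuting corner.
-/

namespace Vale.Agent.P200.PMix

open MvPolynomial PPow
open PPow.Words (Idx key)
open scoped Pointwise

set_option linter.unusedSectionVars false

section companion

variable (K : Type*) [Field K] (q : ℕ)

/-- A power of the shift. -/
def Sm (i : ℕ) : Matrix (Fin q) (Fin q) K :=
  Matrix.of fun a b => if (a : ℕ) = (b : ℕ) + i then 1 else 0

/-- The terms of a power of the companion matrix with one wrap. -/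
def Wm (i : ℕ) : Matrix (Fin q) (Fin q) K :=
  Matrix.of fun a b => if (a : ℕ) < i ∧ (b : ℕ) + i = (a : ℕ) + q then 1 else 0

lemma Sm_zero : Sm K q 0 = 1 := by
  ext a b
  simp [Sm, Matrix.one_apply, Fin.ext_iff]

lemma Sm_top : Sm K q q = 0 := by
  ext a b
  have := a.2
  simp only [Sm, Matrix.of_apply, Matrix.zero_apply]
  exact if_neg (by omega)

lemma Wm_top : Wm K q q = 1 := by
  ext a b
  simp [Wm, Matrix.one_apply, Fin.ext_iff, eq_comm]

lemma Sm_mul (M : Matrix (Fin q) (Fin q) K) (a b : Fin q) :
    (Sm K q 1 * M) a b = if h : 0 < (a : ℕ) then M ⟨(a : ℕ) - 1, by omega⟩ b else 0 := by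
  rw [Matrix.mul_apply]
  split_ifs with h
  · rw [Finset.sum_eq_single ⟨(a : ℕ) - 1, by omega⟩]
    · simp only [Sm, Matrix.of_apply]
      rw [if_pos (by omega), one_mul]
    · intro c _ hc
      simp only [Sm, Matrix.of_apply]
      rw [if_neg (fun h' => hc (Fin.ext (by simp only; omega))), zero_mul]
    · simp
  · refine Finset.sum_eq_zero fun c _ => ?_
    simp only [Sm, Matrix.of_apply]
    rw [if_neg (by omega), zero_mul]

lemma Wm_mul (M : Matrix (Fin q) (Fin q) K) (a b : Fin q) :
    (Wm K q 1 * M) a b =
      if (a : ℕ) = 0 then M ⟨q - 1, by have := a.2; omega⟩ b else 0 := by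
  rw [Matrix.mul_apply]
  have := a.2
  split_ifs with h
  · rw [Finset.sum_eq_single ⟨q - 1, by omega⟩]
    · simp only [Wm, Matrix.of_apply]
      rw [if_pos (by omega), one_mul]
    · intro c _ hc
      simp only [Wm, Matrix.of_apply]
      rw [if_neg (fun h' => hc (Fin.ext (by simp only; omega))), zero_mul]
    · simp
  · refine Finset.sum_eq_zero fun c _ => ?_
    simp only [Wm, Matrix.of_apply]
    rw [if_neg (by omega), zero_mul]

lemma Sm_succ (i : ℕ) : Sm K q 1 * Sm K q i = Sm K q (i + 1) := by
  ext a b
  rw [Sm_mul]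
  simp only [Sm, Matrix.of_apply]
  split_ifs <;> first | rfl | omega

lemma Wm_succ (i : ℕ) (hi : i < q) :
    Sm K q 1 * Wm K q i + Wm K q 1 * Sm K q i = Wm K q (i + 1) := by
  ext a b
  have := a.2
  have := b.2
  rw [Matrix.add_apply, Sm_mul, Wm_mul]
  simp only [Sm, Wm, Matrix.of_apply]
  split_ifs <;> first | omega | simp

lemma Wm_wrap (i : ℕ) (hi : i < q) : Wm K q 1 * Wm K q i = 0 := by
  ext a b
  rw [Wm_mul]
  simp only [Wm, Matrix.of_apply, Matrix.zero_apply]
  split_ifs <;> first | rfl | omega

variable {K q}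

/-- The `q`-th power of the companion matrix with a commuting corner. -/
theorem companion_pow {A : Type*} [Ring A] [Algebra K A] (φ : Matrix (Fin q) (Fin q) K →ₐ[K] A)
    (y : A) (hy : ∀ M, Commute y (φ M)) (l : K) (hq : 0 < q) :
    (l • φ (Sm K q 1) + φ (Wm K q 1) * y) ^ q = l ^ (q - 1) • y := by
  set z := l • φ (Sm K q 1) + φ (Wm K q 1) * y
  have key : ∀ i, i + 1 ≤ q →
      z ^ (i + 1) = l ^ (i + 1) • φ (Sm K q (i + 1)) + l ^ i • (φ (Wm K q (i + 1)) * y) := by
    intro i
    induction i with
    | zero => intro _; simp [z]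
    | succ i ih =>
      intro hi
      rw [pow_succ' z, ih (by omega)]
      have e1 : φ (Wm K q 1) * y * (φ (Wm K q (i + 1)) * y) = 0 := by
        rw [mul_assoc, ← mul_assoc y, (hy _).eq, ← mul_assoc, ← mul_assoc, ← map_mul,
          Wm_wrap K q _ (by omega), map_zero, zero_mul, zero_mul]
      have e2 : φ (Wm K q 1) * y * φ (Sm K q (i + 1)) = φ (Wm K q 1 * Sm K q (i + 1)) * y := by
        rw [mul_assoc, (hy _).eq, ← mul_assoc, ← map_mul]
      simp only [z, add_mul, mul_add, smul_mul_assoc, mul_smul_comm, smul_smul, e1, e2,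
        add_zero, ← mul_assoc (φ (Sm K q 1)), ← map_mul, Sm_succ]
      rw [← Wm_succ K q (i + 1) (by omega), map_add, add_mul]
      simp only [smul_add, smul_smul, ← pow_succ]
      abel
  have h := key (q - 1) (by omega)
  rw [Nat.sub_add_cancel hq, Sm_top, Wm_top, map_zero, smul_zero, zero_add, map_one, one_mul] at h
  exact h

end companion

namespace Params

variable {K : Type*} [Field K] {p n : ℕ} (P : Params K p n)

/-- A state changed at a pair of rows. -/
def upd (k m : Fin n) (a : P.St) (v : Fin (P.q k)) : P.St :=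
  Function.update a k (Function.update (a k) m v)

variable {P}

lemma upd_apply (k m : Fin n) (a : P.St) (v : Fin (P.q k)) : P.upd k m a v k m = v := by
  simp [upd]

lemma upd_upd (k m : Fin n) (a : P.St) (v w : Fin (P.q k)) :
    P.upd k m (P.upd k m a v) w = P.upd k m a w := by
  simp [upd]

lemma upd_self (k m : Fin n) (a : P.St) : P.upd k m a (a k m) = a := by
  simp [upd]

lemma upd_of_ne {k m k' m' : Fin n} (h : (k, m) ≠ (k', m')) (a : P.St) (v : Fin (P.q k')) :
    P.upd k' m' a v k m = a k m := by
  rcases eq_or_ne k k' with rfl | hk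
  · have : m ≠ m' := fun e => h (by rw [e])
    simp [upd, this]
  · simp [upd, hk]

lemma upd_comm {k m k' m' : Fin n} (h : (k, m) ≠ (k', m')) (a : P.St) (v : Fin (P.q k))
    (w : Fin (P.q k')) :
    P.upd k' m' (P.upd k m a v) w = P.upd k m (P.upd k' m' a w) v := by
  rcases eq_or_ne k k' with rfl | hk
  · have : m ≠ m' := fun e => h (by rw [e])
    simp [upd, Function.update_comm this]
  · simp [upd, Function.update_comm hk, hk, Ne.symm hk]

variable (P)

/-- The entries of the factor of a pair. -/
noncomputable def embFun (k m : Fin n) (M : Matrix (Fin (P.q k)) (Fin (P.q k)) K) : P.A :=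
  Matrix.of fun a b => if b = P.upd k m a (b k m) then algebraMap K P.U (M (a k m) (b k m)) else 0

lemma embFun_mul_apply (k m k' m' : Fin n) (M : Matrix (Fin (P.q k)) (Fin (P.q k)) K)
    (M' : Matrix (Fin (P.q k')) (Fin (P.q k')) K) (a c : P.St) :
    (P.embFun k m M * P.embFun k' m' M') a c = ∑ v : Fin (P.q k),
      algebraMap K P.U (M (a k m) v) * P.embFun k' m' M' (P.upd k m a v) c := by
  classical
  rw [Matrix.mul_apply]
  symm
  refine Finset.sum_bij_ne_zero (fun v _ _ => P.upd k m a v) (fun _ _ _ => Finset.mem_univ _)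
    (fun v _ _ w _ _ h => by simpa [upd_apply] using congrArg (fun b : P.St => b k m) h)
    (fun b _ hb => ?_) (fun v _ _ => ?_)
  · by_cases h : b = P.upd k m a (b k m)
    · refine ⟨b k m, Finset.mem_univ _, ?_, h.symm⟩
      rw [← h]
      simpa [embFun, if_pos h] using hb
    · simp [embFun, h] at hb
  · simp [embFun, upd_apply]

/-- The factor of a pair of rows. -/
noncomputable def emb (k m : Fin n) : Matrix (Fin (P.q k)) (Fin (P.q k)) K →ₐ[K] P.A :=
  AlgHom.ofLinearMap
    { toFun := P.embFun k m
      map_add' := fun M M' => by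
        refine Matrix.ext fun a b => ?_
        show P.embFun k m (M + M') a b = P.embFun k m M a b + P.embFun k m M' a b
        simp only [embFun, Matrix.of_apply, Matrix.add_apply]
        split_ifs
        · exact map_add _ _ _
        · exact (add_zero _).symm
      map_smul' := fun t M => by
        refine Matrix.ext fun a b => ?_
        by_cases h : b = P.upd k m a (b k m)
        · simp only [embFun, Matrix.of_apply, Matrix.smul_apply, if_pos h, RingHom.id_apply,
            smul_eq_mul, map_mul, Algebra.smul_def]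
        · simp [embFun, h] }
    (by
      refine Matrix.ext fun a b => ?_
      simp only [LinearMap.coe_mk, AddHom.coe_mk, embFun, Matrix.of_apply, Matrix.one_apply]
      by_cases h : a = b
      · subst h
        simp [upd_self]
      · rw [if_neg h]
        by_cases h' : b = P.upd k m a (b k m)
        · rw [if_pos h', if_neg, map_zero]
          intro e
          exact h (by rw [h', ← e, upd_self])
        · rw [if_neg h'])
    (fun M M' => by
      refine Matrix.ext fun a c => ?_
      simp only [LinearMap.coe_mk, AddHom.coe_mk]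
      rw [embFun_mul_apply]
      simp only [embFun, Matrix.of_apply, upd_upd, upd_apply, mul_ite, mul_zero]
      by_cases h : c = P.upd k m a (c k m)
      · simp only [if_pos h, ← map_mul, ← map_sum, Matrix.mul_apply]
      · simp only [if_neg h, Finset.sum_const_zero])

lemma emb_apply (k m : Fin n) (M : Matrix (Fin (P.q k)) (Fin (P.q k)) K) (a b : P.St) :
    P.emb k m M a b =
      if b = P.upd k m a (b k m) then algebraMap K P.U (M (a k m) (b k m)) else 0 := rfl

lemma emb_mul_emb {k m k' m' : Fin n} (h : (k, m) ≠ (k', m'))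
    (M : Matrix (Fin (P.q k)) (Fin (P.q k)) K) (M' : Matrix (Fin (P.q k')) (Fin (P.q k')) K)
    (a c : P.St) : (P.emb k m M * P.emb k' m' M') a c =
      if c = P.upd k' m' (P.upd k m a (c k m)) (c k' m') then
        algebraMap K P.U (M (a k m) (c k m) * M' (a k' m') (c k' m')) else 0 := by
  show (P.embFun k m M * P.embFun k' m' M') a c = _
  rw [embFun_mul_apply, Finset.sum_eq_single (c k m)]
  · simp only [embFun, Matrix.of_apply, upd_of_ne h.symm, mul_ite, mul_zero, map_mul]
  · intro v _ hv
    simp only [embFun, Matrix.of_apply]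
    rw [if_neg, mul_zero]
    intro e
    refine hv ?_
    have := congrArg (fun b : P.St => b k m) e
    simpa [upd_of_ne h, upd_apply] using this.symm
  · simp

lemma emb_comm {k m k' m' : Fin n} (h : (k, m) ≠ (k', m'))
    (M : Matrix (Fin (P.q k)) (Fin (P.q k)) K) (M' : Matrix (Fin (P.q k')) (Fin (P.q k')) K) :
    Commute (P.emb k m M) (P.emb k' m' M') := by
  show _ * _ = _ * _
  ext a c : 1
  rw [emb_mul_emb P h, emb_mul_emb P h.symm, upd_comm h, mul_comm (M _ _)]

/-- The scalar matrix of an element of the tensor algebra of a row. -/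
noncomputable def tv (k : Fin n) : P.TW k →ₗ[K] P.A where
  toFun τ := Matrix.diagonal fun _ => Unitization.inr (Pi.single k τ)
  map_add' τ τ' := by rw [Pi.single_add, Unitization.inr_add, ← Matrix.diagonal_add]
  map_smul' t τ := by rw [Pi.single_smul, Unitization.inr_smul, ← Matrix.diagonal_smul]; rfl

lemma tv_mul (k : Fin n) (τ τ' : P.TW k) : P.tv k τ * P.tv k τ' = P.tv k (τ * τ') := by
  show Matrix.diagonal _ * Matrix.diagonal _ = Matrix.diagonal _
  rw [Matrix.diagonal_mul_diagonal, Pi.single_mul, Unitization.inr_mul]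

/-- The elements without a part in the tensor algebra of a row. -/
noncomputable def without (k : Fin n) : Subalgebra K P.A where
  carrier := {x | ∀ a b, (x a b).snd k = 0}
  add_mem' := fun {x y} hx hy a b => by
    show (x a b).snd k + (y a b).snd k = 0
    rw [hx, hy, add_zero]
  mul_mem' := fun {x y} hx hy a c => by
    classical
    rw [Matrix.mul_apply, ← Unitization.sndHom_apply K, map_sum, Finset.sum_apply]
    refine Finset.sum_eq_zero fun b _ => ?_
    show (x a b * y b c).snd k = 0
    rw [Unitization.snd_mul, Pi.add_apply, Pi.add_apply, Pi.smul_apply, Pi.smul_apply,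
      Pi.mul_apply, hx, hy, smul_zero, smul_zero, mul_zero, add_zero, add_zero]
  algebraMap_mem' t a b := by
    classical
    rw [Matrix.algebraMap_matrix_apply]
    split_ifs <;> rfl

lemma emb_mem_without (k m b : Fin n) (M : Matrix (Fin (P.q k)) (Fin (P.q k)) K) :
    P.emb k m M ∈ P.without b := fun a c => by
  rw [emb_apply]
  split_ifs <;> rfl

lemma tv_mem_without {k b : Fin n} (h : k ≠ b) (τ : P.TW k) : P.tv k τ ∈ P.without b := by
  intro a c
  show (Matrix.diagonal (fun _ => (Unitization.inr (Pi.single k τ) : P.U)) a c).snd b = 0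
  rcases eq_or_ne a c with rfl | hac
  · rw [Matrix.diagonal_apply_eq, Unitization.snd_inr, Pi.single_eq_of_ne (Ne.symm h)]
  · rw [Matrix.diagonal_apply_ne _ hac]; rfl

lemma tv_commute {k : Fin n} (τ : P.TW k) {x : P.A} (hx : x ∈ P.without k) :
    Commute (P.tv k τ) x := by
  show Matrix.diagonal _ * x = x * Matrix.diagonal _
  ext a c : 1
  rw [Matrix.diagonal_mul, Matrix.mul_diagonal]
  have h1 : Pi.single k τ * (x a c).snd = 0 := funext fun b => by
    rw [Pi.mul_apply]
    rcases eq_or_ne b k with rfl | h
    · rw [hx a c, mul_zero]; rfl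
    · rw [Pi.single_eq_of_ne h, zero_mul]; rfl
  have h2 : (x a c).snd * Pi.single k τ = 0 := funext fun b => by
    rw [Pi.mul_apply]
    rcases eq_or_ne b k with rfl | h
    · rw [hx a c, zero_mul]; rfl
    · rw [Pi.single_eq_of_ne h, mul_zero]; rfl
  refine Unitization.ext ?_ ?_
  · rw [Unitization.fst_mul, Unitization.fst_mul, Unitization.fst_inr, mul_zero, zero_mul]
  · rw [Unitization.snd_mul, Unitization.snd_mul, Unitization.fst_inr, Unitization.snd_inr, h1, h2,
      add_comm ((0 : K) • _)]

lemma tv_commute_emb (k : Fin n) (τ : P.TW k) (k' m' : Fin n)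
    (M : Matrix (Fin (P.q k')) (Fin (P.q k')) K) : Commute (P.tv k τ) (P.emb k' m' M) :=
  P.tv_commute τ (P.emb_mem_without k' m' k M)

lemma emb_supp {k m : Fin n} {M : Matrix (Fin (P.q k)) (Fin (P.q k)) K} {r : ℤ}
    (h : ∀ a b, M a b ≠ 0 → (a : ℤ) - b = r) : P.emb k m M ∈ P.Supp {Pi.single k r} := by
  classical
  rintro ⟨a, b, o⟩ hi
  rcases o with _ | ⟨k', j⟩
  · rw [cu_none, emb_apply]
    split_ifs with hb
    · by_contra hne
      have hM : M (a k m) (b k m) ≠ 0 := fun e => hne (by rw [e, map_zero, Unitization.fst_zero])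
      refine hi (funext fun l => ?_)
      simp only [D, jdeg, add_zero, Pi.sub_apply, sdeg, ← Finset.sum_sub_distrib]
      rcases eq_or_ne l k with rfl | hl
      · rw [Pi.single_eq_same, Finset.sum_eq_single m, h _ _ hM]
        · intro m' _ hm'
          rw [hb, upd_of_ne (by simp [hm'])]
          simp
        · simp
      · rw [Pi.single_eq_of_ne hl]
        refine Finset.sum_eq_zero fun m' _ => ?_
        rw [hb, upd_of_ne (by simp [hl])]
        simp
    · rw [Unitization.fst_zero]
  · rw [cu_some, emb_mem_without P k m k' M a b]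
    rfl

lemma tv_supp {k : Fin n} {τ : P.TW k} {r : ℕ}
    (h : ∀ i : P.TI k, τ i ≠ 0 → (key i).2 = r) : P.tv k τ ∈ P.Supp {Pi.single k (r : ℤ)} := by
  classical
  rintro ⟨a, b, o⟩ hi
  by_contra hne
  refine hi ?_
  rcases eq_or_ne a b with rfl | hab
  swap
  · refine absurd ?_ hne
    rcases o with _ | ⟨k', j⟩
    · rw [cu_none]
      show (Matrix.diagonal (fun _ => (Unitization.inr (Pi.single k τ) : P.U)) a b).fst = 0
      rw [Matrix.diagonal_apply_ne _ hab, Unitization.fst_zero]
    · rw [cu_some]
      show ((Matrix.diagonal (fun _ => (Unitization.inr (Pi.single k τ) : P.U)) a b).snd k') j = 0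
      rw [Matrix.diagonal_apply_ne _ hab]
      rfl
  rcases o with _ | ⟨k', j⟩
  · refine absurd ?_ hne
    rw [cu_none]
    show (Matrix.diagonal (fun _ => (Unitization.inr (Pi.single k τ) : P.U)) a a).fst = 0
    rw [Matrix.diagonal_apply_eq, Unitization.fst_inr]
  · rcases eq_or_ne k' k with rfl | hk
    · have hj : τ j ≠ 0 := by
        intro e
        refine hne ?_
        rw [cu_some]
        show ((Matrix.diagonal (fun _ => (Unitization.inr (Pi.single k' τ) : P.U)) a a).snd k') j = 0
        rw [Matrix.diagonal_apply_eq, Unitization.snd_inr, Pi.single_eq_same, e]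
      simp [D, jdeg, h j hj]
    · refine absurd ?_ hne
      rw [cu_some]
      show ((Matrix.diagonal (fun _ => (Unitization.inr (Pi.single k τ) : P.U)) a a).snd k') j = 0
      rw [Matrix.diagonal_apply_eq, Unitization.snd_inr, Pi.single_eq_of_ne hk]
      rfl

end Params

end Vale.Agent.P200.PMix
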