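import Vale.Agent.P200.PMix.Split
import Vale.Agent.P200.Cyc.Split
import Vale.Agent.P200.PPow.Factorises

/-!
Lex-plus-powers spaces for regular sequences of forms whose degrees are powers of the
characteristic, from monomial models of such sequences over algebraically closed fields.
-/

namespace Vale.Agent.P200.PMix

open MvPolynomial Module
open Vale.Agent.P200.Split

universe u

/-- Powers of `p` above one. -/
def PPowDeg (p : ℕ) (m : ℕ) : Prop := ∃ k, m = p ^ (k + 1)

/-- Monomial models for all nondecreasing degree vectors of powers of `p` over algebraically closed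
fields of characteristic `p`. -/
def AllModels (p : ℕ) : Prop :=
  ∀ (L : Type u) [Field L] [IsAlgClosed L] [CharP L p] (n : ℕ) (a : Fin n → ℕ),
    Monotone a → (∀ i, PPowDeg p (a i)) → Cyc.Models L a

variable {K : Type u} [Field K] {p : ℕ}

/-- Models give good growth for cores of degrees powers of `p`. -/
lemma goodDeg_of_models [CharP K p] (H : AllModels.{u} p) : GoodDeg K (PPowDeg p) := by
  intro n a ha h2 hP f hf hreg I hI hfI d
  have : CharP (AlgebraicClosure K) p :=
    charP_of_injective_algebraMap (algebraMap K (AlgebraicClosure K)).injective p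
  obtain ⟨s, hs, hd⟩ := Cyc.exists_monomialIdeal (fun i => lt_of_lt_of_le two_pos (h2 i))
    (H (AlgebraicClosure K) n a ha hP) le_rfl hf hreg hI hfI
  obtain ⟨T, hT⟩ := Box.exists_lpp K le_rfl ha s hs
  exact good_of_sets (T := T) (fun t => (hT t).1)
    (fun t e he ⟨i, hi⟩ => (hT t).2.1 e he ⟨i, by simpa using hi⟩)
    (fun t e he e' hd' h h' => (hT t).2.2.1 e he e' hd' (fun i => by simpa using h i)
      (fun i => by simpa using h' i))
    (fun t => (hT t).2.2.2.1.trans (hd t)) (fun t => (hT t).2.2.2.2) d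

/-- Models give lex-plus-powers spaces closed under the variables for regular sequences of forms of
degrees powers of `p`, in any number of variables. -/
theorem exists_lpp_of_models [CharP K p] (H : AllModels.{u} p) {n c : ℕ} (hcn : c ≤ n)
    {a : Fin c → ℕ} (ha : Monotone a) (h2 : ∀ i, 2 ≤ a i) (hP : ∀ i, PPowDeg p (a i))
    {f : Fin c → MvPolynomial (Fin n) K} (hf : ∀ i, (f i).IsHomogeneous (a i))
    (hreg : RegList ⊥ (List.ofFn f))
    {I : Ideal (MvPolynomial (Fin n) K)} (hI : HomogI I) (hfI : ∀ i, f i ∈ I) :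
    ∃ T : ℕ → Finset (Fin n →₀ ℕ), ∀ d,
      (∀ e ∈ T d, e.degree = d) ∧
      (∀ e : Fin n →₀ ℕ, e.degree = d → (∃ i, a i ≤ e (Fin.castLE hcn i)) → e ∈ T d) ∧
      (∀ e ∈ T d, ∀ e' : Fin n →₀ ℕ, e'.degree = d →
        (∀ i, e (Fin.castLE hcn i) < a i) → (∀ i, e' (Fin.castLE hcn i) < a i) →
        toLex e < toLex e' → e' ∈ T d) ∧
      (T d).card = finrank K (degPart d I) ∧
      ∀ e ∈ T d, ∀ v, e + Finsupp.single v 1 ∈ T (d + 1) := by
  have : CharP (AlgebraicClosure K) p :=
    charP_of_injective_algebraMap (algebraMap K (AlgebraicClosure K)).injective p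
  obtain ⟨s, hs, hd⟩ := Cyc.exists_monomialIdeal (fun i => lt_of_lt_of_le two_pos (h2 i))
    (H (AlgebraicClosure K) c a ha hP) hcn hf hreg hI hfI
  obtain ⟨T, hT⟩ := Box.exists_lpp K hcn ha s hs
  exact ⟨T, fun d => ⟨(hT d).1, (hT d).2.1, (hT d).2.2.1, (hT d).2.2.2.1.trans (hd d),
    (hT d).2.2.2.2⟩⟩

lemma ppowDeg_of_dvd {m : ℕ} (h : IsPrimePow m ∧ ringChar K ∣ m) :
    (ringChar K).Prime ∧ PPowDeg (ringChar K) m := by
  obtain ⟨p, k, hp, hk, rfl⟩ := (isPrimePow_nat_iff m).1 h.1
  rcases CharP.char_is_prime_or_zero K (ringChar K) with h' | h'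
  · have heq : ringChar K = p := (Nat.prime_dvd_prime_iff_eq h' hp).1 (h'.dvd_of_dvd_pow h.2)
    exact ⟨h', k - 1, by rw [Nat.sub_add_cancel hk, heq]⟩
  · exact absurd (zero_dvd_iff.1 (h' ▸ h.2)) (pow_pos hp.pos k).ne'

/-- The replacement of the hand-in on cores, given models for all powers of the characteristic. -/
theorem coreForms (H : ∀ p : ℕ, p.Prime → AllModels.{u} p) (K : Type u) [Field K] (n c : ℕ)
    (hc : c ≤ n) (a : Fin c → ℕ) (q : ℕ)
    (hq : q = 2 ∨ q.Prime ∧ (ringChar K = 0 ∨ q ≤ ringChar K) ∨ IsPrimePow q ∧ ringChar K ∣ q)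
    (hn : 3 ≤ n ∨ (∀ i, a i = q) ∨ ∀ i, IsPrimePow (a i) ∧ ringChar K ∣ a i) (ha : Monotone a)
    (ha2 : ∀ i, 2 ≤ a i) (f : Fin c → MvPolynomial (Fin n) K) (hf : ∀ i, (f i).IsHomogeneous (a i))
    (hreg : ∀ i, ∀ u, f i * u ∈ Ideal.span (f '' Set.Iio i) → u ∈ Ideal.span (f '' Set.Iio i))
    (hsplit : ∃ E : Finset (Fin c),
      (E.card ≤ 3 ∨ ((∀ i ∈ E, a i ≤ q) ∧ (E.filter fun i => a i < q).card ≤ 2) ∨
        ∀ i ∈ E, IsPrimePow (a i) ∧ ringChar K ∣ a i) ∧ ∀ i, i ∉ E →
      ∃ ls : List (MvPolynomial (Fin n) (AlgebraicClosure K)), ls.length = a i ∧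
        (∀ l ∈ ls, l.IsHomogeneous 1) ∧ map (algebraMap K (AlgebraicClosure K)) (f i) = ls.prod)
    (I : Ideal (MvPolynomial (Fin n) K)) (hI : ∀ u ∈ I, ∀ d, homogeneousComponent d u ∈ I)
    (hfI : ∀ i, f i ∈ I) :
    ∃ T : ℕ → Finset (Fin n →₀ ℕ), ∀ d,
      (∀ e ∈ T d, e.degree = d) ∧
      (∀ e : Fin n →₀ ℕ, e.degree = d → (∃ i, a i ≤ e (Fin.castLE hc i)) → e ∈ T d) ∧
      (∀ e ∈ T d, ∀ e' : Fin n →₀ ℕ, e'.degree = d →
        (∀ i, e (Fin.castLE hc i) < a i) → (∀ i, e' (Fin.castLE hc i) < a i) →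
        toLex e < toLex e' → e' ∈ T d) ∧
      (T d).card = finrank K ↥(homogeneousSubmodule (Fin n) K d ⊓ I.restrictScalars K) ∧
      ∀ e ∈ T d, ∀ v, e + Finsupp.single v 1 ∈ T (d + 1) := by
  by_cases h3 : 3 ≤ n
  · obtain ⟨E, hE, hE'⟩ := hsplit
    by_cases hold : E.card ≤ 3 ∨ ((∀ i ∈ E, a i ≤ q) ∧ (E.filter fun i => a i < q).card ≤ 2)
    · refine Split.exists_lpp_split ?_ h3 hc ha ha2 hf hreg ⟨E, hold, hE'⟩ hI hfI
      rcases hq with rfl | ⟨hp, hchar⟩ | ⟨hpp, hdvd⟩
      · exact goodCore_two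
      · by_cases he : ringChar K = q
        · obtain ⟨hp', k, hk⟩ := ppowDeg_of_dvd (K := K) (m := q)
            ⟨hp.isPrimePow, he ▸ dvd_rfl⟩
          have : CharP (AlgebraicClosure K) (ringChar K) :=
            charP_of_injective_algebraMap (algebraMap K (AlgebraicClosure K)).injective _
          exact hk ▸ PPow.goodCore_of_factorises (pow_pos hp'.pos _)
            (fun L _ _ _ m => PPow.factorises (ringChar K) k hp' L m)
        · refine goodCore_prime_large hp fun i h1 h2 => ?_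
          rw [← map_natCast (algebraMap K (AlgebraicClosure K))]
          intro h
          have h0 := (map_eq_zero _).1 h
          rw [ringChar.spec] at h0
          have := Nat.le_of_dvd h1 h0
          rcases hchar with h | h
          · rw [h, zero_dvd_iff] at h0; omega
          · omega
      · obtain ⟨hp', k, rfl⟩ := ppowDeg_of_dvd (K := K) ⟨hpp, hdvd⟩
        have : CharP (AlgebraicClosure K) (ringChar K) :=
          charP_of_injective_algebraMap (algebraMap K (AlgebraicClosure K)).injective _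
        exact PPow.goodCore_of_factorises (pow_pos hp'.pos _)
          (fun L _ _ _ m => PPow.factorises (ringChar K) k hp' L m)
    · push Not at hold
      have hall : ∀ i ∈ E, IsPrimePow (a i) ∧ ringChar K ∣ a i := by
        rcases hE with h | h | h
        · omega
        · exact absurd h.2 (not_le.2 (hold.2 h.1))
        · exact h
      obtain ⟨i₀, hi₀⟩ : E.Nonempty := Finset.card_pos.1 (by omega)
      have hp' := (ppowDeg_of_dvd (hall i₀ hi₀)).1
      have : CharP (AlgebraicClosure K) (ringChar K) :=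
        charP_of_injective_algebraMap (algebraMap K (AlgebraicClosure K)).injective _
      exact PMix.exists_lpp_split (goodDeg_of_models (H _ hp')) h3 hc ha ha2 hf hreg
        ⟨E, Or.inr fun i hi => (ppowDeg_of_dvd (hall i hi)).2, hE'⟩ hI hfI
  · have hn' : (∀ i, a i = q) ∨ ∃ hc0 : 0 < c, ∀ i, IsPrimePow (a i) ∧ ringChar K ∣ a i := by
      rcases Nat.eq_zero_or_pos c with rfl | hc0
      · exact Or.inl fun i => i.elim0
      · exact (hn.resolve_left h3).imp_right fun h => ⟨hc0, h⟩
    rcases hn' with heq | ⟨hc0, hall⟩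
    · obtain rfl : a = fun _ => q := funext heq
      rcases hq with rfl | ⟨hp, hchar⟩ | ⟨hpp, hdvd⟩
      · obtain ⟨s, hs, hd⟩ := Quad.exists_monomialIdeal
          (fun L _ => Quad.artinian L) hc hf (Quad.regList_ofFn hreg) hI hfI
        obtain ⟨T, hT⟩ := Box.exists_lpp K hc (a := fun _ => 2) (fun _ _ _ => le_rfl) s hs
        exact ⟨T, fun d => ⟨(hT d).1, (hT d).2.1, (hT d).2.2.1, (hT d).2.2.2.1.trans (hd d),
          (hT d).2.2.2.2⟩⟩
      · by_cases he : ringChar K = q
        · subst he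
          exact exists_lpp_of_models (H _ hp) hc ha ha2 (fun _ => ⟨0, (pow_one _).symm⟩) hf
            (Quad.regList_ofFn hreg) hI hfI
        · refine Cyc.exists_lpp_prime hp (fun i h1 h2 h0 => ?_) hc hf
            (Quad.regList_ofFn hreg) hI hfI
          rw [ringChar.spec] at h0
          have := Nat.le_of_dvd h1 h0
          rcases hchar with h | h
          · rw [h, zero_dvd_iff] at h0; omega
          · omega
      · exact exists_lpp_of_models (H _ (ppowDeg_of_dvd ⟨hpp, hdvd⟩).1) hc ha ha2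
          (fun _ => (ppowDeg_of_dvd ⟨hpp, hdvd⟩).2) hf (Quad.regList_ofFn hreg) hI hfI
    · exact exists_lpp_of_models (H _ (ppowDeg_of_dvd (hall ⟨0, hc0⟩)).1) hc ha ha2
        (fun i => (ppowDeg_of_dvd (hall i)).2) hf (Quad.regList_ofFn hreg) hI hfI

end Vale.Agent.P200.PMix
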