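import Vale.Agent.P200.PMix.Regular
import Vale.Agent.P200.PPow.Flag

/-!
Algebras free on the ordered monomials over a regular local ring of central parameters, the `p`-th
power of a combination of generators being a combination of more central generators plus a linear
form in the parameters, not both zero: every submodule of a free module has rank divisible by
`p ^ r`, so the algebra has no zero divisors.
-/

namespace Vale.Agent.P200.PMix

open Module
open _root_.Vale.Agent.P200.Prime (mono)

universe u

/-- An algebra free over central parameters `t` on the ordered monomials in `r` generators, the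
`p`-th power of a combination of generators being a combination of more central generators plus a
linear form in the parameters, not both zero. -/
structure Model (K : Type u) [Field K] {A : Type u} [CommRing A] [Algebra K A] {q : ℕ}
    (t : Fin q → A) (p r : ℕ) (R : Type u) [Ring R] [Algebra K R] [Algebra A R] where
  /-- the generators, the most central first -/
  gen : Fin r → R
  /-- the generator part of a `p`-th power -/
  pc : (Fin r → K) → Fin r → K
  /-- the parameter part of a `p`-th power -/
  pa : (Fin r → K) → Fin q → K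
  spans : Submodule.span A
    (Set.range fun α : Fin r → Fin p =>
      ((List.finRange r).map fun i => gen i ^ (α i : ℕ)).prod) = ⊤
  indep : LinearIndependent A
    (fun α : Fin r → Fin p => ((List.finRange r).map fun i => gen i ^ (α i : ℕ)).prod)
  bracket : ∀ i j, ∃ c : Fin r → K, (∀ k, c k ≠ 0 → k < i ∧ k < j) ∧ ∃ a : Fin q → R,
    gen i * gen j - gen j * gen i = (∑ k, c k • gen k) + ∑ l, algebraMap A R (t l) * a l
  power : ∀ c : Fin r → K, (∑ i, c i • gen i) ^ p =
    (∑ k, pc c k • gen k) + algebraMap A R (∑ l, algebraMap K A (pa c l) * t l)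
  pc_zero : pc 0 = 0
  pc_shift : ∀ (c : Fin r → K) (j : Fin r) (s : K) (k : Fin r), j ≤ k →
    pc (c + Pi.single j s) k = pc c k
  nondeg : ∀ c : Fin r → K, c ≠ 0 → pc c = 0 → pa c ≠ 0

/-- Regular local parameters with residue field `K`. -/
structure LocParams (K : Type u) [Field K] {A : Type u} [CommRing A] [IsLocalRing A] [Algebra K A]
    {q : ℕ} (t : Fin q → A) : Prop where
  max : Ideal.span (Set.range t) = IsLocalRing.maximalIdeal A
  residue : ∀ a : A, ∃ c : K, a - algebraMap K A c ∈ Ideal.span (Set.range t)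
  minimal : ∀ i, t i ∉ Ideal.span (t '' {l | l ≠ i})
  seq : ∀ (i : Fin q) (a : A), t i * a ∈ Ideal.span (t '' {l : Fin q | (l : ℕ) < i}) →
    a ∈ Ideal.span (t '' {l : Fin q | (l : ℕ) < i})

namespace Model

variable {K : Type u} [Field K] {A : Type u} [CommRing A] [Algebra K A] {p r q : ℕ}
  {t : Fin q → A} {R : Type u} [Ring R] [Algebra K R] [Algebra A R] (S : Model K t p r R)

/-- An ordered monomial in the generators. -/
def mon (α : Fin r → Fin p) : R := ((List.finRange r).map fun i => S.gen i ^ (α i : ℕ)).prod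

/-- The basis of ordered monomials. -/
noncomputable def pBasis : Basis (Fin r → Fin p) A R :=
  Basis.mk S.indep S.spans.ge

lemma pBasis_apply (α : Fin r → Fin p) : S.pBasis α = S.mon α := Basis.mk_apply ..

/-- The standard basis of a free module over the parameters. -/
noncomputable def freeBasis {κ : Type} [Fintype κ] :
    Basis ((_ : κ) × (Fin r → Fin p)) A (κ → R) :=
  Pi.basis fun _ => S.pBasis

include S in
lemma noetherian [IsNoetherianRing A] {κ : Type} [Fintype κ] : IsNoetherian A (κ → R) :=
  have := Module.Finite.of_basis (S.freeBasis (κ := κ))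
  isNoetherian_of_isNoetherianRing_of_finite _ _

variable [IsLocalRing A] (P : LocParams K t)

omit S in
include P in
lemma residue_zero {c : K} (h : algebraMap K A c ∈ Ideal.span (Set.range t)) : c = 0 := by
  by_contra hc
  rw [P.max] at h
  exact (IsLocalRing.mem_maximalIdeal _).1 h ((IsUnit.mk0 c hc).map _)

omit S in
include P in
/-- A nonzero linear form is a unit multiple of no element of the ideal of the other parameters. -/
lemma coord_mem {a : Fin q → K} {j₀ : Fin q} (hj₀ : a j₀ ≠ 0) {c : A}
    (h : (∑ i, algebraMap K A (a i) * t i) * c ∈ Ideal.span (t '' {l | l ≠ j₀})) :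
    c ∈ Ideal.span (Set.range t) := by
  classical
  set J := Ideal.span (t '' {l | l ≠ j₀})
  by_contra hc
  rw [P.max, IsLocalRing.mem_maximalIdeal] at hc
  have hu : IsUnit c := not_not.1 hc
  rw [J.mul_unit_mem_iff_mem hu, ← Finset.add_sum_erase _ _ (Finset.mem_univ j₀)] at h
  have hrest : ∑ i ∈ Finset.univ.erase j₀, algebraMap K A (a i) * t i ∈ J :=
    sum_mem fun i hi => J.mul_mem_left _ (Ideal.subset_span ⟨i, Finset.ne_of_mem_erase hi, rfl⟩)
  rw [J.add_mem_iff_left hrest, J.unit_mul_mem_iff_mem ((IsUnit.mk0 _ hj₀).map _)] at h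
  exact P.minimal j₀ h

variable [IsNoetherianRing A] [IsScalarTower K A R] {κ : Type} [Fintype κ]

include S P in
/-- Families with residues forming a basis on a regular module are a basis over the parameters. -/
lemma basis_of_residues {ι : Type*} [Fintype ι] (M : Submodule R (κ → R)) (hreg : Reg t M q)
    (b : ι → (κ → R)) (hb : ∀ a, b a ∈ M)
    (hres : ∀ x ∈ M, ∃ c : ι → K, x - ∑ a, c a • b a ∈ Q t M q)
    (hind : ∀ c : ι → K, ∑ a, c a • b a ∈ Q t M q → c = 0) :
    (∀ x ∈ M, ∃ c : ι → A, ∑ a, c a • b a = x) ∧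
      ∀ c : ι → A, ∑ a, c a • b a = 0 → c = 0 := by
  classical
  have := S.noetherian (κ := κ)
  refine ⟨fun x hx => ?_, indep_of_regular t P.max.le b hb hreg fun c hc a => ?_⟩
  · refine (Submodule.mem_span_range_iff_exists_fun _).1 ?_
    suffices h : M.restrictScalars A ≤ Submodule.span A (Set.range b) from h hx
    refine Submodule.le_of_le_smul_of_le_jacobson_bot (IsNoetherian.noetherian _)
      (P.max.le.trans (IsLocalRing.maximalIdeal_le_jacobson _)) ?_
    intro y hy
    obtain ⟨c, u, hu, -, hsum⟩ := hres y hy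
    rw [eq_sub_iff_add_eq] at hsum
    rw [← hsum]
    refine add_mem (Submodule.mem_sup_right (sum_mem fun i _ => ?_))
      (Submodule.mem_sup_left (sum_mem fun a _ => ?_))
    · exact Submodule.smul_mem_smul (Ideal.subset_span (Set.mem_range_self i)) (hu i)
    · rw [← algebraMap_smul A (c a) (b a)]
      exact Submodule.smul_mem _ _ (Submodule.subset_span (Set.mem_range_self a))
  · choose e he using fun a => P.residue (c a)
    have h1 : ∑ a, (c a - algebraMap K A (e a)) • b a ∈ Q t M q :=
      mem_Q_of_repr t b hb _ fun a => by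
        rw [setOf_lt_self, Set.image_univ]; exact he a
    have h2 : ∑ a, e a • b a ∈ Q t M q := by
      have := sub_mem hc h1
      simpa [sub_smul, algebraMap_smul] using this
    have := he a
    rwa [show e a = 0 from congrFun (hind e h2) a, map_zero, sub_zero] at this

variable (K t) in
/-- The residues of a module. -/
abbrev resSub (M : Submodule R (κ → R)) : Submodule K ↥(M.restrictScalars K) :=
  ((Q t M q).restrictScalars K).comap (M.restrictScalars K).subtype

include S P in
lemma finite_res (M : Submodule R (κ → R)) :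
    FiniteDimensional K (↥(M.restrictScalars K) ⧸ resSub K t M) := by
  classical
  have := S.noetherian (κ := κ)
  obtain ⟨N, g, hg⟩ := Submodule.fg_iff_exists_fin_generating_family.1
    (IsNoetherian.noetherian (M.restrictScalars A))
  have hgM : ∀ a, g a ∈ M := fun a =>
    (show g a ∈ M.restrictScalars A from hg ▸ Submodule.subset_span (Set.mem_range_self a))
  refine Module.Finite.of_surjective ((resSub K t M).mkQ.comp
    (Fintype.linearCombination K fun a => (⟨g a, hgM a⟩ : M.restrictScalars K))) fun z => ?_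
  obtain ⟨⟨x, hx⟩, rfl⟩ := Submodule.Quotient.mk_surjective _ z
  have hx' : x ∈ Submodule.span A (Set.range g) := hg ▸ hx
  obtain ⟨c, hc⟩ := (Submodule.mem_span_range_iff_exists_fun _).1 hx'
  choose e he using fun a => P.residue (c a)
  refine ⟨e, ?_⟩
  rw [LinearMap.comp_apply, Submodule.mkQ_apply, eq_comm, Submodule.Quotient.eq]
  have h1 : ∑ a, (c a - algebraMap K A (e a)) • g a ∈ Q t M q :=
    mem_Q_of_repr t g hgM _ fun a => by rw [setOf_lt_self, Set.image_univ]; exact he a
  simpa [resSub, Fintype.linearCombination_apply, sub_smul, algebraMap_smul, ← hc] using h1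

include S P in
/-- A regular module has lifts of a basis of its residues as a basis over the parameters. -/
lemma exists_basis (M : Submodule R (κ → R)) (hreg : Reg t M q) :
    ∃ (N : ℕ) (b : Fin N → (κ → R)), (∀ a, b a ∈ M) ∧
      (∀ x ∈ M, ∃ c : Fin N → A, ∑ a, c a • b a = x) ∧
        ∀ c : Fin N → A, ∑ a, c a • b a = 0 → c = 0 := by
  classical
  have := S.finite_res P M
  let v := Module.finBasis K (↥(M.restrictScalars K) ⧸ resSub K t M)
  choose b hb using fun a => Submodule.Quotient.mk_surjective (resSub K t M) (v a)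
  have hmk : ∀ c : Fin _ → K, (Submodule.Quotient.mk (∑ a, c a • b a) :
      ↥(M.restrictScalars K) ⧸ resSub K t M) = ∑ a, c a • v a := fun c => by
    rw [← Submodule.mkQ_apply, map_sum]
    simp [hb]
  refine ⟨_, fun a => (b a : κ → R), fun a => (b a).2,
    S.basis_of_residues P M hreg _ (fun a => (b a).2) (fun x hx => ?_) fun c hc => ?_⟩
  · refine ⟨fun a => v.repr (Submodule.Quotient.mk ⟨x, hx⟩) a, ?_⟩
    have h := (hmk (fun a => v.repr (Submodule.Quotient.mk ⟨x, hx⟩) a)).trans (v.sum_repr _)
    rw [eq_comm, Submodule.Quotient.eq] at h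
    simpa [resSub] using h
  · have h : (Submodule.Quotient.mk (∑ a, c a • b a) :
        ↥(M.restrictScalars K) ⧸ resSub K t M) = 0 :=
      (Submodule.Quotient.mk_eq_zero _).2 (by simpa [resSub] using hc)
    rw [hmk] at h
    exact funext (Fintype.linearIndependent_iff.1 v.linearIndependent c h)

include S P in
/-- A combination of generators is free on a regular module modulo the parameters. -/
lemma line_free [Fact p.Prime] (M : Submodule R (κ → R)) (hreg : Reg t M q)
    (c : Fin r → K) (hc : c ≠ 0) (hpc : S.pc c = 0) {x : κ → R} (hx : x ∈ M)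
    (hvx : (∑ i, c i • S.gen i) • x ∈ Q t M q) :
    ∃ y ∈ M, x - (∑ i, c i • S.gen i) ^ (p - 1) • y ∈ Q t M q := by
  classical
  set v := ∑ i, c i • S.gen i
  set a := S.pa c
  set l : A := ∑ i, algebraMap K A (a i) * t i
  have ha : v ^ p = algebraMap A R l := by
    rw [S.power, hpc]
    simp [a, l]
  obtain ⟨j₀, hj₀⟩ := Function.ne_iff.1 (S.nondeg c hc hpc)
  replace hj₀ : a j₀ ≠ 0 := hj₀
  obtain ⟨N, b, hb, hspan, hli⟩ := S.exists_basis P M hreg
  obtain ⟨u, hu, -, husum⟩ := hvx
  have hp1 : p - 1 + 1 = p := by have := (Fact.out : p.Prime).pos; omega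
  set w := fun i => u i - (a i / a j₀ : K) • u j₀
  set y := (a j₀)⁻¹ • u j₀
  have hsplit : (v • x : κ → R) = l • y + ∑ i, t i • w i := by
    rw [← husum]
    simp only [w, smul_sub, Finset.sum_sub_distrib, Finset.sum_smul, l]
    have : ∀ i, (algebraMap K A (a i) * t i) • y = t i • ((a i / a j₀) • u j₀) := fun i => by
      rw [mul_comm, mul_smul, algebraMap_smul, smul_smul, div_eq_mul_inv]
    simp only [this]
    abel
  have hy : y ∈ M := by
    show (a j₀)⁻¹ • u j₀ ∈ M
    rw [← algebraMap_smul R (a j₀)⁻¹]
    exact M.smul_mem _ (hu j₀)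
  have hw : ∀ i, w i ∈ M := fun i => by
    refine sub_mem (hu i) ?_
    rw [← algebraMap_smul R (a i / a j₀)]
    exact M.smul_mem _ (hu j₀)
  have hw₀ : w j₀ = 0 := by simp [w, div_self hj₀]
  have hl : l • y = v ^ p • y := by rw [ha, algebraMap_smul]
  set z := x - v ^ (p - 1) • y
  refine ⟨y, hy, ?_⟩
  have hz : z ∈ M := sub_mem hx (M.smul_mem _ hy)
  have hvz : l • z = ∑ i, t i • (v ^ (p - 1) • w i) := by
    have h1 : v • z = ∑ i, t i • w i := by
      rw [smul_sub, smul_smul, ← pow_succ', hp1, hsplit, hl]
      abel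
    have h2 : v ^ (p - 1) • v • z = l • z := by
      rw [smul_smul, ← pow_succ, hp1, ha, algebraMap_smul]
    rw [← h2, h1, Finset.smul_sum]
    refine Finset.sum_congr rfl fun i _ => ?_
    rw [← algebraMap_smul R (t i) (w i), ← algebraMap_smul R (t i) (v ^ (p - 1) • w i),
      smul_smul, smul_smul, Algebra.commutes]
  obtain ⟨cz, hcz⟩ := hspan z hz
  choose cw hcw using fun i => hspan _ (M.smul_mem (v ^ (p - 1)) (hw i))
  have hzero := hli (fun a => l * cz a - ∑ i, if i = j₀ then 0 else t i * cw i a) (by
    simp only [sub_smul, Finset.sum_sub_distrib, Finset.sum_smul, mul_smul, ← Finset.smul_sum,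
      hcz, hvz, sub_eq_zero]
    rw [Finset.sum_comm]
    refine Finset.sum_congr rfl fun i _ => ?_
    rcases eq_or_ne i j₀ with rfl | hi
    · simp [hw₀]
    · simp only [if_neg hi, mul_smul, ← Finset.smul_sum, hcw])
  show z ∈ Q t M q
  rw [← hcz]
  refine mem_Q_of_repr t b hb cz fun a' => ?_
  rw [setOf_lt_self, Set.image_univ]
  refine coord_mem P hj₀ (?_ : l * cz a' ∈ _)
  have := congrFun hzero a'
  rw [Pi.zero_apply, sub_eq_zero] at this
  rw [this]
  refine sum_mem fun i _ => ?_
  split_ifs with hi
  · exact zero_mem _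
  · exact Ideal.mul_mem_right _ _ (Ideal.subset_span ⟨i, hi, rfl⟩)

variable [IsAlgClosed K] [Fact p.Prime] [CharP K p]

include S P in
/-- A regular module is free over the algebra modulo torsion-free rank: its rank is a multiple of
`p ^ r`. -/
theorem dvd_of_reg [IsDomain A] (M : Submodule R (κ → R)) (hreg : Reg t M q) :
    p ^ r ∣ finrank A ↥(M.restrictScalars A) := by
  classical
  have hp := (Fact.out : p.Prime)
  have hfin := S.finite_res P M
  set W₀ := resSub K t M
  let V := ↥(M.restrictScalars K) ⧸ W₀
  let op : R → (↥(M.restrictScalars K) →ₗ[K] ↥(M.restrictScalars K)) := fun a =>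
    { toFun := fun x => ⟨a • (x : κ → R), M.smul_mem a x.2⟩
      map_add' := fun x y => Subtype.ext (smul_add ..)
      map_smul' := fun c x => Subtype.ext (smul_comm ..) }
  have hop : ∀ a, W₀ ≤ W₀.comap (op a) := fun a x hx => (Q t M q).smul_mem a hx
  let act : R → Module.End K V := fun a => W₀.mapQ W₀ (op a) (hop a)
  have hact : ∀ a (x : M.restrictScalars K),
      act a (Submodule.Quotient.mk x) = Submodule.Quotient.mk ⟨a • (x : κ → R), M.smul_mem a x.2⟩ :=
    fun a x => rfl
  have act_mul : ∀ a a', act (a * a') = act a * act a' := fun a a' => by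
    refine LinearMap.ext fun z => ?_
    obtain ⟨x, rfl⟩ := Submodule.Quotient.mk_surjective _ z
    rw [Module.End.mul_apply, hact, hact, hact]
    simp only [mul_smul]
  have act_one : act 1 = 1 := by
    refine LinearMap.ext fun z => ?_
    obtain ⟨x, rfl⟩ := Submodule.Quotient.mk_surjective _ z
    rw [hact]
    simp
  have act_add : ∀ a a', act (a + a') = act a + act a' := fun a a' => by
    refine LinearMap.ext fun z => ?_
    obtain ⟨x, rfl⟩ := Submodule.Quotient.mk_surjective _ z
    rw [LinearMap.add_apply, hact, hact, hact, ← Submodule.Quotient.mk_add]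
    congr 1
    exact Subtype.ext (add_smul ..)
  have act_smul : ∀ (c : K) a, act (c • a) = c • act a := fun c a => by
    refine LinearMap.ext fun z => ?_
    obtain ⟨x, rfl⟩ := Submodule.Quotient.mk_surjective _ z
    rw [LinearMap.smul_apply, hact, hact, ← Submodule.Quotient.mk_smul]
    congr 1
    exact Subtype.ext (smul_assoc ..)
  let Φ : R →ₐ[K] Module.End K V := AlgHom.ofLinearMap
    { toFun := act, map_add' := act_add, map_smul' := act_smul } act_one act_mul
  have hΦ : ∀ a, Φ a = act a := fun a => rfl
  have hpar : ∀ i (a : R), Φ (algebraMap A R (t i) * a) = 0 := fun i a => by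
    refine LinearMap.ext fun z => ?_
    obtain ⟨x, rfl⟩ := Submodule.Quotient.mk_surjective _ z
    rw [hΦ, hact, LinearMap.zero_apply, Submodule.Quotient.mk_eq_zero]
    show (algebraMap A R (t i) * a) • (x : κ → R) ∈ Q t M q
    rw [mul_smul, algebraMap_smul]
    exact mem_Q t i.2 (M.smul_mem a x.2)
  set e : Fin r → Module.End K V := fun i => Φ (S.gen i)
  have hbr : ∀ i j, e i * e j - e j * e i ∈ Submodule.span K (e '' {k | k < i ∧ k < j}) := by
    intro i j
    obtain ⟨c, hc, a, hca⟩ := S.bracket i j
    rw [← map_mul, ← map_mul, ← map_sub, hca, map_add, map_sum, map_sum,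
      Finset.sum_eq_zero (fun l _ => hpar l (a l)), add_zero]
    refine Submodule.sum_mem _ fun k _ => ?_
    rw [map_smul]
    by_cases hk : c k = 0
    · rw [hk, zero_smul]; exact zero_mem _
    · exact Submodule.smul_mem _ _ (Submodule.subset_span ⟨k, hc k hk, rfl⟩)
  have hv : ∀ c : Fin r → K, ∑ i, c i • e i = Φ (∑ i, c i • S.gen i) := fun c => by
    simp [e, map_sum, map_smul]
  have hpow : ∀ c : Fin r → K, (∑ i, c i • e i) ^ p = ∑ k, S.pc c k • e k := fun c => by
    rw [hv, hv, ← map_pow, S.power, map_add, map_sum (algebraMap A R), map_sum Φ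
      (fun l => algebraMap A R (algebraMap K A (S.pa c l) * t l))]
    refine add_eq_left.2 (Finset.sum_eq_zero fun i _ => ?_)
    rw [mul_comm, map_mul]
    exact hpar i _
  have hline : ∀ c : Fin r → K, c ≠ 0 → S.pc c = 0 → ∀ x, (∑ i, c i • e i) x = 0 →
      ∃ y, ((∑ i, c i • e i) ^ (p - 1)) y = x := by
    intro c hc hpc z hz
    obtain ⟨x, rfl⟩ := Submodule.Quotient.mk_surjective _ z
    rw [hv, hΦ, hact, Submodule.Quotient.mk_eq_zero] at hz
    obtain ⟨y, hy, hy'⟩ := S.line_free P M hreg c hc hpc x.2 hz
    refine ⟨Submodule.Quotient.mk ⟨y, hy⟩, ?_⟩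
    rw [hv, ← map_pow, hΦ, hact, eq_comm, Submodule.Quotient.eq]
    exact hy'
  -- lifts of generators
  set U : Submodule K V := ⨆ i, LinearMap.range (e i)
  let v := Module.finBasis K (V ⧸ U)
  choose g hg using fun a => Submodule.Quotient.mk_surjective U (v a)
  choose g' hg' using fun a => Submodule.Quotient.mk_surjective W₀ (g a)
  have hU : ∀ c : Fin _ → K,
      (Submodule.Quotient.mk (∑ a, c a • g a) : V ⧸ U) = ∑ a, c a • v a := fun c => by
    rw [← Submodule.mkQ_apply, map_sum]
    simp [hg]
  obtain ⟨hS, hI⟩ := PPow.free_of_lines hp r e S.pc hbr hpow S.pc_zero S.pc_shift hline g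
    (fun z => ⟨fun a => v.repr (Submodule.Quotient.mk z) a, (Submodule.Quotient.eq U).1
      ((hU _).trans (v.sum_repr _)).symm⟩)
    (fun c hc => by
      have h := (Submodule.Quotient.mk_eq_zero U).2 hc
      rw [hU] at h
      exact funext (Fintype.linearIndependent_iff.1 v.linearIndependent c h))
  have hmono : ∀ (α : Fin r → Fin p), mono e (fun i => (α i : ℕ)) = Φ (S.mon α) := fun α => by
    rw [Model.mon, map_list_prod, mono, List.map_map]
    simp [e, Function.comp_def]
  let G : Fin _ × (Fin r → Fin p) → (κ → R) := fun q => S.mon q.2 • (g' q.1 : κ → R)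
  have hG : ∀ q, G q ∈ M := fun q => M.smul_mem _ (g' q.1).2
  have hGmk : ∀ c : Fin _ × (Fin r → Fin p) → K,
      ∑ q, c q • mono e (fun i => (q.2 i : ℕ)) (g q.1) =
        (Submodule.Quotient.mk (∑ q, c q • ⟨G q, hG q⟩) : V) := fun c => by
    simp only [hmono, hΦ, ← hg', ← Submodule.mkQ_apply, map_sum, map_smul]
    rfl
  obtain ⟨hGspan, hGind⟩ := S.basis_of_residues P M hreg G hG
    (fun x hx => by
      obtain ⟨c, hc⟩ := hS (Submodule.Quotient.mk ⟨x, hx⟩)
      refine ⟨c, ?_⟩
      rw [hGmk, eq_comm, Submodule.Quotient.eq] at hc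
      simpa [W₀, resSub] using hc)
    (fun c hc => hI c (by
      rw [hGmk, Submodule.Quotient.mk_eq_zero]
      simpa [W₀, resSub] using hc))
  let G' : Fin _ × (Fin r → Fin p) → ↥(M.restrictScalars A) := fun q => ⟨G q, hG q⟩
  have hli : LinearIndependent A G' := Fintype.linearIndependent_iff.2 fun c hc =>
    congrFun (hGind c (by simpa [G'] using congrArg Subtype.val hc))
  have hsp : ⊤ ≤ Submodule.span A (Set.range G') := fun x _ => by
    obtain ⟨c, hc⟩ := hGspan _ x.2
    exact (Submodule.mem_span_range_iff_exists_fun _).2 ⟨c, Subtype.ext (by simpa [G'] using hc)⟩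
  rw [finrank_eq_card_basis (Basis.mk hli hsp)]
  simp [Fintype.card_prod]

include S P in
/-- Every submodule of a free module has rank divisible by `p ^ r`. -/
theorem dvd_finrank [IsDomain A] {κ : Type} [Fintype κ] (M : Submodule R (κ → R)) :
    p ^ r ∣ finrank A ↥(M.restrictScalars A) := by
  classical
  suffices h : ∀ j (κ : Type) [Fintype κ] (M : Submodule R (κ → R)), j ≤ q →
      Reg t M (q - j) → p ^ r ∣ finrank A ↥(M.restrictScalars A) from
    h q κ M le_rfl (fun i hi => absurd hi (by omega))
  intro j
  induction j with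
  | zero => exact fun κ _ M _ hreg => S.dvd_of_reg P M hreg
  | succ j ih =>
    intro κ _ M hj hreg
    have := S.noetherian (κ := κ)
    have : IsNoetherian R (κ → R) := isNoetherian_of_tower A this
    obtain ⟨N, g, hg⟩ := Submodule.fg_iff_exists_fin_generating_family.1
      (IsNoetherian.noetherian M)
    let φ : (Fin N → R) →ₗ[R] (κ → R) := Fintype.linearCombination R g
    have hφ : LinearMap.range φ = M := by rw [Fintype.range_linearCombination, hg]
    have hreg' := reg_ker t φ M hφ hreg (reg_top_of_basis t P.seq (S.freeBasis (κ := Fin N)) _)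
    rw [show q - (j + 1) + 1 = q - j by omega] at hreg'
    have hker := ih (Fin N) _ (by omega) hreg'
    set ψ : (Fin N → R) →ₗ[A] (κ → R) := φ.restrictScalars A
    have := Module.Finite.of_basis (S.freeBasis (κ := Fin N))
    have hrange : LinearMap.range ψ = M.restrictScalars A := by
      rw [← hφ]; rfl
    have hsum := Submodule.finrank_quotient_add_finrank (LinearMap.ker ψ)
    rw [ψ.quotKerEquivRange.finrank_eq, hrange, finrank_eq_card_basis (S.freeBasis (κ := Fin N)),
      Fintype.card_sigma] at hsum
    refine (Nat.dvd_add_left (show p ^ r ∣ finrank A ↥(LinearMap.ker ψ) from hker)).1 ?_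
    rw [hsum]
    simp

include S P in
/-- The algebra has no zero divisors. -/
theorem noZeroDivisors_local [IsDomain A] : NoZeroDivisors R := by
  classical
  constructor
  intro x y hxy
  by_contra hne
  push Not at hne
  let φ : (Fin 1 → R) →ₗ[R] (Fin 1 → R) := Fintype.linearCombination R fun _ => fun _ => y
  have hφ : ∀ c k, φ c k = c 0 * y := fun c k => by
    simp [φ, Fintype.linearCombination_apply]
  set ψ : (Fin 1 → R) →ₗ[A] (Fin 1 → R) := φ.restrictScalars A
  have := Module.Finite.of_basis (S.freeBasis (κ := Fin 1))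
  have := Module.Free.of_basis (S.freeBasis (κ := Fin 1))
  have := S.noetherian (κ := Fin 1)
  have hpos : ∀ (W : Submodule A (Fin 1 → R)), (∃ z ∈ W, z ≠ 0) → 0 < finrank A ↥W := by
    rintro W ⟨z, hz, hz0⟩
    rw [Module.finrank_pos_iff_exists_ne_zero]
    exact ⟨⟨z, hz⟩, fun h => hz0 (congrArg Subtype.val h)⟩
  have h1 : 0 < finrank A ↥(LinearMap.range ψ) :=
    hpos _ ⟨_, ⟨fun _ => 1, rfl⟩, fun h => hne.2 (by
      have := congrFun h 0
      simpa [ψ, hφ] using this)⟩
  have h2 : 0 < finrank A ↥(LinearMap.ker ψ) :=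
    hpos _ ⟨fun _ => x, LinearMap.mem_ker.2 (funext fun k => by
      show φ (fun _ => x) k = 0
      rw [hφ]; exact hxy), fun h => hne.1 (congrFun h 0)⟩
  have hd1 : p ^ r ∣ finrank A ↥(LinearMap.range ψ) := by
    have := S.dvd_finrank P (LinearMap.range φ)
    exact this
  have hd2 : p ^ r ∣ finrank A ↥(LinearMap.ker ψ) := by
    have := S.dvd_finrank P (LinearMap.ker φ)
    exact this
  have hsum := Submodule.finrank_quotient_add_finrank (LinearMap.ker ψ)
  rw [ψ.quotKerEquivRange.finrank_eq, finrank_eq_card_basis (S.freeBasis (κ := Fin 1)),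
    Fintype.card_sigma] at hsum
  simp only [Fintype.card_fun, Fintype.card_fin, Finset.sum_const, Finset.card_univ, smul_eq_mul,
    one_mul] at hsum
  have := Nat.le_of_dvd h1 hd1
  have := Nat.le_of_dvd h2 hd2
  have := pow_pos (Fact.out : p.Prime).pos r
  omega

end Model

end Vale.Agent.P200.PMix
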