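import Mathlib
import Vale.Agent.P200.Prime.Model

/-!
The hypotheses of the domain theorem without a grading: an algebra free over central parameters on
the ordered monomials in its generators, with triangular brackets and `p`-th powers.
-/

namespace Vale.Agent.P200.PMix

open MvPolynomial

universe u v

open _root_.Vale.Agent.P200.Prime (Par)

/-- An algebra free over `q` central parameters on the ordered monomials in `r` generators, the
`p`-th power of a combination of generators being a combination of generators depending only on
the less central coefficients plus a linear form in the parameters, not both zero. -/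
structure LModel (K : Type u) [Field K] (p r q : ℕ) (R : Type v) [Ring R] [Algebra K R]
    [Algebra (Par K q) R] where
  /-- the generators, the most central first -/
  gen : Fin r → R
  /-- the generator part of a `p`-th power -/
  pc : (Fin r → K) → Fin r → K
  /-- the parameter part of a `p`-th power -/
  pa : (Fin r → K) → Fin q → K
  spans : Submodule.span (Par K q)
    (Set.range fun α : Fin r → Fin p =>
      ((List.finRange r).map fun i => gen i ^ (α i : ℕ)).prod) = ⊤
  indep : LinearIndependent (Par K q)
    (fun α : Fin r → Fin p => ((List.finRange r).map fun i => gen i ^ (α i : ℕ)).prod)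
  bracket : ∀ i j, ∃ c : Fin r → K, (∀ k, c k ≠ 0 → k < i ∧ k < j) ∧ ∃ a : Fin q → R,
    gen i * gen j - gen j * gen i =
      (∑ k, c k • gen k) + ∑ l, algebraMap (Par K q) R (X l) * a l
  power : ∀ c : Fin r → K, (∑ i, c i • gen i) ^ p =
    (∑ k, pc c k • gen k) + algebraMap (Par K q) R (∑ l, MvPolynomial.C (pa c l) * X l)
  pc_zero : pc 0 = 0
  pc_shift : ∀ (c : Fin r → K) (j : Fin r) (s : K) (k : Fin r), j ≤ k →
    pc (c + Pi.single j s) k = pc c k
  nondeg : ∀ c : Fin r → K, c ≠ 0 → pc c = 0 → pa c ≠ 0

end Vale.Agent.P200.PMix
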