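import Vale.Agent.P200.PMix.Data

/-!
In a product of `p` coefficients the coordinates of one row come from factors of one row only.
-/

namespace Vale.Agent.P200.PMix

open MvPolynomial PPow
open scoped Pointwise

set_option linter.unusedSectionVars false

/-- A power of a sum as a sum over the choices of the factors. -/
lemma sum_pow_ofFn {A ι : Type*} [Semiring A] [Fintype ι] [DecidableEq ι] (y : ι → A) :
    ∀ a : ℕ, (∑ i, y i) ^ a = ∑ f : Fin a → ι, (List.ofFn fun i => y (f i)).prod := by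
  intro a
  induction a with
  | zero => simp
  | succ a ih =>
    rw [pow_succ', ih, Finset.sum_mul_sum, ← (Fin.consEquiv fun _ : Fin (a + 1) => ι).sum_comp,
      Fintype.sum_prod_type]
    exact Finset.sum_congr rfl fun i _ => Finset.sum_congr rfl fun f _ => by simp [List.ofFn_succ]

namespace Params

variable {K : Type*} [Field K] {p n : ℕ} (P : Params K p n)
variable [hp : Fact p.Prime] [CharP K p] [Infinite K]

/-- The multidegrees of the coefficients of a row. -/
def SD (b : Fin n) : Set (Fin n → ℤ) := {d | ∃ j, j ≤ P.e b ∧ d ∈ P.Deg b ((p : ℤ) ^ j)}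

lemma supp_prod : ∀ {m : ℕ} (S : Fin m → Set (Fin n → ℤ)) (y : Fin m → P.A),
    (∀ i, y i ∈ P.Supp (S i)) →
    (List.ofFn y).prod ∈ P.Supp {d | ∃ dd : Fin m → Fin n → ℤ, (∀ i, dd i ∈ S i) ∧ d = ∑ i, dd i} := by
  intro m
  induction m with
  | zero =>
    intro S y _
    rw [List.ofFn_zero, List.prod_nil]
    refine P.supp_mono ?_ P.one_mem_supp
    intro d hd
    exact ⟨0, fun i => i.elim0, by simpa using hd⟩
  | succ m ih =>
    intro S y hy
    rw [List.ofFn_succ, List.prod_cons]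
    refine P.supp_mono ?_ (P.supp_mul (hy 0) (ih (fun i => S i.succ) _ fun i => hy i.succ))
    rintro _ ⟨d, hd, _, ⟨dd, hdd, rfl⟩, rfl⟩
    refine ⟨Fin.cons d dd, fun i => ?_, by simp [Fin.sum_univ_succ]⟩
    induction i using Fin.cases with
    | zero => simpa using hd
    | succ i => simpa using hdd i

/-- The coordinate of a row among some factors from it. -/
lemma row_sum {m : ℕ} (S : Finset (Fin m)) (b : Fin n) (j : Fin m → ℕ) (d : Fin m → Fin n → ℤ)
    (hj : ∀ i ∈ S, j i ≤ P.e b) (hd : ∀ i ∈ S, d i ∈ P.Deg b ((p : ℤ) ^ j i))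
    (hne : S.Nonempty) (hcard : S.card < p) :
    ∃ r : ℤ, 1 ≤ r ∧ r < P.q b ∧ (P.q b : ℤ) ∣ (∑ i ∈ S, d i b) - r ∧ ∑ i ∈ S, d i b ≤ r ∧
      (∑ i ∈ S, d i b = r → ∀ i ∈ S, ∀ b', b < b' → d i b' = 0) := by
  have hp1 : (1 : ℤ) ≤ p := by exact_mod_cast hp.out.one_le
  refine ⟨∑ i ∈ S, (p : ℤ) ^ j i, ?_, ?_, ?_, Finset.sum_le_sum fun i hi => (hd i hi).2.2.1,
    fun h i hi => (hd i hi).2.2.2.1
      ((Finset.sum_eq_sum_iff_of_le fun i hi => (hd i hi).2.2.1).1 h i hi)⟩
  · obtain ⟨i, hi⟩ := hne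
    exact le_trans (one_le_pow₀ hp1) (Finset.single_le_sum (f := fun i => (p : ℤ) ^ j i)
      (fun k _ => by positivity) hi)
  · calc ∑ i ∈ S, (p : ℤ) ^ j i ≤ ∑ i ∈ S, (p : ℤ) ^ P.e b :=
          Finset.sum_le_sum fun i hi => pow_le_pow_right₀ hp1 (hj i hi)
      _ = S.card * (p : ℤ) ^ P.e b := by rw [Finset.sum_const, nsmul_eq_mul]
      _ < p * (p : ℤ) ^ P.e b := by
          refine mul_lt_mul_of_pos_right (by exact_mod_cast hcard) (by positivity)
      _ = P.q b := by rw [q, Nat.cast_pow, pow_succ']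
  · rw [← Finset.sum_sub_distrib]
    exact Finset.dvd_sum fun i hi => (hd i hi).2.1

/-- Products from different rows avoid the coordinates of the tensor algebras. -/
lemma mixed_ne {f : Fin p → Fin n} (hf : ∃ i i', f i ≠ f i') (dd : Fin p → Fin n → ℤ)
    (hdd : ∀ i, dd i ∈ P.SD (f i)) (a : Fin n) {δ : ℕ} (h1 : 1 ≤ δ) (h2 : δ ≤ P.q a) :
    (Pi.single a (δ : ℤ) : Fin n → ℤ) ≠ ∑ i, dd i := by
  classical
  intro he
  choose j hj hd using hdd
  have hsum : ∀ b, (Pi.single a (δ : ℤ) : Fin n → ℤ) b = ∑ i, dd i b := fun b => by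
    rw [he, Finset.sum_apply]
  have hne : (Finset.univ : Finset (Fin p)).Nonempty := ⟨⟨0, hp.out.pos⟩, Finset.mem_univ _⟩
  obtain ⟨i0, -, hmin⟩ := Finset.univ.exists_min_image f hne
  set b := f i0
  set S := Finset.univ.filter fun i => f i = b
  have hcard : S.card < p := by
    obtain ⟨i, i', hii⟩ := hf
    refine lt_of_lt_of_eq (Finset.card_lt_card (Finset.ssubset_iff_subset_ne.2
      ⟨Finset.subset_univ S, fun e => hii ?_⟩)) (by simp)
    have h : ∀ k, f k = b := fun k =>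
      (Finset.mem_filter.1 (show k ∈ S by rw [e]; exact Finset.mem_univ k)).2
    rw [h, h]
  have hS : ∀ i ∈ S, j i ≤ P.e b ∧ dd i ∈ P.Deg b ((p : ℤ) ^ j i) := fun i hi => by
    have h : f i = b := (Finset.mem_filter.1 hi).2
    exact ⟨h ▸ hj i, h ▸ hd i⟩
  obtain ⟨r, hr1, hr2, hr3, hr4, hr5⟩ := P.row_sum S b j dd (fun i hi => (hS i hi).1)
    (fun i hi => (hS i hi).2) ⟨i0, Finset.mem_filter.2 ⟨Finset.mem_univ _, rfl⟩⟩ hcard
  have hb : ∑ i, dd i b = ∑ i ∈ S, dd i b := by
    symm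
    refine Finset.sum_subset (Finset.subset_univ S) fun i _ hi => (hd i).1 b ?_
    exact lt_of_le_of_ne (hmin i (Finset.mem_univ i))
      fun e => hi (Finset.mem_filter.2 ⟨Finset.mem_univ _, e.symm⟩)
  rcases lt_trichotomy a b with hab | rfl | hab
  · have h0 := hsum a
    rw [Pi.single_eq_same, Finset.sum_eq_zero fun i _ =>
      (hd i).1 a (lt_of_lt_of_le hab (hmin i (Finset.mem_univ i)))] at h0
    omega
  · have h0 := hsum b
    rw [Pi.single_eq_same, hb] at h0
    rw [← h0] at hr3 hr4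
    have heq : (δ : ℤ) = r := by
      obtain ⟨t, ht⟩ := hr3
      rcases lt_trichotomy t 0 with ht0 | rfl | ht0
      · have : (P.q b : ℤ) * t ≤ -(P.q b : ℤ) := by nlinarith
        omega
      · omega
      · have : (P.q b : ℤ) ≤ (P.q b : ℤ) * t := by nlinarith
        omega
    have hz := hr5 (by rw [← h0, heq])
    -- the next row among the others
    set T := Finset.univ.filter fun i => f i ≠ b
    have hT : T.Nonempty := by
      obtain ⟨i, i', hii⟩ := hf
      by_cases h : f i = b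
      · exact ⟨i', Finset.mem_filter.2 ⟨Finset.mem_univ _, fun e => hii (h.trans e.symm)⟩⟩
      · exact ⟨i, Finset.mem_filter.2 ⟨Finset.mem_univ _, h⟩⟩
    obtain ⟨i1, hi1, hmin1⟩ := T.exists_min_image f hT
    have hbb : b < f i1 :=
      lt_of_le_of_ne (hmin i1 (Finset.mem_univ _)) (Ne.symm (Finset.mem_filter.1 hi1).2)
    set S1 := Finset.univ.filter fun i => f i = f i1
    have hcard1 : S1.card < p := by
      refine lt_of_lt_of_eq (Finset.card_lt_card (Finset.ssubset_iff_subset_ne.2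
        ⟨Finset.subset_univ S1, fun e => ?_⟩)) (by simp)
      have h := (Finset.mem_filter.1 (show i0 ∈ S1 by rw [e]; exact Finset.mem_univ i0)).2
      exact hbb.ne h
    have hS1 : ∀ i ∈ S1, j i ≤ P.e (f i1) ∧ dd i ∈ P.Deg (f i1) ((p : ℤ) ^ j i) := fun i hi => by
      have h : f i = f i1 := (Finset.mem_filter.1 hi).2
      exact ⟨h ▸ hj i, h ▸ hd i⟩
    obtain ⟨r1, hr11, hr12, hr13, -, -⟩ := P.row_sum S1 (f i1) j dd (fun i hi => (hS1 i hi).1)
      (fun i hi => (hS1 i hi).2) ⟨i1, Finset.mem_filter.2 ⟨Finset.mem_univ _, rfl⟩⟩ hcard1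
    have h1' : ∑ i ∈ S1, dd i (f i1) = 0 := by
      have h := hsum (f i1)
      rw [Pi.single_eq_of_ne hbb.ne'] at h
      refine (Finset.sum_subset (Finset.subset_univ S1) fun i _ hi => ?_).trans h.symm
      by_cases hib : f i = b
      · exact hz i (Finset.mem_filter.2 ⟨Finset.mem_univ _, hib⟩) _ hbb
      · exact (hd i).1 _ (lt_of_le_of_ne (hmin1 i (Finset.mem_filter.2 ⟨Finset.mem_univ _, hib⟩))
          fun e => hi (Finset.mem_filter.2 ⟨Finset.mem_univ _, e.symm⟩))
    rw [h1', zero_sub, dvd_neg] at hr13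
    have := Int.le_of_dvd (by omega) hr13
    omega
  · have h0 := hsum b
    rw [Pi.single_eq_of_ne hab.ne, hb] at h0
    rw [← h0, zero_sub, dvd_neg] at hr3
    have := Int.le_of_dvd (by omega) hr3
    omega

/-- Coordinates of a `p`-th power of a sum over the rows. -/
lemma cu_sum_pow (y : Fin n → P.A) (hy : ∀ b, y b ∈ P.Supp (P.SD b)) {co : P.Co} {a : Fin n}
    {δ : ℕ} (h1 : 1 ≤ δ) (h2 : δ ≤ P.q a) (hco : P.D co = Pi.single a (δ : ℤ)) :
    P.cu ((∑ b, y b) ^ p) co = ∑ b, P.cu (y b ^ p) co := by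
  classical
  rw [sum_pow_ofFn, map_sum, Finset.sum_apply]
  symm
  refine Finset.sum_bij_ne_zero (fun b _ _ => fun _ => b) (fun _ _ _ => Finset.mem_univ _)
    (fun b _ _ b' _ _ h => congrFun h ⟨0, hp.out.pos⟩) (fun f _ hf => ?_) (fun b _ _ => ?_)
  · by_cases hc : ∃ i i', f i ≠ f i'
    · refine absurd ?_ hf
      refine P.supp_prod (fun i => P.SD (f i)) (fun i => y (f i)) (fun i => hy (f i)) co ?_
      rintro ⟨dd, hdd, e⟩
      exact P.mixed_ne hc dd hdd a h1 h2 (hco ▸ e)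
    · push Not at hc
      have hf0 : f = fun _ => f ⟨0, hp.out.pos⟩ := funext fun i => hc i _
      refine ⟨f ⟨0, hp.out.pos⟩, Finset.mem_univ _, ?_, hf0.symm⟩
      rw [hf0] at hf
      simpa [List.ofFn_const, List.prod_replicate] using hf
  · simp [List.ofFn_const, List.prod_replicate]

end Params

end Vale.Agent.P200.PMix
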