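import Vale.Agent.P200.PMix.HasRows
import Vale.Agent.P200.PMix.Criterion
import Vale.Agent.P200.PMix.Endgame

/-!
Monomial models for every regular sequence whose degrees are powers of the characteristic.
-/

namespace Vale.Agent.P200.PMix

universe u

/-- Rows give models. -/
theorem models_of_hasRows {K : Type u} [Field K] {n : ℕ} {a : Fin n → ℕ} (ha : ∀ i, 0 < a i)
    (H : HasRows K a) : Cyc.Models K a := by
  intro f hf hreg
  obtain ⟨D, _, _, ⟨R⟩⟩ := H f hf hreg
  exact R.hasModel ha hf hreg

/-- Models exist for all degree vectors of powers of the characteristic. -/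
theorem allModels (p : ℕ) (hp : p.Prime) : AllModels.{u} p := by
  intro L _ _ _ n a ha hP
  have : Fact p.Prime := ⟨hp⟩
  refine models_of_hasRows (fun i => ?_) (hasRows L p a ha hP)
  obtain ⟨k, hk⟩ := hP i
  exact hk ▸ pow_pos hp.pos _

end Vale.Agent.P200.PMix
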