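import Vale.Agent.P200.PPow.Words

/-!
Matrices over the unitalisation of orthogonal truncated tensor algebras, one for each row, graded
by multidegrees in the rows.
-/

namespace Vale.Agent.P200.PMix

open MvPolynomial PPow
open PPow.Words (Idx key ofList tens)
open scoped Pointwise

set_option linter.unusedSectionVars false

/-- The data of the rows: exponents, forms of degree `p` on the exponents, linear forms for the
later rows. -/
structure Params (K : Type*) [Field K] (p n : ℕ) where
  /-- one less than the exponents -/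
  e : Fin n → ℕ
  /-- the numbers of forms -/
  R : Fin n → ℕ
  /-- the forms -/
  F : ∀ k, Fin (R k) → MvPolynomial (Expn n (p ^ e k)) K
  hF : ∀ k r, (F k r).IsHomogeneous p
  /-- the linear forms -/
  lin : Fin n → Fin n → (Fin n → K) →ₗ[K] K
  hlin : ∀ k m, ¬ k < m → lin k m = 0

namespace Params

variable {K : Type*} [Field K] {p n : ℕ} (P : Params K p n)

/-- The degree of a row. -/
def q (k : Fin n) : ℕ := p ^ (P.e k + 1)

/-- The coordinates of the tensor algebra of a row. -/
abbrev TI (k : Fin n) : Type := Idx p (P.e k) n (Fin (P.R k))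

/-- The truncated tensor algebra of a row. -/
def TW (k : Fin n) : Type _ := P.TI k → K

noncomputable instance addTW (k : Fin n) : AddCommGroup (P.TW k) :=
  inferInstanceAs (AddCommGroup (P.TI k → K))

noncomputable instance modTW (k : Fin n) : Module K (P.TW k) :=
  inferInstanceAs (Module K (P.TI k → K))

noncomputable instance ringTW (k : Fin n) : NonUnitalRing (P.TW k) where
  __ := P.addTW k
  mul x y := Words.mul (P.F k) x y
  left_distrib x y z := map_add (Words.mul (P.F k) x) y z
  right_distrib x y z := LinearMap.map_add₂ (Words.mul (P.F k)) x y z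
  zero_mul x := LinearMap.map_zero₂ (Words.mul (P.F k)) x
  mul_zero x := map_zero (Words.mul (P.F k) x)
  mul_assoc x y z := Words.mul_assoc' (P.hF k) x y z

lemma tw_mul (k : Fin n) (x y : P.TW k) : x * y = Words.mul (P.F k) x y := rfl

instance towerTW (k : Fin n) : IsScalarTower K (P.TW k) (P.TW k) :=
  ⟨fun t x y => LinearMap.map_smul₂ (Words.mul (P.F k)) t x y⟩

instance commTW (k : Fin n) : SMulCommClass K (P.TW k) (P.TW k) :=
  ⟨fun t x y => ((Words.mul (P.F k) x).map_smul t y).symm⟩

/-- All rows, with a unit. -/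
abbrev U : Type _ := Unitization K (∀ k, P.TW k)

instance towerPi : IsScalarTower K (∀ k, P.TW k) (∀ k, P.TW k) :=
  ⟨fun t x y => funext fun k => smul_mul_assoc t (x k) (y k)⟩

instance commPi : SMulCommClass K (∀ k, P.TW k) (∀ k, P.TW k) :=
  ⟨fun t x y => funext fun k => (mul_smul_comm t (x k) (y k)).symm⟩

/-- The states: one for each pair of rows. -/
abbrev St : Type := ∀ k : Fin n, Fin n → Fin (P.q k)

/-- The algebra. -/
abbrev A : Type _ := Matrix P.St P.St P.U

/-- The coordinates of the tensor algebras. -/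
abbrev J : Type := Σ k, P.TI k

/-- The coordinates of the algebra. -/
abbrev Co : Type := P.St × P.St × Option P.J

/-- The coordinates of an element. -/
noncomputable def cu : P.A ≃ₗ[K] (P.Co → K) where
  toFun x i := match i.2.2 with
    | none => (x i.1 i.2.1).fst
    | some ⟨k, j⟩ => (x i.1 i.2.1).snd k j
  map_add' x y := by
    funext ⟨a, b, o⟩
    rcases o with _ | ⟨k, j⟩ <;> rfl
  map_smul' t x := by
    funext ⟨a, b, o⟩
    rcases o with _ | ⟨k, j⟩ <;> rfl
  invFun v a b := Unitization.inl (v (a, b, none)) +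
    Unitization.inr (fun k => ((fun j => v (a, b, some ⟨k, j⟩)) : P.TI k → K))
  left_inv x := by
    funext a b
    exact Unitization.ext (add_zero (x a b).fst) (zero_add (x a b).snd)
  right_inv v := by
    funext ⟨a, b, o⟩
    rcases o with _ | ⟨k, j⟩
    · exact add_zero _
    · exact zero_add _

lemma cu_none (x : P.A) (a b : P.St) : P.cu x (a, b, none) = (x a b).fst := rfl

lemma cu_some (x : P.A) (a b : P.St) (k : Fin n) (j : P.TI k) :
    P.cu x (a, b, some ⟨k, j⟩) = (x a b).snd k j := rfl

/-- The multidegree of a tensor coordinate. -/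
def jdeg : Option P.J → Fin n → ℤ
  | none => 0
  | some ⟨k, j⟩ => Pi.single k ((key j).2 : ℤ)

/-- The multidegree of a state. -/
def sdeg (a : P.St) (k : Fin n) : ℤ := ∑ m, (a k m : ℤ)

/-- The multidegree of a coordinate. -/
def D (i : P.Co) : Fin n → ℤ := P.sdeg i.1 - P.sdeg i.2.1 + P.jdeg i.2.2

/-- Elements supported in given multidegrees. -/
noncomputable def Supp (S : Set (Fin n → ℤ)) : Submodule K P.A where
  carrier := {x | ∀ i, P.D i ∉ S → P.cu x i = 0}
  add_mem' hx hy i hi := by rw [map_add, Pi.add_apply, hx i hi, hy i hi, add_zero]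
  zero_mem' i _ := by rw [map_zero]; rfl
  smul_mem' t x hx i hi := by rw [map_smul, Pi.smul_apply, hx i hi, smul_zero]

lemma supp_mono {S S' : Set (Fin n → ℤ)} (h : S ⊆ S') : P.Supp S ≤ P.Supp S' :=
  fun _ hx i hi => hx i fun h' => hi (h h')

/-- Multidegrees add up in products. -/
lemma supp_mul {S S' : Set (Fin n → ℤ)} {x y : P.A} (hx : x ∈ P.Supp S) (hy : y ∈ P.Supp S') :
    x * y ∈ P.Supp (S + S') := by
  classical
  intro i hi
  obtain ⟨a, c, o⟩ := i
  by_contra hne
  -- a pair of coordinates
  obtain ⟨b, o₁, o₂, h1, h2, hdeg⟩ : ∃ b o₁ o₂, P.cu x (a, b, o₁) ≠ 0 ∧ P.cu y (b, c, o₂) ≠ 0 ∧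
      P.jdeg o = P.jdeg o₁ + P.jdeg o₂ := by
    rcases o with _ | ⟨k, j⟩
    · rw [cu_none, Matrix.mul_apply, ← Unitization.fstHom_apply K, map_sum] at hne
      obtain ⟨b, -, hb⟩ := Finset.exists_ne_zero_of_sum_ne_zero hne
      rw [map_mul] at hb
      exact ⟨b, none, none, left_ne_zero_of_mul hb, right_ne_zero_of_mul hb, by simp [jdeg]⟩
    · have hs : ((x * y) a c).snd k j = ∑ b, (x a b * y b c).snd k j := by
        rw [Matrix.mul_apply, ← Unitization.sndHom_apply K, map_sum, Finset.sum_apply]
        exact Finset.sum_apply j _ _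
      rw [cu_some, hs] at hne
      obtain ⟨b, -, hb⟩ := Finset.exists_ne_zero_of_sum_ne_zero hne
      rw [Unitization.snd_mul] at hb
      by_cases h1 : (x a b).fst * (y b c).snd k j = 0
      · by_cases h2 : (y b c).fst * (x a b).snd k j = 0
        · have hb' : Words.mul (P.F k) ((x a b).snd k) ((y b c).snd k) j ≠ 0 := by
            intro h3
            refine hb ?_
            show (x a b).fst * (y b c).snd k j + (y b c).fst * (x a b).snd k j +
              Words.mul (P.F k) ((x a b).snd k) ((y b c).snd k) j = 0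
            rw [h1, h2, h3, add_zero, add_zero]
          have hb'' : (∑ u, ∑ w, (((x a b).snd k : P.TI k → K) u *
              ((y b c).snd k : P.TI k → K) w) • Words.mB (P.F k) u w) j ≠ 0 := hb'
          clear hb'
          rename _ => hb'
          rw [Finset.sum_apply] at hb'
          obtain ⟨u, -, hu⟩ := Finset.exists_ne_zero_of_sum_ne_zero hb'
          rw [Finset.sum_apply] at hu
          obtain ⟨w, -, hw⟩ := Finset.exists_ne_zero_of_sum_ne_zero hu
          rw [Pi.smul_apply, smul_eq_mul, ← Words.mul_single] at hw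
          obtain ⟨huw, hw'⟩ := mul_ne_zero_iff.1 hw
          refine ⟨b, some ⟨k, u⟩, some ⟨k, w⟩, left_ne_zero_of_mul huw, right_ne_zero_of_mul huw, ?_⟩
          have h := (Words.hom_mul (P.hF k) (Words.hom_single u) (Words.hom_single w) hw').2
          simp only [jdeg, ← Pi.single_add]
          rw [h]
          simp
        · exact ⟨b, some ⟨k, j⟩, none, right_ne_zero_of_mul h2, left_ne_zero_of_mul h2,
            by simp [jdeg]⟩
      · exact ⟨b, none, some ⟨k, j⟩, left_ne_zero_of_mul h1, right_ne_zero_of_mul h1,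
          by simp [jdeg]⟩
  refine hi ⟨P.D (a, b, o₁), ?_, P.D (b, c, o₂), ?_, ?_⟩
  · by_contra h
    exact h1 (hx _ h)
  · by_contra h
    exact h2 (hy _ h)
  · simp only [D, hdeg]
    abel

lemma one_mem_supp : (1 : P.A) ∈ P.Supp {0} := by
  classical
  rintro ⟨a, c, o⟩ hi
  by_cases h : a = c
  · subst h
    rcases o with _ | ⟨k, j⟩
    · exact absurd (by simp [D, jdeg]) hi
    · rw [cu_some, Matrix.one_apply_eq, Unitization.snd_one]; rfl
  · rcases o with _ | ⟨k, j⟩
    · rw [cu_none, Matrix.one_apply_ne h, Unitization.fst_zero]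
    · rw [cu_some, Matrix.one_apply_ne h, Unitization.snd_zero]; rfl

end Params

end Vale.Agent.P200.PMix
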