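import Vale.Agent.P200.PMix.RowSpec
import Vale.Agent.P200.Cyc.Model

/-!
The linear factorisations of rows commute.
-/

namespace Vale.Agent.P200.PMix

open MvPolynomial
open scoped TensorProduct

universe u

namespace Rows

variable {K : Type u} [Field K] {n : ℕ} {f : Fin n → MvPolynomial (Fin n) K} {a : Fin n → ℕ}
  {D : Type u} [DivisionRing D] [Algebra K D] (R : Rows f a D)

/-- Rows commuting in the symmetrised sense give commuting factorisations. -/
lemma commute_phi (k l : Fin n) :
    Commute (Cyc.phi (K := K) (Cyc.cls f) R.g k) (Cyc.phi (K := K) (Cyc.cls f) R.g l) := by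
  set x := Cyc.cls f
  have hsub : Cyc.phi (K := K) x R.g k * Cyc.phi (K := K) x R.g l -
      Cyc.phi (K := K) x R.g l * Cyc.phi (K := K) x R.g k =
      ∑ t : Fin n × Fin n, (R.g k t.1 * R.g l t.2 - R.g l t.2 * R.g k t.1) ⊗ₜ[K] (x t.1 * x t.2) := by
    simp only [Cyc.phi, Finset.sum_mul_sum, Algebra.TensorProduct.tmul_mul_tmul,
      Fintype.sum_prod_type, TensorProduct.sub_tmul, Finset.sum_sub_distrib]
    refine congrArg₂ (· - ·) rfl ?_
    rw [Finset.sum_comm]
    exact Finset.sum_congr rfl fun i _ => Finset.sum_congr rfl fun j _ => by rw [mul_comm (x j)]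
  refine sub_eq_zero.1 (hsub.trans ?_)
  refine Finset.sum_ninvolution Prod.swap (fun t => ?_) (fun t ht heq => ?_)
    (fun t => Finset.mem_univ _) (fun t => Prod.swap_swap t)
  · rw [Prod.fst_swap, Prod.snd_swap, mul_comm (x t.2), ← TensorProduct.add_tmul]
    have h := R.sym_comm k l t.1 t.2
    rw [show R.g k t.1 * R.g l t.2 - R.g l t.2 * R.g k t.1 +
        (R.g k t.2 * R.g l t.1 - R.g l t.1 * R.g k t.2) = 0 by
      rw [sub_add_sub_comm, sub_eq_zero]; exact h.symm, TensorProduct.zero_tmul]
  · obtain ⟨i, j⟩ := t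
    simp only [Prod.swap, Prod.mk.injEq] at heq
    obtain ⟨rfl, -⟩ := heq
    exact ht (by rw [R.diag_comm, sub_self, TensorProduct.zero_tmul])

end Rows

end Vale.Agent.P200.PMix
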