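import Mathlib

/-!
Regular sequences in a commutative ring of parameters on submodules of modules over an algebra,
kernels of covers, and independence of lifts of residues over a local ring.
-/

namespace Vale.Agent.P200.PMix

variable {A : Type*} [CommRing A] {R : Type*} [Ring R] [Algebra A R]
variable {F : Type*} [AddCommGroup F] [Module R F] [Module A F] [IsScalarTower A R F]
variable {q : ℕ} (t : Fin q → A)

/-- The submodule `∑_{i<k} t i • M`. -/
def Q (M : Submodule R F) (k : ℕ) : Submodule R F where
  carrier := {x | ∃ u : Fin q → F, (∀ i, u i ∈ M) ∧ (∀ i : Fin q, k ≤ (i : ℕ) → u i = 0) ∧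
    ∑ i, t i • u i = x}
  add_mem' := by
    rintro x y ⟨u, hu, hu', rfl⟩ ⟨w, hw, hw', rfl⟩
    exact ⟨u + w, fun i => add_mem (hu i) (hw i), fun i h => by simp [hu' i h, hw' i h],
      by simp [smul_add, Finset.sum_add_distrib]⟩
  zero_mem' := ⟨0, fun i => zero_mem _, fun i _ => rfl, by simp⟩
  smul_mem' := by
    rintro a x ⟨u, hu, hu', rfl⟩
    refine ⟨fun i => a • u i, fun i => M.smul_mem a (hu i), fun i h => by simp [hu' i h], ?_⟩
    rw [Finset.smul_sum]
    refine Finset.sum_congr rfl fun i _ => ?_
    rw [← algebraMap_smul R (t i) (a • u i), ← algebraMap_smul R (t i) (u i), smul_smul, smul_smul,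
      Algebra.commutes]

lemma smul_par_mem {M : Submodule R F} (c : A) {x : F} (hx : x ∈ M) : c • x ∈ M := by
  rw [← algebraMap_smul R c x]
  exact M.smul_mem _ hx

lemma mem_Q {M : Submodule R F} {k : ℕ} {i : Fin q} (hi : (i : ℕ) < k) {x : F} (hx : x ∈ M) :
    t i • x ∈ Q t M k := by
  classical
  refine ⟨Pi.single i x, fun j => ?_, fun j hj => ?_, ?_⟩
  · rcases eq_or_ne j i with rfl | h
    · simpa using hx
    · simp [h]
  · rw [Pi.single_eq_of_ne]
    rintro rfl
    omega
  · rw [Finset.sum_eq_single i (fun j _ hj => by simp [hj]) (by simp)]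
    simp

lemma Q_le {M : Submodule R F} {k : ℕ} : Q t M k ≤ M := by
  rintro x ⟨u, hu, -, rfl⟩
  exact sum_mem fun i _ => smul_par_mem _ (hu i)

lemma Q_mono {M M' : Submodule R F} (h : M ≤ M') {k k' : ℕ} (hk : k ≤ k') :
    Q t M k ≤ Q t M' k' := by
  rintro x ⟨u, hu, hu', rfl⟩
  exact ⟨u, fun i => h (hu i), fun i hi => hu' i (le_trans hk hi), rfl⟩

/-- The first `j` parameters form a regular sequence on `M`. -/
def Reg (M : Submodule R F) (j : ℕ) : Prop :=
  ∀ i : Fin q, (i : ℕ) < j → ∀ x ∈ M, t i • x ∈ Q t M i → x ∈ Q t M i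

variable {F' : Type*} [AddCommGroup F'] [Module R F'] [Module A F'] [IsScalarTower A R F']

omit [IsScalarTower A R F'] in
lemma map_smul_par [IsScalarTower A R F'] (φ : F' →ₗ[R] F) (c : A) (x : F') :
    φ (c • x) = c • φ x := by
  rw [← algebraMap_smul R c x, map_smul, algebraMap_smul]

/-- The kernel of a cover of `M` has one more regular parameter. -/
theorem reg_ker (φ : F' →ₗ[R] F) (M : Submodule R F) (hM : LinearMap.range φ = M) {j : ℕ}
    (hreg : Reg t M j) (htop : Reg t (⊤ : Submodule R F') (j + 1)) :
    Reg t (LinearMap.ker φ) (j + 1) := by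
  classical
  have S : ∀ k, k ≤ j → ∀ u : Fin q → F', (∀ i : Fin q, k ≤ (i : ℕ) → u i = 0) →
      φ (∑ i, t i • u i) = 0 → ∑ i, t i • u i ∈ Q t (LinearMap.ker φ) k := by
    intro k
    induction k with
    | zero =>
      intro _ u hu _
      rw [Finset.sum_eq_zero fun i _ => by rw [hu i (Nat.zero_le _), smul_zero]]
      exact zero_mem _
    | succ k ih =>
      intro hk u hu hφ
      rcases Nat.lt_or_ge k q with hkr | hkr
      · set i₀ : Fin q := ⟨k, hkr⟩
        set u₀ := Function.update u i₀ 0
        have hu₀ : ∀ i : Fin q, k ≤ (i : ℕ) → u₀ i = 0 := by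
          intro i hi
          rcases eq_or_ne i i₀ with rfl | hne
          · exact Function.update_self ..
          · rw [show u₀ i = u i from Function.update_of_ne hne ..]
            refine hu i ?_
            have : (i : ℕ) ≠ k := fun h => hne (Fin.ext h)
            omega
        have hsplit : ∑ i, t i • u i = t i₀ • u i₀ + ∑ i, t i • u₀ i := by
          rw [← Finset.add_sum_erase _ _ (Finset.mem_univ i₀),
            ← Finset.add_sum_erase (f := fun i => t i • u₀ i) _ (Finset.mem_univ i₀)]
          simp only [u₀, Function.update_self, smul_zero, zero_add]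
          congr 1
          exact Finset.sum_congr rfl fun i hi => by
            rw [Function.update_of_ne (Finset.ne_of_mem_erase hi)]
        have hmem : t i₀ • φ (u i₀) ∈ Q t M k := by
          refine ⟨fun i => -φ (u₀ i), fun i => neg_mem (hM ▸ ⟨_, rfl⟩),
            fun i hi => by simp [hu₀ i hi], ?_⟩
          have h0 := hφ
          rw [hsplit, map_add, map_smul_par, map_sum] at h0
          simp only [map_smul_par] at h0
          simp only [smul_neg, Finset.sum_neg_distrib]
          exact neg_eq_of_add_eq_zero_left h0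
        obtain ⟨w, hw, hw', hweq⟩ :=
          hreg i₀ (Nat.lt_of_succ_le hk) (φ (u i₀)) (hM ▸ ⟨_, rfl⟩) hmem
        choose W hW using fun i => (hM ▸ hw i : w i ∈ LinearMap.range φ)
        set W' : Fin q → F' := fun i => if k ≤ (i : ℕ) then 0 else W i
        have hW' : ∀ i, φ (W' i) = w i := fun i => by
          simp only [W']
          split_ifs with h
          · rw [map_zero, hw' i h]
          · exact hW i
        set u' := u i₀ - ∑ i, t i • W' i
        have hker : u' ∈ LinearMap.ker φ := by
          rw [LinearMap.mem_ker, map_sub, map_sum]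
          simp only [map_smul_par, hW', hweq, sub_self]
        have heq : ∑ i, t i • u i = t i₀ • u' + ∑ i, t i • (u₀ i + t i₀ • W' i) := by
          rw [hsplit]
          simp only [u', smul_sub, Finset.smul_sum, smul_add, Finset.sum_add_distrib,
            smul_comm (t i₀)]
          abel
        rw [heq] at hφ ⊢
        refine add_mem (mem_Q t (Nat.lt_succ_self k) hker) (Q_mono t le_rfl (Nat.le_succ k)
          (ih (by omega) _ (fun i hi => by simp [hu₀ i hi, W', hi]) ?_))
        rwa [map_add, map_smul_par, LinearMap.mem_ker.1 hker, smul_zero, zero_add] at hφ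
      · exact Q_mono t le_rfl (Nat.le_succ k)
          (ih (by omega) u (fun i hi => absurd i.2 (by omega)) hφ)
  intro i hi x hx hix
  obtain ⟨u, -, hu', hueq⟩ := htop i hi x Submodule.mem_top
    (Q_mono t le_top le_rfl hix)
  rw [← hueq] at hx ⊢
  exact S i (by omega) u hu' (LinearMap.mem_ker.1 hx)

omit [IsScalarTower A R F] in
/-- Coordinates of `Q` in a family spanning over the parameters. -/
lemma repr_mem_of_mem_Q [IsScalarTower A R F] {ι : Type*} [Fintype ι] (b : ι → F)
    {M : Submodule R F} (hM : ∀ x ∈ M, ∃ c : ι → A, ∑ a, c a • b a = x) {k : ℕ} {x : F}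
    (hx : x ∈ Q t M k) :
    ∃ c : ι → A, (∀ a, c a ∈ Ideal.span (t '' {i : Fin q | (i : ℕ) < k})) ∧
      ∑ a, c a • b a = x := by
  obtain ⟨u, hu, hu', rfl⟩ := hx
  choose c hc using fun i => hM _ (hu i)
  refine ⟨fun a => ∑ i ∈ Finset.univ.filter (fun i : Fin q => (i : ℕ) < k), t i * c i a,
    fun a => sum_mem fun i hi =>
      Ideal.mul_mem_right _ _ (Ideal.subset_span ⟨i, (Finset.mem_filter.1 hi).2, rfl⟩), ?_⟩
  simp only [Finset.sum_smul, mul_smul]
  rw [Finset.sum_comm]
  simp only [← Finset.smul_sum, hc]
  refine Finset.sum_filter_of_ne fun i _ hne => ?_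
  by_contra h
  exact hne (by rw [hu' i (by omega), smul_zero])

lemma mem_Q_of_repr {ι : Type*} [Fintype ι] (b : ι → F) {M : Submodule R F}
    (hb : ∀ a, b a ∈ M) {k : ℕ} (c : ι → A)
    (hc : ∀ a, c a ∈ Ideal.span (t '' {i : Fin q | (i : ℕ) < k})) :
    ∑ a, c a • b a ∈ Q t M k := by
  refine sum_mem fun a _ => ?_
  have key : ∀ f ∈ Ideal.span (t '' {i : Fin q | (i : ℕ) < k}), ∀ y ∈ M, f • y ∈ Q t M k := by
    intro f hf
    induction hf using Submodule.span_induction with
    | mem f hf =>
      obtain ⟨i, hi, rfl⟩ := hf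
      exact fun y hy => mem_Q t hi hy
    | zero => intro y _; simp
    | add f g _ _ hf hg => intro y hy; rw [add_smul]; exact add_mem (hf y hy) (hg y hy)
    | smul c f _ hf =>
      intro y hy
      rw [smul_eq_mul, mul_comm, mul_smul]
      exact hf _ (smul_par_mem c hy)
  exact key _ (hc a) _ (hb a)

lemma setOf_lt_self : {i : Fin q | (i : ℕ) < q} = Set.univ :=
  Set.eq_univ_of_forall fun i => i.2

lemma mem_Q_of_span {M : Submodule R F} {f : A} (hf : f ∈ Ideal.span (Set.range t)) {y : F}
    (hy : y ∈ M) : f • y ∈ Q t M q := by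
  have := mem_Q_of_repr t (fun _ : Unit => y) (M := M) (k := q) (fun _ => hy) (fun _ => f)
    (fun _ => by rwa [setOf_lt_self, Set.image_univ])
  simpa using this

/-- A free module has every regular sequence of the parameters regular. -/
theorem reg_top_of_basis
    (hseq : ∀ (i : Fin q) (a : A), t i * a ∈ Ideal.span (t '' {l : Fin q | (l : ℕ) < i}) →
      a ∈ Ideal.span (t '' {l : Fin q | (l : ℕ) < i}))
    {ι : Type*} [Fintype ι] (b : Module.Basis ι A F) (j : ℕ) :
    Reg t (⊤ : Submodule R F) j := by
  intro i _ x _ hx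
  obtain ⟨c, hc, hcx⟩ := repr_mem_of_mem_Q t (fun a => b a)
    (fun y _ => ⟨fun a => b.repr y a, b.sum_repr y⟩) hx
  have hrepr : ∀ a, c a = t i * b.repr x a := fun a => by
    have := congrArg (fun z => b.repr z a) hcx
    rw [congrFun (b.repr_sum_self c) a, map_smul, Finsupp.smul_apply, smul_eq_mul] at this
    exact this
  rw [← b.sum_repr x]
  refine mem_Q_of_repr t (fun a => b a) (fun a => Submodule.mem_top) _ fun a => hseq i _ ?_
  rw [← hrepr]
  exact hc a

/-- Over a noetherian local ring a family with independent residues is independent on a regular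
module. -/
theorem indep_of_regular [IsNoetherianRing A] [IsLocalRing A]
    (hmax : Ideal.span (Set.range t) ≤ IsLocalRing.maximalIdeal A)
    {ι : Type*} [Fintype ι] (b : ι → F) {M : Submodule R F} (hb : ∀ a, b a ∈ M)
    (hreg : Reg t M q)
    (hres : ∀ c : ι → A, ∑ a, c a • b a ∈ Q t M q → ∀ a, c a ∈ Ideal.span (Set.range t))
    (c : ι → A) (hc : ∑ a, c a • b a = 0) : c = 0 := by
  have main : ∀ j, j ≤ q → ∀ c : ι → A, ∑ a, c a • b a ∈ Q t M j →
      ∀ a, c a ∈ Ideal.span (t '' {i : Fin q | (i : ℕ) < j}) := by
    intro j hj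
    induction hd : q - j generalizing j with
    | zero =>
      rw [show j = q by omega, setOf_lt_self, Set.image_univ]
      exact hres
    | succ d ih =>
      intro c hc a
      set i₀ : Fin q := ⟨j, by omega⟩
      set I : Ideal A := Ideal.span (t '' {i : Fin q | (i : ℕ) < j})
      have hins : Ideal.span (t '' {i : Fin q | (i : ℕ) < j + 1}) = Ideal.span {t i₀} ⊔ I := by
        rw [← Ideal.span_insert, ← Set.image_insert_eq]
        congr 2
        ext i
        simp [i₀, Fin.ext_iff]
        omega
      have step : ∀ n, ∀ c : ι → A, ∑ a, c a • b a ∈ Q t M j →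
          ∀ a, ∃ f, c a - t i₀ ^ n * f ∈ I := by
        intro n
        induction n with
        | zero => exact fun c _ a => ⟨c a, by simp⟩
        | succ n ihn =>
          intro c hc
          have h1 := fun a => ih (j + 1) (by omega) (by omega) c
            (Q_mono t le_rfl (Nat.le_succ j) hc) a
          simp only [hins, Ideal.mem_span_singleton_sup] at h1
          choose g y hy hgy using h1
          have h2 : t i₀ • ∑ a, g a • b a ∈ Q t M j := by
            have := sub_mem hc (mem_Q_of_repr t b hb y hy)
            rw [← Finset.sum_sub_distrib] at this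
            rw [Finset.smul_sum]
            convert this using 1
            refine Finset.sum_congr rfl fun a _ => ?_
            rw [← sub_smul, smul_smul]
            congr 1
            rw [← hgy a]
            ring
          have h3 := hreg i₀ i₀.2 _ (sum_mem fun a _ => smul_par_mem _ (hb a)) h2
          intro a
          obtain ⟨f, hf⟩ := ihn g h3 a
          refine ⟨f, ?_⟩
          have h4 := I.add_mem (I.mul_mem_left (t i₀) hf) (hy a)
          convert h4 using 1
          rw [← hgy a]
          ring
      have hne : Ideal.span {t i₀} ≠ ⊤ := fun h =>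
        (IsLocalRing.maximalIdeal.isMaximal A).ne_top (top_le_iff.1 (h ▸
          le_trans (Ideal.span_mono
            (Set.singleton_subset_iff.2 (Set.mem_range_self (f := t) i₀))) hmax))
      rw [← Ideal.Quotient.eq_zero_iff_mem, ← Submodule.mem_bot A,
        ← Ideal.iInf_pow_smul_eq_bot_of_isLocalRing (M := A ⧸ I) _ hne, Submodule.mem_iInf]
      intro n
      obtain ⟨f, hf⟩ := step n c hc a
      rw [Ideal.Quotient.eq.2 hf,
        show Ideal.Quotient.mk I (t i₀ ^ n * f) = t i₀ ^ n • Ideal.Quotient.mk I f from rfl]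
      exact Submodule.smul_mem_smul (Ideal.pow_mem_pow (Ideal.mem_span_singleton_self _) n)
        Submodule.mem_top
  funext a
  have h := main 0 (Nat.zero_le _) c (by rw [hc]; exact zero_mem _) a
  simpa using h

end Vale.Agent.P200.PMix
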