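import Vale.Agent.P200.PMix.Emb

/-!
The rows: their commutation, their multidegrees and their exact powers.
-/

namespace Vale.Agent.P200.PMix

open MvPolynomial PPow
open PPow.Words (Idx key tens ofList wval)
open scoped Pointwise

set_option linter.unusedSectionVars false

namespace Params

variable {K : Type*} [Field K] {p n : ℕ} (P : Params K p n)
variable [hp : Fact p.Prime] [CharP K p]

/-- The weight of a row. -/
def W (k : Fin n) : ℤ := ∏ b ∈ Finset.Iio k, ((P.q b : ℤ) + 1)

/-- The weight of a multidegree. -/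
def wd (d : Fin n → ℤ) : ℤ := ∑ b, P.W b * d b

/-- The multidegrees of the `r`-th power of a row. -/
def Deg (k : Fin n) (r : ℤ) : Set (Fin n → ℤ) :=
  {d | (∀ b, b < k → d b = 0) ∧ (P.q k : ℤ) ∣ d k - r ∧ d k ≤ r ∧
    (d k = r → ∀ b, k < b → d b = 0) ∧ r * P.W k ≤ P.wd d}

lemma q_two_le (k : Fin n) : 2 ≤ P.q k :=
  le_trans hp.out.two_le (Nat.le_self_pow (by omega) p)

lemma W_pos (k : Fin n) : 0 < P.W k := Finset.prod_pos fun _ _ => by positivity

lemma W_lt {k m : Fin n} (h : k < m) : ((P.q k : ℤ) + 1) * P.W k ≤ P.W m := by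
  have hk : k ∉ Finset.Iio k := by simp
  rw [W, ← Finset.prod_insert (f := fun b => (P.q b : ℤ) + 1) hk]
  refine Finset.prod_le_prod_of_subset_of_one_le (fun b hb => ?_) (fun b _ => by positivity)
    fun b _ _ => by omega
  rcases Finset.mem_insert.1 hb with rfl | hb
  · exact Finset.mem_Iio.2 h
  · exact Finset.mem_Iio.2 (lt_trans (Finset.mem_Iio.1 hb) h)

lemma wd_add (d d' : Fin n → ℤ) : P.wd (d + d') = P.wd d + P.wd d' := by
  simp [wd, mul_add, Finset.sum_add_distrib]

lemma wd_single (k : Fin n) (r : ℤ) : P.wd (Pi.single k r) = r * P.W k := by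
  rw [wd, Finset.sum_eq_single k (fun b _ hb => by simp [hb]) (by simp), Pi.single_eq_same,
    mul_comm]

lemma single_mem_Deg (k : Fin n) (r : ℤ) : (Pi.single k r : Fin n → ℤ) ∈ P.Deg k r :=
  ⟨fun b hb => Pi.single_eq_of_ne hb.ne _, by simp, by simp,
    fun _ b hb => Pi.single_eq_of_ne hb.ne' _, by rw [wd_single]⟩

lemma Deg_add (k : Fin n) (r r' : ℤ) : P.Deg k r + P.Deg k r' ⊆ P.Deg k (r + r') := by
  rintro _ ⟨d, ⟨h0, h1, h2, h3, h4⟩, d', ⟨h0', h1', h2', h3', h4'⟩, rfl⟩
  refine ⟨fun b hb => by simp [h0 b hb, h0' b hb], ?_, by simp only [Pi.add_apply]; omega,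
    fun h b hb => ?_, ?_⟩
  · simp only [Pi.add_apply]
    rw [show d k + d' k - (r + r') = (d k - r) + (d' k - r') by ring]
    exact dvd_add h1 h1'
  · simp only [Pi.add_apply] at h ⊢
    rw [h3 (by omega) b hb, h3' (by omega) b hb, add_zero]
  · show (r + r') * P.W k ≤ P.wd (d + d')
    rw [add_mul, wd_add]
    exact add_le_add h4 h4'

/-- A wrap followed by a later row. -/
lemma wrap_add {k m : Fin n} (h : k < m) :
    {(Pi.single k (1 - (P.q k : ℤ)) : Fin n → ℤ)} + P.Deg m 1 ⊆ P.Deg k 1 := by
  rintro _ ⟨_, rfl, d, ⟨h0, -, -, -, h4⟩, rfl⟩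
  have hq := P.q_two_le k
  have hk : d k = 0 := h0 k h
  refine ⟨fun b hb => ?_, ?_, ?_, fun e b hb => ?_, ?_⟩
  · simp [Pi.single_eq_of_ne hb.ne, h0 b (lt_trans hb h)]
  · simp [hk]
  · simp only [Pi.add_apply, Pi.single_eq_same, hk]; omega
  · simp only [Pi.add_apply, Pi.single_eq_same, hk] at e; omega
  · show 1 * P.W k ≤ P.wd (Pi.single k (1 - (P.q k : ℤ)) + d)
    rw [wd_add, wd_single]
    have := P.W_lt h
    have := P.W_pos k
    nlinarith

/-- The value of a tensor power in a row. -/
noncomputable def tp (k : Fin n) (c : Fin n → K) (a : ℕ) : P.TW k := tens (P.F k) k c a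

/-- A letter. -/
noncomputable def lett (k i : Fin n) : P.TW k := ofList (P.F k) k [i]

/-- The rows at a point. -/
noncomputable def xi (k : Fin n) (c : Fin n → K) : P.A :=
  P.tv k (P.tp k c 1) + ∑ m, if _h : k < m then
    P.lin k m c • P.emb k m (Sm K (P.q k) 1) + P.emb k m (Wm K (P.q k) 1) * xi m c else 0
termination_by n - (k : ℕ)
decreasing_by omega

/-- The part of a row outside its tensor algebra. -/
noncomputable def rest (k : Fin n) (c : Fin n → K) : P.A :=
  ∑ m, if k < m then
    P.lin k m c • P.emb k m (Sm K (P.q k) 1) + P.emb k m (Wm K (P.q k) 1) * P.xi m c else 0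

lemma xi_eq (k : Fin n) (c : Fin n → K) : P.xi k c = P.tv k (P.tp k c 1) + P.rest k c := by
  rw [xi, rest]
  simp only [dite_eq_ite]

lemma tp_one (k : Fin n) (c : Fin n → K) :
    P.tp k c 1 = ∑ i, c i • P.lett k i := by
  show tens (P.F k) k c 1 = ∑ i, c i • ofList (P.F k) k [i]
  rw [tens, ← (Equiv.funUnique (Fin 1) (Fin n)).symm.sum_comp]
  refine Finset.sum_congr rfl fun i _ => ?_
  simp

omit hp [CharP K p] in
lemma induct_down {motive : Fin n → Prop} (h : ∀ k, (∀ m, k < m → motive m) → motive k)
    (k : Fin n) : motive k := by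
  induction hj : n - (k : ℕ) using Nat.strong_induction_on generalizing k with
  | _ j ih => exact h k fun m hm => ih (n - (m : ℕ)) (by omega) m rfl

lemma xi_linear (k : Fin n) : ∀ (t : K) (c c' : Fin n → K),
    P.xi k (t • c + c') = t • P.xi k c + P.xi k c' := by
  induction k using induct_down with
  | h k ih =>
    intro t c c'
    have h1 : P.tp k (t • c + c') 1 = t • P.tp k c 1 + P.tp k c' 1 := by
      rw [tp_one, tp_one, tp_one, Finset.smul_sum, ← Finset.sum_add_distrib]
      exact Finset.sum_congr rfl fun i _ => by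
        rw [Pi.add_apply, Pi.smul_apply, smul_eq_mul, add_smul, smul_smul]
    have h2 : P.rest k (t • c + c') = t • P.rest k c + P.rest k c' := by
      simp only [rest, Finset.smul_sum, ← Finset.sum_add_distrib]
      refine Finset.sum_congr rfl fun m _ => ?_
      split_ifs with hm
      · rw [ih m hm, map_add (P.lin k m), map_smul, add_smul, mul_add, mul_smul_comm, smul_add,
          smul_smul, smul_eq_mul]
        abel
      · rw [smul_zero, add_zero]
    rw [xi_eq, xi_eq, xi_eq, h1, h2, map_add, map_smul, smul_add]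
    abel

/-- The rows as linear maps. -/
noncomputable def xiL (k : Fin n) : (Fin n → K) →ₗ[K] P.A where
  toFun := P.xi k
  map_add' c c' := by simpa using P.xi_linear k 1 c c'
  map_smul' t c := by
    have h0 : P.xi k 0 = 0 := by simpa using P.xi_linear k 1 0 0
    simpa [h0] using P.xi_linear k t c 0

lemma xi_mem_without {b k : Fin n} (h : b < k) (c : Fin n → K) : P.xi k c ∈ P.without b := by
  induction k using induct_down with
  | h k ih =>
    rw [xi_eq]
    refine add_mem (P.tv_mem_without h.ne' _) (sum_mem fun m _ => ?_)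
    split_ifs with hm
    · exact add_mem (Subalgebra.smul_mem _ (P.emb_mem_without k m b _) _)
        (mul_mem (P.emb_mem_without k m b _) (ih m hm (lt_trans h hm)))
    · exact zero_mem _

lemma rest_mem_without (k : Fin n) (c : Fin n → K) : P.rest k c ∈ P.without k := by
  refine sum_mem fun m _ => ?_
  split_ifs with hm
  · exact add_mem (Subalgebra.smul_mem _ (P.emb_mem_without k m k _) _)
      (mul_mem (P.emb_mem_without k m k _) (P.xi_mem_without hm c))
  · exact zero_mem _

lemma xi_commute_emb {k' k : Fin n} (h : k' < k) (m' : Fin n) (c : Fin n → K)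
    (M : Matrix (Fin (P.q k')) (Fin (P.q k')) K) : Commute (P.xi k c) (P.emb k' m' M) := by
  induction k using induct_down with
  | h k ih =>
    rw [xi_eq]
    refine (P.tv_commute_emb k _ k' m' M).add_left (Commute.sum_left _ _ _ fun m _ => ?_)
    split_ifs with hm
    · have hne : (k, m) ≠ (k', m') := fun e => h.ne' (congrArg Prod.fst e)
      exact ((P.emb_comm hne _ _).smul_left _).add_left
        ((P.emb_comm hne _ _).mul_left (ih m hm (lt_trans h hm)))
    · exact Commute.zero_left _

lemma xi_commute (k m : Fin n) (c : Fin n → K) : Commute (P.xi k c) (P.xi m c) := by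
  suffices h : ∀ k, ∀ m, k ≤ m → Commute (P.xi k c) (P.xi m c) by
    rcases le_total k m with hk | hk
    · exact h k m hk
    · exact (h m k hk).symm
  intro k
  induction k using induct_down with
  | h k ih =>
    intro m hm
    rcases hm.eq_or_lt with rfl | hlt
    · exact Commute.refl _
    rw [P.xi_eq k]
    refine (P.tv_commute _ (P.xi_mem_without hlt c)).add_left
      (Commute.sum_left _ _ _ fun m' _ => ?_)
    split_ifs with hm'
    · refine ((P.xi_commute_emb hlt m' c _).symm.smul_left _).add_left
        (Commute.mul_left (P.xi_commute_emb hlt m' c _).symm ?_)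
      rcases le_total m' m with h' | h'
      · exact ih m' hm' m h'
      · exact (ih m hlt m' h').symm
    · exact Commute.zero_left _

/-- The summands of a row commute. -/
lemma summand_commute (k : Fin n) (c : Fin n → K) (m m' : Fin n) :
    Commute
      (if k < m then
        P.lin k m c • P.emb k m (Sm K (P.q k) 1) + P.emb k m (Wm K (P.q k) 1) * P.xi m c else 0)
      (if k < m' then
        P.lin k m' c • P.emb k m' (Sm K (P.q k) 1) + P.emb k m' (Wm K (P.q k) 1) * P.xi m' c
        else 0) := by
  split_ifs with hm hm'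
  · rcases eq_or_ne m m' with rfl | hne
    · exact Commute.refl _
    have he : ∀ M M', Commute (P.emb k m M) (P.emb k m' M') :=
      P.emb_comm fun e => hne (congrArg Prod.snd e)
    refine (Commute.add_right ?_ ?_).add_left (Commute.add_right ?_ ?_)
    · exact ((he _ _).smul_right _).smul_left _
    · exact ((he _ _).mul_right (P.xi_commute_emb hm' m c _).symm).smul_left _
    · exact ((he _ _).mul_left (P.xi_commute_emb hm m' c _)).smul_right _
    · exact (Commute.mul_right (he _ _) (P.xi_commute_emb hm' m c _).symm).mul_left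
        ((P.xi_commute_emb hm m' c _).mul_right (P.xi_commute m m' c))
  all_goals simp

omit [CharP K p] in
lemma mem_supp_pow {S : ℤ → Set (Fin n → ℤ)} (h0 : (0 : Fin n → ℤ) ∈ S 0)
    (hadd : ∀ r r', S r + S r' ⊆ S (r + r')) {x : P.A} {r : ℤ} (hx : x ∈ P.Supp (S r)) :
    ∀ a : ℕ, x ^ a ∈ P.Supp (S (a * r)) := by
  intro a
  induction a with
  | zero =>
    rw [pow_zero, Nat.cast_zero, zero_mul]
    exact P.supp_mono (Set.singleton_subset_iff.2 h0) P.one_mem_supp
  | succ a ih =>
    rw [pow_succ, show ((a + 1 : ℕ) : ℤ) * r = (a : ℤ) * r + r by push_cast; ring]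
    exact P.supp_mono (hadd _ _) (P.supp_mul ih hx)

lemma xi_supp (k : Fin n) (c : Fin n → K) : P.xi k c ∈ P.Supp (P.Deg k 1) := by
  induction k using induct_down with
  | h k ih =>
    rw [xi_eq]
    refine add_mem (P.supp_mono ?_ (P.tv_supp (r := 1) fun i hi => ?_)) (sum_mem fun m _ => ?_)
    · simpa using P.single_mem_Deg k 1
    · obtain ⟨b, w | r⟩ := i
      · rw [show P.tp k c 1 = tens (P.F k) k c 1 from rfl] at hi
        rw [Words.tens_inl] at hi
        split_ifs at hi with h
        · exact h.2
        · exact absurd rfl hi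
      · refine absurd ?_ hi
        show tens (P.F k) k c 1 (b, Sum.inr r) = 0
        simp only [tens, Finset.sum_apply, Pi.smul_apply, Words.ofList_inr, smul_eq_mul]
        refine Finset.sum_eq_zero fun f _ => ?_
        rw [Words.pi_eq_zero (P.hF k) (by
          simp only [List.length_ofFn]
          exact (Nat.one_lt_pow (by omega) hp.out.one_lt).ne)]
        simp
    · split_ifs with hm
      · refine add_mem (Submodule.smul_mem _ _ (P.supp_mono ?_ (P.emb_supp (r := 1) fun a b h => ?_)))
          (P.supp_mono (P.wrap_add hm) (P.supp_mul (P.emb_supp fun a b h => ?_) (ih m hm)))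
        · simpa using P.single_mem_Deg k 1
        · simp only [Sm, Matrix.of_apply] at h
          split_ifs at h with e
          · omega
          · exact absurd rfl h
        · simp only [Wm, Matrix.of_apply] at h
          split_ifs at h with e
          · have := b.2
            omega
          · exact absurd rfl h
      · exact zero_mem _

lemma xi_pow_supp (k : Fin n) (c : Fin n → K) (a : ℕ) :
    P.xi k c ^ a ∈ P.Supp (P.Deg k a) := by
  have h := P.mem_supp_pow (S := P.Deg k) (by simpa using P.single_mem_Deg k 0) (P.Deg_add k)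
    (P.xi_supp k c) a
  rwa [mul_one] at h

lemma tv_pow (k : Fin n) (τ : P.TW k) (t : ℕ) :
    P.tv k τ ^ (t + 1) = P.tv k (Words.powW (P.F k) t τ : P.TW k) := by
  induction t with
  | zero => rw [pow_one]; rfl
  | succ t ih =>
    rw [pow_succ', ih]
    refine (P.tv_mul k τ _).trans (congrArg (P.tv k) ?_)
    exact (Words.powW_succ t (τ : P.TI k → K)).symm

lemma tp_pow (k : Fin n) (c : Fin n → K) {a : ℕ} (ha : 0 < a) :
    P.tv k (P.tp k c 1) ^ a = P.tv k (P.tp k c a) := by
  obtain ⟨t, rfl⟩ : ∃ t, a = t + 1 := ⟨a - 1, by omega⟩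
  rw [tv_pow, tp, Words.powW_tens (P.hF k) k c one_pos t, mul_one]
  rfl

instance nonemptySt : Nonempty P.St := ⟨fun _ _ => ⟨0, pow_pos hp.out.pos _⟩⟩

lemma charP_A : CharP P.A p :=
  charP_of_injective_algebraMap (algebraMap K P.A).injective p

/-- The exact powers of a row. -/
theorem xi_pow_prime (k : Fin n) (c : Fin n → K) (j : ℕ) :
    P.xi k c ^ p ^ j = P.tv k (P.tp k c (p ^ j)) + P.rest k c ^ p ^ j := by
  have := P.charP_A
  rw [xi_eq, add_pow_char_pow_of_commute p j (P.tv_commute _ (P.rest_mem_without k c)),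
    P.tp_pow k c (pow_pos hp.out.pos j)]

/-- The coefficient of a form in the algebra of a row. -/
noncomputable def Z (k : Fin n) (r : Fin (P.R k)) : P.A :=
  P.tv k (Pi.single ((k, Sum.inr r) : P.TI k) 1 : P.TI k → K)

/-- The exact power of a row at its degree. -/
theorem xi_pow_q (k : Fin n) (c : Fin n → K) :
    P.xi k c ^ P.q k = (∑ r, eval c (mult K n (p ^ P.e k) (P.F k r)) • P.Z k r) +
      ∑ m, P.lin k m c ^ (P.q k - 1) • P.xi m c := by
  classical
  have := P.charP_A
  rw [q, xi_pow_prime]
  congr 1
  · simp only [Z]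
    refine ((congrArg (P.tv k) ?_).trans (map_sum (P.tv k) (fun r => eval c (mult K n (p ^ P.e k) (P.F k r)) •
      ((Pi.single ((k, Sum.inr r) : P.TI k) (1 : K) : P.TI k → K) : P.TW k)) Finset.univ)).trans
      (Finset.sum_congr rfl fun r _ => map_smul (P.tv k) _ _)
    show tens (P.F k) k c (p ^ (P.e k + 1)) =
      ∑ r, eval c (mult K n (p ^ P.e k) (P.F k r)) • (Pi.single ((k, Sum.inr r) : P.TI k) (1 : K))
    funext ⟨b, i⟩
    rw [Finset.sum_apply]
    simp only [Pi.smul_apply, Pi.single_apply, smul_eq_mul, mul_ite, mul_one, mul_zero]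
    rcases i with w | r
    · rw [Words.tens_inl, if_neg (fun e => by have := w.2.2; omega),
        Finset.sum_eq_zero fun r _ => if_neg (by simp)]
    · rw [Words.tens_inr (P.hF k)]
      by_cases hb : b = k <;> simp [hb]
  · have hs : ∀ s : Finset (Fin n),
        (∑ m ∈ s, if k < m then
          P.lin k m c • P.emb k m (Sm K (P.q k) 1) + P.emb k m (Wm K (P.q k) 1) * P.xi m c
          else 0) ^ p ^ (P.e k + 1) = ∑ m ∈ s, P.lin k m c ^ (P.q k - 1) • P.xi m c := by
      intro s
      induction s using Finset.induction_on with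
      | empty => rw [Finset.sum_empty, Finset.sum_empty, zero_pow (pow_pos hp.out.pos _).ne']
      | insert m s hms ih =>
        rw [Finset.sum_insert hms, Finset.sum_insert hms, add_pow_char_pow_of_commute p _
          (Commute.sum_right _ _ _ fun m' _ => P.summand_commute k c m m'), ih]
        congr 1
        split_ifs with hm
        · exact companion_pow (P.emb k m) (P.xi m c) (fun M => P.xi_commute_emb hm m c M)
            (P.lin k m c) (pow_pos hp.out.pos _)
        · rw [zero_pow (pow_pos hp.out.pos _).ne', P.hlin k m hm, LinearMap.zero_apply,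
            zero_pow (by have := P.q_two_le k; omega), zero_smul]
    exact hs Finset.univ

end Params

end Vale.Agent.P200.PMix
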